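import Mathlib

/-!
# First-passage percolation on `ℤ²`: passage times

Edges are indexed by `(u, false)` (the edge `u — u + (1,0)`) and `(u, true)` (the edge
`u — u + (0,1)`).
-/

open MeasureTheory Filter Set
open scoped NNReal ENNReal

namespace Vale.Agent.Lib.P158

/-- Vertices of the square lattice. -/
abbrev V := ℤ × ℤ

/-- Edges of the square lattice. -/
abbrev E := V × Bool

/-- Edge-weight environments. -/
abbrev Ω := E → ℝ≥0

/-- The `ℓ¹` distance between vertices. -/
def dist1 (x y : V) : ℕ := (x.1 - y.1).natAbs + (x.2 - y.2).natAbs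

/-- Nearest-neighbour adjacency. -/
def Adj (x y : V) : Prop := dist1 x y = 1

/-- The index of the edge between adjacent vertices `x` and `y`. -/
def edgeOf (x y : V) : E := ((min x.1 y.1, min x.2 y.2), decide (x.1 = y.1))

/-- The weight of the edge between `x` and `y`. -/
noncomputable def wt (ω : Ω) (x y : V) : ℝ := (ω (edgeOf x y) : ℝ)

/-- `IsWalk x l y`: the list `l` records the successive vertices of a nearest-neighbour path
from `x` to `y`. -/
def IsWalk : V → List V → V → Prop
  | x, [], y => x = y
  | x, z :: l, y => Adj x z ∧ IsWalk z l y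

/-- The sum of the weights of the edges traversed by a path. -/
noncomputable def walkSum (ω : Ω) : V → List V → ℝ
  | _, [] => 0
  | x, z :: l => wt ω x z + walkSum ω z l

/-- The passage time: infimum of the path sums over all finite paths from `x` to `y`. -/
noncomputable def T (ω : Ω) (x y : V) : ℝ :=
  ⨅ l : {l : List V // IsWalk x l y}, walkSum ω x l.1

lemma dist1_comm (x y : V) : dist1 x y = dist1 y x := by
  unfold dist1; omega

lemma Adj.symm {x y : V} (h : Adj x y) : Adj y x := by
  unfold Adj at *; rw [dist1_comm]; exact h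

lemma edgeOf_comm (x y : V) : edgeOf x y = edgeOf y x := by
  unfold edgeOf
  have h1 : min x.1 y.1 = min y.1 x.1 := min_comm _ _
  have h2 : min x.2 y.2 = min y.2 x.2 := min_comm _ _
  rw [h1, h2]
  congr 1
  simp [eq_comm]

lemma wt_comm (ω : Ω) (x y : V) : wt ω x y = wt ω y x := by
  unfold wt; rw [edgeOf_comm]

lemma wt_nonneg (ω : Ω) (x y : V) : 0 ≤ wt ω x y := by
  unfold wt; exact NNReal.coe_nonneg _

lemma walkSum_nonneg (ω : Ω) (x : V) (l : List V) : 0 ≤ walkSum ω x l := by
  induction l generalizing x with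
  | nil => simp [walkSum]
  | cons z l ih =>
    simp only [walkSum]
    exact add_nonneg (wt_nonneg ω x z) (ih z)

lemma exists_walk (x y : V) : ∃ l, IsWalk x l y := by
  induction hn : dist1 x y generalizing x with
  | zero =>
    refine ⟨[], ?_⟩
    simp only [IsWalk]
    unfold dist1 at hn
    ext <;> omega
  | succ n ih =>
    by_cases h1 : x.1 = y.1
    · by_cases h2 : x.2 < y.2
      · obtain ⟨l, hl⟩ := ih (x.1, x.2 + 1) (by unfold dist1 at *; simp only at *; omega)
        exact ⟨(x.1, x.2 + 1) :: l, by unfold Adj dist1; simp only; omega, hl⟩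
      · obtain ⟨l, hl⟩ := ih (x.1, x.2 - 1) (by unfold dist1 at *; simp only at *; omega)
        exact ⟨(x.1, x.2 - 1) :: l, by unfold Adj dist1; simp only; omega, hl⟩
    · by_cases h2 : x.1 < y.1
      · obtain ⟨l, hl⟩ := ih (x.1 + 1, x.2) (by unfold dist1 at *; simp only at *; omega)
        exact ⟨(x.1 + 1, x.2) :: l, by unfold Adj dist1; simp only; omega, hl⟩
      · obtain ⟨l, hl⟩ := ih (x.1 - 1, x.2) (by unfold dist1 at *; simp only at *; omega)
        exact ⟨(x.1 - 1, x.2) :: l, by unfold Adj dist1; simp only; omega, hl⟩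

instance walk_nonempty (x y : V) : Nonempty {l : List V // IsWalk x l y} := by
  obtain ⟨l, hl⟩ := exists_walk x y
  exact ⟨⟨l, hl⟩⟩

lemma T_bddBelow (ω : Ω) (x y : V) :
    BddBelow (Set.range fun l : {l : List V // IsWalk x l y} => walkSum ω x l.1) :=
  ⟨0, by rintro _ ⟨l, rfl⟩; exact walkSum_nonneg ω x l.1⟩

lemma T_le_walk (ω : Ω) {x y : V} {l : List V} (hl : IsWalk x l y) : T ω x y ≤ walkSum ω x l :=
  ciInf_le (T_bddBelow ω x y) (⟨l, hl⟩ : {l : List V // IsWalk x l y})

lemma T_nonneg (ω : Ω) (x y : V) : 0 ≤ T ω x y :=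
  le_ciInf fun l => walkSum_nonneg ω x l.1

@[simp] lemma T_self (ω : Ω) (x : V) : T ω x x = 0 := by
  apply le_antisymm _ (T_nonneg ω x x)
  have := T_le_walk ω (x := x) (y := x) (l := []) (by simp [IsWalk])
  simpa [walkSum] using this

/-- One can peel off a first step. -/
lemma T_step_left (ω : Ω) {x z : V} (y : V) (h : Adj x z) : T ω x y ≤ wt ω x z + T ω z y := by
  have : T ω x y - wt ω x z ≤ T ω z y := by
    apply le_ciInf
    rintro ⟨l, hl⟩
    have := T_le_walk ω (x := x) (y := y) (l := z :: l) ⟨h, hl⟩
    simp only [walkSum] at this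
    simp only
    linarith
  linarith

/-- Potential principle: `T · y` is the largest function vanishing at `y` that is `1`-Lipschitz
for the weights. -/
lemma T_ge_of_potential (ω : Ω) {y : V} {U : V → ℝ} (h0 : U y ≤ 0)
    (hU : ∀ x z, Adj x z → U x ≤ wt ω x z + U z) (x : V) : U x ≤ T ω x y := by
  apply le_ciInf
  rintro ⟨l, hl⟩
  simp only
  induction l generalizing x with
  | nil =>
    simp only [IsWalk] at hl
    subst hl
    simpa [walkSum] using h0
  | cons z l ih =>
    simp only [IsWalk] at hl
    simp only [walkSum]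
    have := ih z hl.2
    have := hU x z hl.1
    linarith

lemma T_triangle (ω : Ω) (x y z : V) : T ω x z ≤ T ω x y + T ω y z := by
  have := T_ge_of_potential ω (y := y) (U := fun x => T ω x z - T ω y z) (by simp)
    (fun a b hab => by
      have := T_step_left ω z hab
      linarith) x
  linarith

lemma IsWalk.snoc {x y z : V} {l : List V} (hl : IsWalk x l y) (h : Adj y z) :
    IsWalk x (l ++ [z]) z := by
  induction l generalizing x with
  | nil =>
    simp only [IsWalk] at hl
    subst hl
    simpa [IsWalk] using h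
  | cons a l ih =>
    exact ⟨hl.1, ih hl.2⟩

lemma walkSum_snoc (ω : Ω) {x y z : V} {l : List V} (hl : IsWalk x l y) :
    walkSum ω x (l ++ [z]) = walkSum ω x l + wt ω y z := by
  induction l generalizing x with
  | nil =>
    simp only [IsWalk] at hl
    subst hl
    simp [walkSum]
  | cons a l ih =>
    simp only [List.cons_append, walkSum]
    rw [ih hl.2]
    ring

lemma exists_walk_rev (ω : Ω) {x y : V} {l : List V} (hl : IsWalk x l y) :
    ∃ l', IsWalk y l' x ∧ walkSum ω y l' = walkSum ω x l := by
  induction l generalizing x with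
  | nil =>
    simp only [IsWalk] at hl
    subst hl
    exact ⟨[], by simp [IsWalk], rfl⟩
  | cons a l ih =>
    obtain ⟨l', h1, h2⟩ := ih hl.2
    refine ⟨l' ++ [x], h1.snoc hl.1.symm, ?_⟩
    rw [walkSum_snoc ω h1, h2, wt_comm]
    simp only [walkSum]
    ring

lemma T_le_symm (ω : Ω) (x y : V) : T ω x y ≤ T ω y x := by
  apply le_ciInf
  rintro ⟨l, hl⟩
  obtain ⟨l', h1, h2⟩ := exists_walk_rev ω hl
  simp only
  rw [← h2]
  exact T_le_walk ω h1

lemma T_symm (ω : Ω) (x y : V) : T ω x y = T ω y x :=
  le_antisymm (T_le_symm ω x y) (T_le_symm ω y x)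

lemma T_step_right (ω : Ω) (x : V) {y z : V} (h : Adj y z) : T ω x z ≤ T ω x y + wt ω y z := by
  rw [T_symm ω x z, T_symm ω x y, wt_comm]
  have := T_step_left ω x h.symm
  linarith

lemma T_le_wt (ω : Ω) {x y : V} (h : Adj x y) : T ω x y ≤ wt ω x y := by
  have := T_step_left ω y h
  simpa using this

/-- Monotonicity of passage times in the environment. -/
lemma walkSum_mono {ω₁ ω₂ : Ω} (h : ∀ f, ω₁ f ≤ ω₂ f) (x : V) (l : List V) :
    walkSum ω₁ x l ≤ walkSum ω₂ x l := by
  induction l generalizing x with
  | nil => simp [walkSum]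
  | cons z l ih =>
    simp only [walkSum]
    have : wt ω₁ x z ≤ wt ω₂ x z := by
      unfold wt
      exact_mod_cast h _
    linarith [ih z]

lemma T_mono {ω₁ ω₂ : Ω} (h : ∀ f, ω₁ f ≤ ω₂ f) (x y : V) : T ω₁ x y ≤ T ω₂ x y := by
  apply le_ciInf
  rintro ⟨l, hl⟩
  exact (T_le_walk ω₁ hl).trans (walkSum_mono h x l)

/-! ### Edges -/

lemma edgeOf_inj {x y a b : V} (h : edgeOf x y = edgeOf a b) (hxy : Adj x y) (hab : Adj a b) :
    (x = a ∧ y = b) ∨ (x = b ∧ y = a) := by
  unfold edgeOf at h
  unfold Adj dist1 at hxy hab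
  simp only [Prod.mk.injEq, decide_eq_decide] at h
  obtain ⟨⟨h1, h2⟩, h3⟩ := h
  obtain ⟨x1, x2⟩ := x
  obtain ⟨y1, y2⟩ := y
  obtain ⟨a1, a2⟩ := a
  obtain ⟨b1, b2⟩ := b
  simp only [Prod.mk.injEq] at *
  omega

/-! ### Translations -/

/-- The translated environment: `(θ z ω)` seen from `x` is `ω` seen from `x + z`. -/
def theta (z : V) (ω : Ω) : Ω := fun f => ω (f.1 + z, f.2)

lemma edgeOf_add (x y z : V) : edgeOf (x + z) (y + z) = ((edgeOf x y).1 + z, (edgeOf x y).2) := by
  unfold edgeOf
  obtain ⟨x1, x2⟩ := x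
  obtain ⟨y1, y2⟩ := y
  obtain ⟨z1, z2⟩ := z
  simp only [Prod.mk_add_mk, Prod.mk.injEq, add_left_inj]
  refine ⟨?_, ?_⟩
  · constructor <;> omega
  · simp

lemma wt_theta (z : V) (ω : Ω) (x y : V) : wt (theta z ω) x y = wt ω (x + z) (y + z) := by
  unfold wt theta
  rw [edgeOf_add]

lemma adj_add {x y : V} (z : V) : Adj (x + z) (y + z) ↔ Adj x y := by
  unfold Adj dist1
  obtain ⟨x1, x2⟩ := x
  obtain ⟨y1, y2⟩ := y
  obtain ⟨z1, z2⟩ := z
  simp only [Prod.mk_add_mk]
  constructor <;> intro h <;> omega

lemma T_theta_le (z : V) (ω : Ω) (x y : V) : T ω (x + z) (y + z) ≤ T (theta z ω) x y := by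
  refine T_ge_of_potential (theta z ω) (y := y) (U := fun a => T ω (a + z) (y + z)) (by simp)
    (fun a b hab => ?_) x
  rw [wt_theta]
  exact T_step_left ω _ ((adj_add z).2 hab)

lemma theta_neg_theta (z : V) (ω : Ω) : theta (-z) (theta z ω) = ω := by
  funext f
  simp [theta]

lemma T_theta (z : V) (ω : Ω) (x y : V) : T (theta z ω) x y = T ω (x + z) (y + z) := by
  apply le_antisymm _ (T_theta_le z ω x y)
  have := T_theta_le (-z) (theta z ω) (x + z) (y + z)
  rw [theta_neg_theta] at this
  simpa using this

lemma measurable_theta (z : V) : Measurable (theta z) :=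
  measurable_pi_lambda _ fun f => measurable_pi_apply _

/-! ### Measurability -/

lemma measurable_wt (x y : V) : Measurable fun ω : Ω => wt ω x y :=
  (measurable_pi_apply (edgeOf x y)).coe_nnreal_real

lemma measurable_walkSum (x : V) (l : List V) : Measurable fun ω : Ω => walkSum ω x l := by
  induction l generalizing x with
  | nil => simp only [walkSum]; exact measurable_const
  | cons z l ih =>
    simp only [walkSum]
    exact (measurable_wt x z).add (ih z)

lemma measurable_T (x y : V) : Measurable fun ω : Ω => T ω x y := by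
  unfold T
  exact Measurable.iInf fun l => measurable_walkSum x l.1

/-- Joint measurability of the passage time. -/
lemma measurable_T_comp {α : Type*} [MeasurableSpace α] {f : α → Ω} {a b : α → V}
    (hf : Measurable f) (ha : Measurable a) (hb : Measurable b) :
    Measurable fun p => T (f p) (a p) (b p) := by
  have h1 : Measurable fun q : Ω × (V × V) => T q.1 q.2.1 q.2.2 :=
    measurable_from_prod_countable_left fun y => measurable_T y.1 y.2
  exact h1.comp (hf.prodMk (ha.prodMk hb))

lemma measurable_wt_comp {α : Type*} [MeasurableSpace α] {f : α → Ω} {a b : α → V}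
    (hf : Measurable f) (ha : Measurable a) (hb : Measurable b) :
    Measurable fun p => wt (f p) (a p) (b p) := by
  have h1 : Measurable fun q : Ω × (V × V) => wt q.1 q.2.1 q.2.2 :=
    measurable_from_prod_countable_left fun y => measurable_wt y.1 y.2
  exact h1.comp (hf.prodMk (ha.prodMk hb))

/-! ### Changing one edge -/

/-- Lower bound for the passage time after lowering a single edge: a path either avoids the edge
or uses it. -/
lemma T_lower_bound {ω₁ ω₂ : Ω} {a b : V} (hab : Adj a b)
    (hoff : ∀ f, f ≠ edgeOf a b → ω₁ f = ω₂ f) {X : ℝ} {x y : V}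
    (h1 : X ≤ T ω₂ x y)
    (h2 : X ≤ T ω₂ x a + wt ω₁ a b + T ω₂ b y)
    (h3 : X ≤ T ω₂ x b + wt ω₁ a b + T ω₂ a y) : X ≤ T ω₁ x y := by
  set s := wt ω₁ a b with hs
  have hs0 : 0 ≤ s := wt_nonneg _ _ _
  let U : V → ℝ := fun u => min (min (T ω₂ u y) (T ω₂ u a + s + T ω₂ b y)) (T ω₂ u b + s + T ω₂ a y)
  have hU1 : ∀ u, U u ≤ T ω₂ u y := fun u => (min_le_left _ _).trans (min_le_left _ _)
  have hU2 : ∀ u, U u ≤ T ω₂ u a + s + T ω₂ b y := fun u =>
    (min_le_left _ _).trans (min_le_right _ _)
  have hU3 : ∀ u, U u ≤ T ω₂ u b + s + T ω₂ a y := fun u => min_le_right _ _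
  have hUc : ∀ u, U u = T ω₂ u y ∨ U u = T ω₂ u a + s + T ω₂ b y ∨ U u = T ω₂ u b + s + T ω₂ a y := by
    intro u
    simp only [U]
    rcases min_choice (min (T ω₂ u y) (T ω₂ u a + s + T ω₂ b y)) (T ω₂ u b + s + T ω₂ a y)
      with h | h <;> rw [h]
    · rcases min_choice (T ω₂ u y) (T ω₂ u a + s + T ω₂ b y) with h' | h' <;> rw [h']
      · exact Or.inl rfl
      · exact Or.inr (Or.inl rfl)
    · exact Or.inr (Or.inr rfl)
  have key : U x ≤ T ω₁ x y := by
    refine T_ge_of_potential ω₁ (y := y) (U := U) ?_ ?_ x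
    · simpa using hU1 y
    · intro u w huw
      by_cases he : edgeOf u w = edgeOf a b
      · have hw : wt ω₁ u w = s := by
          rw [hs]
          unfold wt
          rw [he]
        rw [hw]
        rcases edgeOf_inj he huw hab with ⟨rfl, rfl⟩ | ⟨rfl, rfl⟩
        · -- u = a, w = b
          have hd : U u ≤ s + T ω₂ w y := by
            have := hU2 u
            simp only [T_self] at this
            linarith
          rcases hUc w with h | h | h <;> rw [h]
          · exact hd
          · have := T_nonneg ω₂ w u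
            linarith
          · simp only [T_self]
            have := hU1 u
            linarith
        · -- u = b, w = a
          have hd : U u ≤ s + T ω₂ w y := by
            have := hU3 u
            simp only [T_self] at this
            linarith
          rcases hUc w with h | h | h <;> rw [h]
          · exact hd
          · simp only [T_self]
            have := hU1 u
            linarith
          · have := T_nonneg ω₂ w u
            linarith
      · have hw : wt ω₁ u w = wt ω₂ u w := by
          unfold wt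
          rw [hoff _ he]
        rw [hw]
        have e1 := T_step_left ω₂ y huw
        have e2 := T_step_left ω₂ a huw
        have e3 := T_step_left ω₂ b huw
        rcases hUc w with h | h | h <;> rw [h]
        · have := hU1 u
          linarith
        · have := hU2 u
          linarith
        · have := hU3 u
          linarith
  refine le_trans ?_ key
  simp only [U]
  exact le_min (le_min h1 h2) h3

end Vale.Agent.Lib.P158
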