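import Vale.Agent.Lib.P158.Basic

/-!
# Bigeodesics and isolated bigeodesics
-/

open MeasureTheory Filter Set
open scoped NNReal ENNReal

namespace Vale.Agent.Lib.P158

/-- A doubly infinite sequence of vertices. -/
abbrev Line := ℤ → V

/-- A bigeodesic: a doubly infinite sequence of pairwise distinct vertices, consecutive ones
adjacent, all of whose finite segments realise the passage time. -/
structure IsBigeodesic (ω : Ω) (L : Line) : Prop where
  adj : ∀ k, Adj (L k) (L (k + 1))
  inj : Function.Injective L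
  geo : ∀ i j, i < j → ∑ k ∈ Finset.Ico i j, wt ω (L k) (L (k + 1)) = T ω (L i) (L j)

/-- An isolated bigeodesic: every bigeodesic sharing a vertex with `L` has the same trace as `L`,
that is, it is `L` up to a shift or a reversal of the parametrisation. -/
def IsIsolated (ω : Ω) (L : Line) : Prop :=
  IsBigeodesic ω L ∧ ∀ M, IsBigeodesic ω M → (∃ i j, M i = L j) →
    ∃ c, (∀ k, M k = L (k + c)) ∨ (∀ k, M k = L (c - k))

lemma sum_Ico_succ (f : ℤ → ℝ) {i j : ℤ} (h : i ≤ j) :
    ∑ k ∈ Finset.Ico i (j + 1), f k = ∑ k ∈ Finset.Ico i j, f k + f j := by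
  rw [← Finset.insert_Ico_right_eq_Ico_add_one h, Finset.sum_insert Finset.right_notMem_Ico,
    add_comm]

lemma sum_Ico_cons (f : ℤ → ℝ) {i j k : ℤ} (hij : i ≤ j) (hjk : j ≤ k) :
    ∑ x ∈ Finset.Ico i j, f x + ∑ x ∈ Finset.Ico j k, f x = ∑ x ∈ Finset.Ico i k, f x := by
  rw [← Finset.Ico_union_Ico_eq_Ico hij hjk,
    Finset.sum_union (Finset.Ico_disjoint_Ico_consecutive i j k)]

namespace IsBigeodesic

variable {ω : Ω} {L : Line}

lemma geo' (h : IsBigeodesic ω L) {i j : ℤ} (hij : i ≤ j) :
    ∑ k ∈ Finset.Ico i j, wt ω (L k) (L (k + 1)) = T ω (L i) (L j) := by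
  rcases hij.lt_or_eq with hlt | rfl
  · exact h.geo i j hlt
  · simp

lemma T_succ (h : IsBigeodesic ω L) (k : ℤ) : T ω (L k) (L (k + 1)) = wt ω (L k) (L (k + 1)) := by
  have := h.geo k (k + 1) (by omega)
  rw [← this]
  have h2 : Finset.Ico k (k + 1) = {k} := by
    ext x
    simp only [Finset.mem_Ico, Finset.mem_singleton]
    omega
  rw [h2]
  simp

/-- Additivity of the passage time along a bigeodesic. -/
lemma T_add (h : IsBigeodesic ω L) {i j k : ℤ} (hij : i ≤ j) (hjk : j ≤ k) :
    T ω (L i) (L k) = T ω (L i) (L j) + T ω (L j) (L k) := by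
  rw [← h.geo' hij, ← h.geo' hjk, ← h.geo' (hij.trans hjk)]
  exact (sum_Ico_cons _ hij hjk).symm

lemma T_mono_right (h : IsBigeodesic ω L) {i j k : ℤ} (hij : i ≤ j) (hjk : j ≤ k) :
    T ω (L i) (L j) ≤ T ω (L i) (L k) := by
  rw [h.T_add hij hjk]
  linarith [T_nonneg ω (L j) (L k)]

lemma T_mono_left (h : IsBigeodesic ω L) {i j k : ℤ} (hij : i ≤ j) (hjk : j ≤ k) :
    T ω (L j) (L k) ≤ T ω (L i) (L k) := by
  rw [h.T_add hij hjk]
  linarith [T_nonneg ω (L i) (L j)]

/-- A shift of the parametrisation. -/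
lemma shift (h : IsBigeodesic ω L) (c : ℤ) : IsBigeodesic ω (fun k => L (k + c)) := by
  refine ⟨fun k => ?_, fun a b hab => ?_, fun i j hij => ?_⟩
  · have := h.adj (k + c)
    simpa [add_right_comm] using this
  · have := h.inj hab
    omega
  · have := h.geo (i + c) (j + c) (by omega)
    rw [← this]
    have h2 : Finset.Ico (i + c) (j + c) = (Finset.Ico i j).image (fun k => k + c) := by
      ext x
      simp only [Finset.mem_Ico, Finset.mem_image]
      constructor
      · intro hx
        exact ⟨x - c, by omega, by omega⟩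
      · rintro ⟨y, hy, rfl⟩
        omega
    rw [h2, Finset.sum_image (fun a _ b _ hab => by simpa using hab)]
    refine Finset.sum_congr rfl fun k _ => ?_
    rw [add_right_comm]

/-- Reversal of the parametrisation. -/
lemma neg (h : IsBigeodesic ω L) : IsBigeodesic ω (fun k => L (-k)) := by
  refine ⟨fun k => ?_, fun a b hab => ?_, fun i j hij => ?_⟩
  · have := (h.adj (-(k + 1))).symm
    have e : -(k + 1) + 1 = -k := by ring
    rw [e] at this
    exact this
  · have := h.inj hab
    omega
  · rw [T_symm ω (L (-i)) (L (-j)), ← h.geo (-j) (-i) (by omega)]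
    have h2 : Finset.Ico (-j) (-i) = (Finset.Ico i j).image (fun k => -(k + 1)) := by
      ext x
      simp only [Finset.mem_Ico, Finset.mem_image]
      constructor
      · intro hx
        exact ⟨-(x + 1), by omega, by omega⟩
      · rintro ⟨y, hy, rfl⟩
        omega
    rw [h2, Finset.sum_image (fun a _ b _ hab => by simp only [neg_inj] at hab; omega)]
    refine Finset.sum_congr rfl fun k _ => ?_
    have e : -(k + 1) + 1 = -k := by ring
    rw [e, wt_comm]

/-- Translating the environment and the line together. -/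
lemma theta (h : IsBigeodesic ω L) (z : V) :
    IsBigeodesic (theta z ω) (fun k => L k - z) := by
  refine ⟨fun k => ?_, fun a b hab => ?_, fun i j hij => ?_⟩
  · have := h.adj k
    have h2 := (adj_add (x := L k - z) (y := L (k + 1) - z) z).1
    apply h2
    simpa using this
  · exact h.inj (by simpa using hab)
  · rw [T_theta]
    simp only [sub_add_cancel]
    rw [← h.geo i j hij]
    refine Finset.sum_congr rfl fun k _ => ?_
    rw [wt_theta]
    simp only [sub_add_cancel]

end IsBigeodesic

lemma isBigeodesic_theta_iff (z : V) (ω : Ω) (L : Line) :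
    IsBigeodesic (theta z ω) (fun k => L k - z) ↔ IsBigeodesic ω L := by
  constructor
  · intro h
    have := h.theta (-z)
    rw [theta_neg_theta] at this
    simpa using this
  · exact fun h => h.theta z

/-! ### Isolated bigeodesics: invariance -/

namespace IsIsolated

variable {ω : Ω} {L : Line}

lemma shift (h : IsIsolated ω L) (c : ℤ) : IsIsolated ω (fun k => L (k + c)) := by
  refine ⟨h.1.shift c, fun M hM ⟨i, j, hij⟩ => ?_⟩
  obtain ⟨d, hd⟩ := h.2 M hM ⟨i, j + c, hij⟩
  rcases hd with hd | hd
  · exact ⟨d - c, Or.inl fun k => by rw [hd]; congr 1; ring⟩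
  · exact ⟨d - c, Or.inr fun k => by rw [hd]; congr 1; ring⟩

lemma neg (h : IsIsolated ω L) : IsIsolated ω (fun k => L (-k)) := by
  refine ⟨h.1.neg, fun M hM ⟨i, j, hij⟩ => ?_⟩
  obtain ⟨d, hd⟩ := h.2 M hM ⟨i, -j, hij⟩
  rcases hd with hd | hd
  · exact ⟨-d, Or.inr fun k => by rw [hd]; congr 1; ring⟩
  · exact ⟨-d, Or.inl fun k => by rw [hd]; congr 1; ring⟩

lemma theta (h : IsIsolated ω L) (z : V) : IsIsolated (theta z ω) (fun k => L k - z) := by
  refine ⟨h.1.theta z, fun M hM ⟨i, j, hij⟩ => ?_⟩
  have hM' : IsBigeodesic ω (fun k => M k + z) := by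
    have := hM.theta (-z)
    rw [theta_neg_theta] at this
    simpa using this
  obtain ⟨d, hd⟩ := h.2 _ hM' ⟨i, j, by rw [hij]; simp⟩
  refine ⟨d, ?_⟩
  rcases hd with hd | hd
  · exact Or.inl fun k => by
      show M k = L (k + d) - z
      rw [← hd k]; simp
  · exact Or.inr fun k => by
      show M k = L (d - k) - z
      rw [← hd k]; simp

/-- A bigeodesic through an oriented edge of an isolated bigeodesic coincides with it. -/
lemma eq_of_edge (h : IsIsolated ω L) {M : Line} (hM : IsBigeodesic ω M) {t : ℤ}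
    (h0 : M t = L t) (h1 : M (t + 1) = L (t + 1)) : M = L := by
  obtain ⟨d, hd⟩ := h.2 M hM ⟨t, t, h0⟩
  rcases hd with hd | hd
  · have : t + d = t := h.1.inj (by rw [← hd, h0])
    have hd0 : d = 0 := by omega
    subst hd0
    funext k
    simpa using hd k
  · have e1 : d - t = t := h.1.inj (by rw [← hd, h0])
    have e2 : d - (t + 1) = t + 1 := h.1.inj (by rw [← hd, h1])
    omega

end IsIsolated

lemma isIsolated_theta_iff (z : V) (ω : Ω) (L : Line) :
    IsIsolated (theta z ω) (fun k => L k - z) ↔ IsIsolated ω L := by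
  constructor
  · intro h
    have := h.theta (-z)
    rw [theta_neg_theta] at this
    simpa using this
  · exact fun h => h.theta z

end Vale.Agent.Lib.P158
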