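import Vale.Agent.Lib.P158.Blocks

/-!
# Probabilities of good blocks
-/

open MeasureTheory Set ProbabilityTheory
open scoped NNReal ENNReal

namespace Vale.Agent.Lib.P158

variable {M : ℝ≥0} {m : ℕ → ℕ}

lemma good_congr {k : ℕ} : ∀ {x : V} {ω ω' : Ω},
    (∀ i j d, i < ell m k → j < ell m k → ω (fib false x i j, d) = ω' (fib false x i j, d)) →
    (Good M m k x ω ↔ Good M m k x ω') := by
  induction k with
  | zero =>
    intro x ω ω' h
    have h0 : ∀ d, ω (x, d) = ω' (x, d) := fun d => by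
      simpa using h 0 0 d (by simp [ell]) (by simp [ell])
    simp only [Good, h0]
  | succ k ih =>
    intro x ω ω' h
    have key : ∀ a b, a < m k → b < m k →
        (Good M m k (fib false x (a * ell m k) (b * ell m k)) ω ↔
          Good M m k (fib false x (a * ell m k) (b * ell m k)) ω') := by
      intro a b ha hb
      refine ih fun i j d hi hj => ?_
      rw [fib_fib]
      have hl : ∀ c i, c < m k → i < ell m k → c * ell m k + i < ell m (k + 1) := by
        intro c i hc hi
        have : (c + 1) * ell m k ≤ m k * ell m k := Nat.mul_le_mul_right _ hc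
        have e : ell m (k + 1) = m k * ell m k := rfl
        rw [e]
        nlinarith
      exact h _ _ d (hl a i ha hi) (hl b j hb hj)
    simp only [Good]
    constructor
    · rintro ⟨c, r, hcr⟩
      exact ⟨c, r, fun a b ha hb hne => (key a b ha hb).1 (hcr a b ha hb hne)⟩
    · rintro ⟨c, r, hcr⟩
      exact ⟨c, r, fun a b ha hb hne => (key a b ha hb).2 (hcr a b ha hb hne)⟩

lemma good_theta {k : ℕ} (z : V) : ∀ (x : V) (ω : Ω),
    Good M m k x (theta z ω) ↔ Good M m k (x + z) ω := by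
  induction k with
  | zero =>
    intro x ω
    simp [Good, theta]
  | succ k ih =>
    intro x ω
    simp only [Good]
    constructor
    · rintro ⟨c, r, hcr⟩
      refine ⟨c, r, fun a b ha hb hne => ?_⟩
      rw [fib_add_right, ← ih]
      exact hcr a b ha hb hne
    · rintro ⟨c, r, hcr⟩
      refine ⟨c, r, fun a b ha hb hne => ?_⟩
      rw [ih, ← fib_add_right]
      exact hcr a b ha hb hne

lemma measurable_good (k : ℕ) : ∀ x : V, Measurable fun ω : Ω => Good M m k x ω := by
  induction k with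
  | zero =>
    intro x
    simp only [Good]
    refine Measurable.and ?_ ?_
    · exact measurableSet_setOfPred.1 (measurableSet_le (measurable_pi_apply _) measurable_const)
    · exact measurableSet_setOfPred.1 (measurableSet_le (measurable_pi_apply _) measurable_const)
  | succ k ih =>
    intro x
    simp only [Good]
    exact Measurable.exists fun c => Measurable.exists fun r => Measurable.forall fun a =>
      Measurable.forall fun b => Measurable.imp measurable_const (Measurable.imp measurable_const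
        (Measurable.imp measurable_const (ih _)))

/-- The edges owned by a block. -/
noncomputable def ownF (m : ℕ → ℕ) (k : ℕ) (x : V) : Finset E :=
  ((Finset.range (ell m k) ×ˢ Finset.range (ell m k)) ×ˢ (Finset.univ : Finset Bool)).image
    fun p => (fib false x p.1.1 p.1.2, p.2)

lemma good_dep {k : ℕ} {x : V} {ω ω' : Ω} (h : ∀ e ∈ ownF m k x, ω e = ω' e) :
    Good M m k x ω ↔ Good M m k x ω' := by
  refine good_congr fun i j d hi hj => h _ ?_
  unfold ownF
  simp only [Finset.mem_image, Finset.mem_product, Finset.mem_range, Finset.mem_univ, and_true]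
  exact ⟨((i, j), d), ⟨hi, hj⟩, rfl⟩

section indep
variable (G : Measure ℝ≥0) [IsProbabilityMeasure G]

open Classical in
/-- Extension by zero of a function on a finite set of edges. -/
noncomputable def extZ (S : Finset E) (f : S → ℝ≥0) : Ω := fun e => if h : e ∈ S then f ⟨e, h⟩ else 0

lemma measurable_extZ (S : Finset E) : Measurable (extZ S) := by
  classical
  refine measurable_pi_lambda _ fun e => ?_
  unfold extZ
  by_cases h : e ∈ S
  · simp only [h, dif_pos]
    exact measurable_pi_apply _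
  · simp only [h, dif_neg, not_false_eq_true]
    exact measurable_const

lemma indep_disj {S T : Finset E} (hST : Disjoint S T) {A B : Set Ω} (hA : MeasurableSet A)
    (hB : MeasurableSet B) (dA : ∀ ω ω' : Ω, (∀ e ∈ S, ω e = ω' e) → (ω ∈ A ↔ ω' ∈ A))
    (dB : ∀ ω ω' : Ω, (∀ e ∈ T, ω e = ω' e) → (ω ∈ B ↔ ω' ∈ B)) :
    (PP G).real (A ∩ B) = (PP G).real A * (PP G).real B := by
  classical
  have hi : iIndepFun (fun (i : E) (ω : Ω) => ω i) (PP G) :=
    iIndepFun_infinitePi (X := fun _ x => x) (fun _ => measurable_id)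
  have hind := hi.indepFun_finset S T hST (fun i => measurable_pi_apply i)
  have eA : A = (fun (a : Ω) (i : S) => a i) ⁻¹' (extZ S ⁻¹' A) := by
    ext ω
    simp only [Set.mem_preimage]
    refine dA ω _ fun e he => ?_
    simp [extZ, he]
  have eB : B = (fun (a : Ω) (i : T) => a i) ⁻¹' (extZ T ⁻¹' B) := by
    ext ω
    simp only [Set.mem_preimage]
    refine dB ω _ fun e he => ?_
    simp [extZ, he]
  have := hind.measure_inter_preimage_eq_mul _ _ (measurable_extZ S hA) (measurable_extZ T hB)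
  rw [← eA, ← eB] at this
  simp only [Measure.real, this, ENNReal.toReal_mul]

lemma measure_bad_eq (k : ℕ) (x : V) :
    (PP G).real {ω | ¬ Good M m k x ω} = (PP G).real {ω | ¬ Good M m k 0 ω} := by
  have e : {ω | ¬ Good M m k x ω} = theta x ⁻¹' {ω | ¬ Good M m k 0 ω} := by
    ext ω
    simp only [Set.mem_ofPred_eq, Set.mem_preimage]
    rw [good_theta, zero_add]
  rw [e]
  unfold Measure.real
  rw [(measurePreserving_theta G x).measure_preimage
    (measurableSet_setOfPred.2 (measurable_good k 0).not).nullMeasurableSet]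

lemma cell_inj {a a' i i' ℓ : ℕ} (hi : i < ℓ) (hi' : i' < ℓ) (h : a * ℓ + i = a' * ℓ + i') :
    a = a' := by
  rcases lt_trichotomy a a' with hlt | heq | hgt
  · have : (a + 1) * ℓ ≤ a' * ℓ := Nat.mul_le_mul_right _ hlt
    nlinarith
  · exact heq
  · have : (a' + 1) * ℓ ≤ a * ℓ := Nat.mul_le_mul_right _ hgt
    nlinarith

lemma ownF_disjoint {k : ℕ} (x : V) {a b a' b' : ℕ} (hne : (a, b) ≠ (a', b')) :
    Disjoint (ownF m k (fib false x (a * ell m k) (b * ell m k)))
      (ownF m k (fib false x (a' * ell m k) (b' * ell m k))) := by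
  rw [Finset.disjoint_left]
  intro e he he'
  unfold ownF at he he'
  simp only [Finset.mem_image, Finset.mem_product, Finset.mem_range, Finset.mem_univ, and_true] at he he'
  obtain ⟨⟨⟨i, j⟩, d⟩, ⟨hi, hj⟩, rfl⟩ := he
  obtain ⟨⟨⟨i', j'⟩, d'⟩, ⟨hi', hj'⟩, he⟩ := he'
  simp only [Prod.mk.injEq, fib_fib] at he hi hj hi' hj'
  have h1 := congrArg Prod.fst he.1
  have h2 := congrArg Prod.snd he.1
  simp only [fib, Bool.false_eq_true, if_false, Prod.fst_add, Prod.snd_add, add_right_inj] at h1 h2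
  have h1' : a' * ell m k + i' = a * ell m k + i := by exact_mod_cast h1
  have h2' : b' * ell m k + j' = b * ell m k + j := by exact_mod_cast h2
  apply hne
  rw [cell_inj hi hi' h1'.symm, cell_inj hj hj' h2'.symm]

/-- The recursive bound for the probability of a bad block. -/
theorem q_step (k : ℕ) :
    (PP G).real {ω | ¬ Good M m (k + 1) 0 ω} ≤
      (m k : ℝ) ^ 4 * ((PP G).real {ω | ¬ Good M m k 0 ω}) ^ 2 := by
  classical
  set q := (PP G).real {ω | ¬ Good M m k 0 ω} with hq
  set ℓ := ell m k with hℓ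
  set C : ℕ → ℕ → V := fun a b => fib false 0 (a * ℓ) (b * ℓ) with hC
  set R := Finset.range (m k) ×ˢ Finset.range (m k) with hR
  set F := (R ×ˢ R).filter fun p => p.1 ≠ p.2 with hF
  have hsub : {ω | ¬ Good M m (k + 1) 0 ω} ⊆
      ⋃ p ∈ F, ({ω | ¬ Good M m k (C p.1.1 p.1.2) ω} ∩ {ω | ¬ Good M m k (C p.2.1 p.2.2) ω}) := by
    intro ω hω
    have hω' : ¬ Good M m (k + 1) 0 ω := hω
    simp only [Good, not_exists, not_forall] at hω'
    obtain ⟨a, b, ha, hb, hne, hbad⟩ := hω' 0 0
    obtain ⟨a', b', ha', hb', hne', hbad'⟩ := hω' a b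
    simp only [Set.mem_iUnion]
    refine ⟨((a', b'), (a, b)), ?_, hbad', hbad⟩
    simp only [hF, hR, Finset.mem_filter, Finset.mem_product, Finset.mem_range]
    exact ⟨⟨⟨ha', hb'⟩, ⟨ha, hb⟩⟩, hne'⟩
  have hterm : ∀ p ∈ F, (PP G).real
      ({ω | ¬ Good M m k (C p.1.1 p.1.2) ω} ∩ {ω | ¬ Good M m k (C p.2.1 p.2.2) ω}) ≤ q ^ 2 := by
    intro p hp
    have hne : p.1 ≠ p.2 := (Finset.mem_filter.1 hp).2
    rw [indep_disj G (ownF_disjoint 0 (a := p.1.1) (b := p.1.2) (a' := p.2.1) (b' := p.2.2) hne)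
      (measurableSet_setOfPred.2 (measurable_good k _).not)
      (measurableSet_setOfPred.2 (measurable_good k _).not)
      (fun ω ω' h => not_congr (good_dep h)) (fun ω ω' h => not_congr (good_dep h)),
      measure_bad_eq, measure_bad_eq G k (C p.2.1 p.2.2), sq]
  have hcard : (F.card : ℝ) ≤ (m k : ℝ) ^ 4 := by
    have h1 : F.card ≤ (R ×ˢ R).card := Finset.card_filter_le _ _
    have h2 : (R ×ˢ R).card = m k ^ 4 := by
      rw [Finset.card_product, hR, Finset.card_product, Finset.card_range]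
      ring
    rw [h2] at h1
    exact_mod_cast h1
  have hq0 : 0 ≤ q ^ 2 := sq_nonneg q
  calc (PP G).real {ω | ¬ Good M m (k + 1) 0 ω}
      ≤ (PP G).real (⋃ p ∈ F, ({ω | ¬ Good M m k (C p.1.1 p.1.2) ω} ∩
          {ω | ¬ Good M m k (C p.2.1 p.2.2) ω})) := measureReal_mono hsub (measure_ne_top _ _)
    _ ≤ ∑ p ∈ F, (PP G).real ({ω | ¬ Good M m k (C p.1.1 p.1.2) ω} ∩
          {ω | ¬ Good M m k (C p.2.1 p.2.2) ω}) := measureReal_biUnion_finset_le _ _
    _ ≤ ∑ _p ∈ F, q ^ 2 := Finset.sum_le_sum hterm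
    _ = F.card * q ^ 2 := by simp
    _ ≤ (m k : ℝ) ^ 4 * q ^ 2 := mul_le_mul_of_nonneg_right hcard hq0

lemma exists_large (c : ℝ) (hc : 0 < c) : ∃ M : ℝ≥0, G.real {t | M < t} < c := by
  have hB : Antitone fun n : ℕ => {t : ℝ≥0 | (n : ℝ≥0) < t} := by
    intro a b hab t ht
    have h1 : (a : ℝ≥0) ≤ b := by exact_mod_cast hab
    exact lt_of_le_of_lt h1 ht
  have hempty : ⋂ n : ℕ, {t : ℝ≥0 | (n : ℝ≥0) < t} = ∅ := by
    ext t
    simp only [Set.mem_iInter, Set.mem_ofPred_eq, Set.mem_empty_iff_false, iff_false, not_forall,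
      not_lt]
    obtain ⟨n, hn⟩ := exists_nat_ge t
    exact ⟨n, hn⟩
  have ht := tendsto_measure_iInter_atTop (μ := G) (s := fun n : ℕ => {t : ℝ≥0 | (n : ℝ≥0) < t})
    (fun n => (measurableSet_lt measurable_const measurable_id).nullMeasurableSet) hB
    ⟨0, measure_ne_top _ _⟩
  rw [hempty, measure_empty] at ht
  have hlt : (0 : ℝ≥0∞) < ENNReal.ofReal c := ENNReal.ofReal_pos.2 hc
  obtain ⟨n, hn⟩ := (ht.eventually (gt_mem_nhds hlt)).exists
  refine ⟨n, ?_⟩
  have := (ENNReal.lt_ofReal_iff_toReal_lt (measure_ne_top G _)).1 hn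
  exact this

lemma exists_small (hG : ∀ x, G {x} = 0) (c : ℝ) (hc : 0 < c) :
    ∃ ε : ℝ≥0, 0 < ε ∧ G.real {t | t < ε} < c := by
  have hB : Antitone fun n : ℕ => {t : ℝ≥0 | t < 1 / ((n : ℝ≥0) + 1)} := by
    intro a b hab t ht
    have ht' : t < 1 / ((b : ℝ≥0) + 1) := ht
    refine lt_of_lt_of_le ht' ?_
    have h1 : (a : ℝ≥0) ≤ b := by exact_mod_cast hab
    gcongr
  have hinter : ⋂ n : ℕ, {t : ℝ≥0 | t < 1 / ((n : ℝ≥0) + 1)} ⊆ {0} := by
    intro t ht
    simp only [Set.mem_iInter, Set.mem_ofPred_eq] at ht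
    by_contra h0
    have hpos : 0 < t := pos_iff_ne_zero.2 h0
    obtain ⟨n, hn⟩ := exists_nat_gt (1 / t)
    have h1 := ht n
    rw [lt_div_iff₀ (by positivity)] at h1
    rw [div_lt_iff₀ hpos] at hn
    have : (n : ℝ≥0) * t < t * (n + 1) := by
      rw [mul_comm]
      exact mul_lt_mul_of_pos_left (by simp) hpos
    nlinarith
  have ht := tendsto_measure_iInter_atTop (μ := G)
    (s := fun n : ℕ => {t : ℝ≥0 | t < 1 / ((n : ℝ≥0) + 1)})
    (fun n => (measurableSet_lt measurable_id measurable_const).nullMeasurableSet) hB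
    ⟨0, measure_ne_top _ _⟩
  have h0 : G (⋂ n : ℕ, {t : ℝ≥0 | t < 1 / ((n : ℝ≥0) + 1)}) = 0 :=
    measure_mono_null hinter (hG 0)
  rw [h0] at ht
  have hlt : (0 : ℝ≥0∞) < ENNReal.ofReal c := ENNReal.ofReal_pos.2 hc
  obtain ⟨n, hn⟩ := (ht.eventually (gt_mem_nhds hlt)).exists
  refine ⟨1 / ((n : ℝ≥0) + 1), by positivity, ?_⟩
  have := (ENNReal.lt_ofReal_iff_toReal_lt (measure_ne_top G _)).1 hn
  exact this

/-- The base case of the recursion. -/
lemma q_zero (M : ℝ≥0) :
    (PP G).real {ω | ¬ Good M m 0 0 ω} ≤ 2 * G.real {t | M < t} := by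
  have hp : ∀ e : E, (PP G).real {ω | M < ω e} = G.real {t | M < t} := by
    intro e
    have hmp := measurePreserving_eval_infinitePi (fun _ : E => G) e
    unfold Measure.real
    have e1 : {ω : Ω | M < ω e} = (Function.eval e) ⁻¹' {t : ℝ≥0 | M < t} := rfl
    rw [e1]
    have e2 := hmp.measure_preimage (s := {t : ℝ≥0 | M < t})
      (measurableSet_lt measurable_const measurable_id).nullMeasurableSet
    rw [e2]
  have hsub : {ω : Ω | ¬ Good M m 0 0 ω} ⊆ {ω | M < ω (0, false)} ∪ {ω | M < ω (0, true)} := by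
    intro ω hω
    have h : ¬ (ω (0, false) ≤ M ∧ ω (0, true) ≤ M) := hω
    by_cases h1 : ω (0, false) ≤ M
    · right
      by_contra h2
      exact h ⟨h1, not_lt.1 h2⟩
    · left
      exact not_le.1 h1
  calc (PP G).real {ω | ¬ Good M m 0 0 ω}
      ≤ (PP G).real ({ω | M < ω (0, false)} ∪ {ω | M < ω (0, true)}) := measureReal_mono hsub
    _ ≤ (PP G).real {ω | M < ω (0, false)} + (PP G).real {ω | M < ω (0, true)} :=
        measureReal_union_le _ _
    _ = 2 * G.real {t | M < t} := by rw [hp, hp]; ring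

end indep

end Vale.Agent.Lib.P158
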