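import Vale.Agent.Lib.P158.BlockProb

/-!
# With high probability, most of a large box has small passage-time diameter
-/

open MeasureTheory Set ProbabilityTheory
open scoped NNReal ENNReal

namespace Vale.Agent.Lib.P158

/-- The box `[0, ℓ)²`. -/
noncomputable def BoxV (ℓ : ℕ) : Finset V :=
  (Finset.range ℓ ×ˢ Finset.range ℓ).image fun p => (((p.1 : ℤ), (p.2 : ℤ)) : V)

lemma card_BoxV (ℓ : ℕ) : (BoxV ℓ).card = ℓ ^ 2 := by
  unfold BoxV
  rw [Finset.card_image_of_injective, Finset.card_product, Finset.card_range, sq]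
  intro p q h
  simp only [Prod.mk.injEq, Nat.cast_inj] at h
  exact Prod.ext h.1 h.2

/-- The scale factors. -/
def mm (i₀ k : ℕ) : ℕ := 2 ^ (k + i₀)

lemma mm_pos (i₀ k : ℕ) : 0 < mm i₀ k := by
  unfold mm
  positivity

lemma mu_bound (i₀ k : ℕ) :
    (mu (mm i₀) k : ℝ) ≤ (2 - 2 * (1 / 2) ^ k) * (1 / 2) ^ i₀ * ell (mm i₀) k := by
  induction k with
  | zero => simp [mu]
  | succ k ih =>
    have hm : (mm i₀ k : ℝ) * ((1 / 2) ^ k * (1 / 2) ^ i₀) = 1 := by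
      unfold mm
      push_cast
      rw [pow_add, ← pow_add, ← pow_add, ← mul_pow]
      norm_num
    have e1 : (mu (mm i₀) (k + 1) : ℝ) =
        ell (mm i₀) k + mm i₀ k * mu (mm i₀) k := by
      simp [mu]
    have e2 : (ell (mm i₀) (k + 1) : ℝ) = mm i₀ k * ell (mm i₀) k := by
      simp [ell]
    have hmpos : (0 : ℝ) ≤ mm i₀ k := Nat.cast_nonneg _
    rw [e1, e2]
    set a : ℝ := (1 / 2) ^ k with ha
    set b : ℝ := (1 / 2) ^ i₀ with hb
    set l : ℝ := (ell (mm i₀) k : ℝ) with hl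
    set μ : ℝ := (mu (mm i₀) k : ℝ) with hμ
    set mr : ℝ := (mm i₀ k : ℝ) with hmr
    have e3 : (1 / 2 : ℝ) ^ (k + 1) = a / 2 := by
      rw [pow_succ]
      ring
    rw [e3]
    have h1 : mr * μ ≤ mr * ((2 - 2 * a) * b * l) := mul_le_mul_of_nonneg_left ih hmpos
    have h2 : l = (mr * (a * b)) * l := by rw [hm, one_mul]
    calc l + mr * μ ≤ (mr * (a * b)) * l + mr * ((2 - 2 * a) * b * l) := by
          rw [← h2]
          linarith
      _ = (2 - 2 * (a / 2)) * b * (mr * l) := by ring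

lemma ell_lower {i₀ : ℕ} (hi : 3 ≤ i₀) (k : ℕ) : (8 : ℝ) ^ k ≤ ell (mm i₀) k := by
  induction k with
  | zero => simp [ell]
  | succ k ih =>
    have e2 : (ell (mm i₀) (k + 1) : ℝ) = mm i₀ k * ell (mm i₀) k := by
      simp [ell]
    rw [e2, pow_succ, mul_comm]
    have h8 : (8 : ℝ) ≤ mm i₀ k := by
      have : 2 ^ 3 ≤ mm i₀ k := by
        unfold mm
        exact Nat.pow_le_pow_right (by norm_num) (by omega)
      have h' : ((2 ^ 3 : ℕ) : ℝ) ≤ mm i₀ k := by exact_mod_cast this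
      have e : ((2 ^ 3 : ℕ) : ℝ) = 8 := by norm_num
      rwa [e] at h'
    exact mul_le_mul h8 ih (by positivity) (by linarith)

lemma AA_bound {M : ℝ≥0} {m : ℕ → ℕ} (hm : ∀ k, 0 < m k) (k : ℕ) :
    AA M m k + M ≤ M * 5 ^ k * ell m k := by
  have hM : (0 : ℝ) ≤ M := M.2
  induction k with
  | zero => simp [AA, ell]
  | succ k ih =>
    have e1 : AA M m (k + 1) = 4 * (m k) * (AA M m k + M) := rfl
    have e2 : (ell m (k + 1) : ℝ) = m k * ell m k := by simp [ell]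
    rw [e1, e2]
    have hm1 : (1 : ℝ) ≤ m k := by exact_mod_cast hm k
    have hl1 : (1 : ℝ) ≤ ell m k := by exact_mod_cast ell_pos hm k
    have h5 : (1 : ℝ) ≤ 5 ^ k := one_le_pow₀ (by norm_num)
    have h1 : 4 * (m k : ℝ) * (AA M m k + M) ≤ 4 * (m k) * (M * 5 ^ k * ell m k) :=
      mul_le_mul_of_nonneg_left ih (by positivity)
    have h2 : (M : ℝ) ≤ m k * (M * 5 ^ k * ell m k) := by
      have h3 : (1 : ℝ) ≤ m k * (5 ^ k * ell m k) := by
        have : (1 : ℝ) ≤ 5 ^ k * ell m k := one_le_mul_of_one_le_of_one_le h5 hl1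
        exact one_le_mul_of_one_le_of_one_le hm1 this
      calc (M : ℝ) = M * 1 := by ring
        _ ≤ M * (m k * (5 ^ k * ell m k)) := mul_le_mul_of_nonneg_left h3 hM
        _ = m k * (M * 5 ^ k * ell m k) := by ring
    have e3 : (M : ℝ) * 5 ^ (k + 1) * (m k * ell m k) =
        4 * (m k) * (M * 5 ^ k * ell m k) + m k * (M * 5 ^ k * ell m k) := by
      rw [pow_succ]
      ring
    rw [e3]
    linarith

section
variable (G : Measure ℝ≥0) [IsProbabilityMeasure G]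

lemma q_bound {M : ℝ≥0} {i₀ : ℕ} (hM : G.real {t | M < t} ≤ (1 / 2) ^ (4 * i₀ + 5)) (k : ℕ) :
    (PP G).real {ω | ¬ Good M (mm i₀) k 0 ω} ≤ (1 / 2) ^ (4 * (k + i₀) + 4) := by
  induction k with
  | zero =>
    refine (q_zero G M).trans ?_
    have e : (1 / 2 : ℝ) ^ (4 * (0 + i₀) + 4) = 2 * (1 / 2) ^ (4 * i₀ + 5) := by
      rw [zero_add, pow_succ (1 / 2 : ℝ) (4 * i₀ + 4)]
      ring
    rw [e]
    linarith
  | succ k ih =>
    refine (q_step G k).trans ?_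
    have h0 : 0 ≤ (PP G).real {ω | ¬ Good M (mm i₀) k 0 ω} := measureReal_nonneg
    have h1 : ((PP G).real {ω | ¬ Good M (mm i₀) k 0 ω}) ^ 2 ≤
        ((1 / 2 : ℝ) ^ (4 * (k + i₀) + 4)) ^ 2 := pow_le_pow_left₀ h0 ih 2
    have h2 : ((mm i₀ k : ℝ)) ^ 4 * ((1 / 2 : ℝ) ^ (4 * (k + i₀) + 4)) ^ 2 =
        (1 / 2) ^ (4 * (k + 1 + i₀) + 4) := by
      unfold mm
      push_cast
      have e1 : ((2 : ℝ) ^ (k + i₀)) ^ 4 = 2 ^ (4 * (k + i₀)) := by
        rw [← pow_mul, mul_comm]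
      have e2 : ((1 / 2 : ℝ) ^ (4 * (k + i₀) + 4)) ^ 2 =
          (1 / 2) ^ (4 * (k + i₀)) * (1 / 2) ^ (4 * (k + i₀) + 8) := by
        rw [← pow_mul, ← pow_add]
        congr 1
        ring
      have e3 : (4 * (k + 1 + i₀) + 4) = 4 * (k + i₀) + 8 := by ring
      rw [e1, e2, e3, ← mul_assoc, ← mul_pow]
      norm_num
    rw [← h2]
    exact mul_le_mul_of_nonneg_left h1 (by positivity)

open Classical in
/-- **Theorem.** With high probability, all but a small fraction of a large box has passage-time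
diameter small compared with the volume of the box. -/
theorem block_thm {η : ℝ} (hη : 0 < η) : ∃ (ℓ : ℕ) (A : ℝ) (Gd : Ω → Prop) (Cr : V → Ω → Prop),
    1 / η ≤ ℓ ∧ 0 ≤ A ∧ A ≤ η * ℓ ^ 2 ∧ Measurable Gd ∧ (PP G).real {ω | ¬ Gd ω} ≤ η ∧
      ∀ ω, Gd ω → (((BoxV ℓ).filter fun y => ¬ Cr y ω).card : ℝ) ≤ η * ℓ ^ 2 ∧
        ∀ y y', Cr y ω → Cr y' ω → T ω y y' ≤ A := by
  obtain ⟨n, hn⟩ := exists_pow_lt_of_lt_one (half_pos hη) (by norm_num : (1 / 2 : ℝ) < 1)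
  set i₀ := n + 3 with hi₀
  have hi3 : 3 ≤ i₀ := by omega
  have hb : (1 / 2 : ℝ) ^ i₀ ≤ (1 / 2) ^ n :=
    pow_le_pow_of_le_one (by norm_num) (by norm_num) (by omega)
  have hb2 : (1 / 2 : ℝ) ^ i₀ ≤ 1 / 8 := by
    calc (1 / 2 : ℝ) ^ i₀ ≤ (1 / 2) ^ 3 := pow_le_pow_of_le_one (by norm_num) (by norm_num) hi3
      _ = 1 / 8 := by norm_num
  have hb0 : (0 : ℝ) < (1 / 2) ^ i₀ := by positivity
  obtain ⟨M, hM⟩ := exists_large G ((1 / 2) ^ (4 * i₀ + 5)) (by positivity)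
  have hM0 : (0 : ℝ) ≤ M := M.2
  set m := mm i₀ with hm
  have hm0 : ∀ k, 0 < m k := mm_pos i₀
  have hm2 : ∀ k, 2 ≤ m k := fun k => by
    show 2 ≤ 2 ^ (k + i₀)
    calc 2 = 2 ^ 1 := by norm_num
      _ ≤ 2 ^ (k + i₀) := Nat.pow_le_pow_right (by norm_num) (by omega)
  have hμr : ∀ k, (mu m k : ℝ) ≤ 2 * (1 / 2) ^ i₀ * ell m k := by
    intro k
    have h1 := mu_bound i₀ k
    have h2 : (0 : ℝ) ≤ (1 / 2) ^ k := by positivity
    have h3 : (0 : ℝ) ≤ ell m k := Nat.cast_nonneg _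
    have h4 : (2 - 2 * (1 / 2 : ℝ) ^ k) * (1 / 2) ^ i₀ * ell m k ≤ 2 * (1 / 2) ^ i₀ * ell m k := by
      have : (2 - 2 * (1 / 2 : ℝ) ^ k) ≤ 2 := by linarith
      exact mul_le_mul_of_nonneg_right (mul_le_mul_of_nonneg_right this hb0.le) h3
    exact h1.trans h4
  have hμ : ∀ k, 2 * mu m k < ell m k := by
    intro k
    have h1 := hμr k
    have h3 : (0 : ℝ) < ell m k := by exact_mod_cast ell_pos hm0 k
    have h4 : (2 * mu m k : ℝ) < ell m k := by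
      have : 2 * (1 / 2 : ℝ) ^ i₀ * ell m k ≤ 1 / 4 * ell m k :=
        mul_le_mul_of_nonneg_right (by linarith) h3.le
      linarith
    exact_mod_cast h4
  -- the level
  obtain ⟨k, hk⟩ := pow_unbounded_of_one_lt (((M : ℝ) + 1) / η) (by norm_num : (1 : ℝ) < 8 / 5)
  have hk' : ((M : ℝ) + 1) * 5 ^ k ≤ η * 8 ^ k := by
    rw [div_lt_iff₀ hη, div_pow, mul_comm, ← mul_div_assoc, lt_div_iff₀ (by positivity)] at hk
    linarith
  set ℓ := ell m k with hℓ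
  have hℓ8 : (8 : ℝ) ^ k ≤ ℓ := ell_lower hi3 k
  have hℓ1 : (1 : ℝ) ≤ ℓ := by exact_mod_cast ell_pos hm0 k
  refine ⟨ℓ, AA M m k, Good M m k 0, InCore M m k 0, ?_, AA_nonneg k, ?_, measurable_good k 0, ?_,
    fun ω hg => ⟨?_, fun y y' hy hy' => diam hm2 hμ k 0 y y' ω hg hy hy'⟩⟩
  · -- the scale is large
    rw [div_le_iff₀ hη]
    have h5 : (1 : ℝ) ≤ 5 ^ k := one_le_pow₀ (by norm_num)
    have h1 : 1 ≤ ((M : ℝ) + 1) * 5 ^ k := by nlinarith
    have h2 : η * 8 ^ k ≤ η * ℓ := mul_le_mul_of_nonneg_left hℓ8 hη.le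
    linarith
  · -- the diameter
    have h1 := AA_bound (M := M) hm0 k
    have h5 : (0 : ℝ) ≤ 5 ^ k := by positivity
    have h2 : (M : ℝ) * 5 ^ k ≤ η * ℓ := by
      have : (M : ℝ) * 5 ^ k ≤ ((M : ℝ) + 1) * 5 ^ k := by nlinarith
      have h3 : η * 8 ^ k ≤ η * ℓ := mul_le_mul_of_nonneg_left hℓ8 hη.le
      linarith
    have h3 : (M : ℝ) * 5 ^ k * ℓ ≤ η * ℓ * ℓ := mul_le_mul_of_nonneg_right h2 (by linarith)
    have h4 : η * ℓ * ℓ = η * ℓ ^ 2 := by ring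
    linarith
  · -- the probability
    have h1 := q_bound G (M := M) (i₀ := i₀) hM.le k
    refine h1.trans ?_
    have h2 : (1 / 2 : ℝ) ^ (4 * (k + i₀) + 4) ≤ (1 / 2) ^ n :=
      pow_le_pow_of_le_one (by norm_num) (by norm_num) (by omega)
    linarith
  · -- the count
    have hinj : Set.InjOn (fun p : ℕ × ℕ => (((p.1 : ℤ), (p.2 : ℤ)) : V))
        ↑(Finset.range ℓ ×ˢ Finset.range ℓ) := by
      intro p _ q _ h
      simp only [Prod.mk.injEq, Nat.cast_inj] at h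
      exact Prod.ext h.1 h.2
    have e1 : ((BoxV ℓ).filter fun y => ¬ InCore M m k 0 y ω).card =
        ∑ j ∈ Finset.range ℓ, ncount M m k false 0 j ω := by
      unfold BoxV ncount
      rw [Finset.card_filter, Finset.sum_image hinj, Finset.sum_product_right]
      refine Finset.sum_congr rfl fun j _ => Finset.sum_congr rfl fun i _ => ?_
      have e : fib false (0 : V) i j = (((i : ℤ), (j : ℤ)) : V) := by simp [fib]
      rw [e]
      by_cases h : InCore M m k 0 (((i : ℤ), (j : ℤ)) : V) ω <;> simp [h]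
    have e2 : ∑ j ∈ Finset.range ℓ, ncount M m k false 0 j ω ≤ ℓ * mu m k := by
      calc ∑ j ∈ Finset.range ℓ, ncount M m k false 0 j ω
          ≤ ∑ _j ∈ Finset.range ℓ, mu m k := Finset.sum_le_sum fun j hj =>
            ncount_le hm0 k false 0 j ω hg (Finset.mem_range.1 hj)
        _ = ℓ * mu m k := by simp
    rw [e1]
    have e3 : ((∑ j ∈ Finset.range ℓ, ncount M m k false 0 j ω : ℕ) : ℝ) ≤ ℓ * mu m k := by
      exact_mod_cast e2
    refine e3.trans ?_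
    have h1 := hμr k
    have h2 : (ℓ : ℝ) * mu m k ≤ ℓ * (2 * (1 / 2) ^ i₀ * ℓ) :=
      mul_le_mul_of_nonneg_left h1 (by linarith)
    have h3 : (ℓ : ℝ) * (2 * (1 / 2) ^ i₀ * ℓ) = 2 * (1 / 2) ^ i₀ * ℓ ^ 2 := by ring
    have h4 : 2 * (1 / 2 : ℝ) ^ i₀ ≤ η := by linarith
    have h5 : 2 * (1 / 2 : ℝ) ^ i₀ * ℓ ^ 2 ≤ η * ℓ ^ 2 :=
      mul_le_mul_of_nonneg_right h4 (by positivity)
    linarith

end

end Vale.Agent.Lib.P158
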