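import Vale.Agent.Lib.P158.Two

/-!
# Multi-scale blocks: a large part of a large box has small passage-time diameter
-/

open MeasureTheory Set
open scoped NNReal ENNReal

namespace Vale.Agent.Lib.P158

/-- The scales. -/
def ell (m : ℕ → ℕ) : ℕ → ℕ
  | 0 => 1
  | k + 1 => m k * ell m k

/-- The unit vector of a direction. -/
def ev : Bool → V
  | false => (1, 0)
  | true => (0, 1)

/-- The vertex at distance `i` along direction `d` and `r` across it, from `x`. -/
def fib (d : Bool) (x : V) (i r : ℕ) : V :=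
  if d then x + ((r : ℤ), (i : ℤ)) else x + ((i : ℤ), (r : ℤ))

lemma fib_fib (d : Bool) (x : V) (i r i' r' : ℕ) :
    fib d (fib d x i r) i' r' = fib d x (i + i') (r + r') := by
  cases d <;> simp [fib, add_assoc]

lemma fib_not (d : Bool) (x : V) (i r : ℕ) : fib (!d) x r i = fib d x i r := by
  cases d <;> simp [fib]

lemma fib_succ (d : Bool) (x : V) (i r : ℕ) : fib d x (i + 1) r = fib d x i r + ev d := by
  cases d <;> ext <;> simp [fib, ev] <;> ring

@[simp] lemma fib_zero (d : Bool) (x : V) : fib d x 0 0 = x := by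
  cases d <;> simp [fib]

lemma fib_add_right (d : Bool) (x z : V) (i r : ℕ) : fib d (x + z) i r = fib d x i r + z := by
  cases d <;> ext <;> simp [fib] <;> ring

variable {M : ℝ≥0} {m : ℕ → ℕ}

/-- Good blocks: a single vertex whose two own edges have weight at most `M`; at a higher level, a
block with at most one sub-block which is not good. -/
def Good (M : ℝ≥0) (m : ℕ → ℕ) : ℕ → V → Ω → Prop
  | 0, x, ω => ω (x, false) ≤ M ∧ ω (x, true) ≤ M
  | k + 1, x, ω => ∃ c r : ℕ, ∀ a b : ℕ, a < m k → b < m k → (a, b) ≠ (c, r) →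
      Good M m k (fib false x (a * ell m k) (b * ell m k)) ω

/-- The core of a block: the union of the cores of its good sub-blocks. -/
def InCore (M : ℝ≥0) (m : ℕ → ℕ) : ℕ → V → V → Ω → Prop
  | 0, x, y, ω => y = x ∧ Good M m 0 x ω
  | k + 1, x, y, ω => ∃ a b : ℕ, a < m k ∧ b < m k ∧
      Good M m k (fib false x (a * ell m k) (b * ell m k)) ω ∧
      InCore M m k (fib false x (a * ell m k) (b * ell m k)) y ω

lemma good_dir {k : ℕ} {x : V} {ω : Ω} (h : Good M m (k + 1) x ω) (d : Bool) :
    ∃ c r : ℕ, ∀ a b : ℕ, a < m k → b < m k → (a, b) ≠ (c, r) →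
      Good M m k (fib d x (a * ell m k) (b * ell m k)) ω := by
  obtain ⟨c, r, hcr⟩ := h
  cases d
  · exact ⟨c, r, hcr⟩
  · refine ⟨r, c, fun a b ha hb hne => ?_⟩
    have := hcr b a hb ha (fun he => hne (by
      simp only [Prod.mk.injEq] at he ⊢
      exact ⟨he.2, he.1⟩))
    simpa [fib] using this

lemma inCore_dir {k : ℕ} {x y : V} {ω : Ω} (d : Bool) {a b : ℕ} (ha : a < m k) (hb : b < m k)
    (hg : Good M m k (fib d x (a * ell m k) (b * ell m k)) ω)
    (hc : InCore M m k (fib d x (a * ell m k) (b * ell m k)) y ω) : InCore M m (k + 1) x y ω := by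
  cases d
  · exact ⟨a, b, ha, hb, hg, hc⟩
  · refine ⟨b, a, hb, ha, ?_, ?_⟩
    · simpa [fib] using hg
    · simpa [fib] using hc

lemma InCore.good_zero {k : ℕ} {x y : V} {ω : Ω} (h : InCore M m k x y ω) : Good M m 0 y ω := by
  induction k generalizing x with
  | zero =>
    obtain ⟨rfl, h2⟩ := h
    exact h2
  | succ k ih =>
    obtain ⟨a, b, _, _, _, hc⟩ := h
    exact ih hc

lemma sum_range_mul (φ : ℕ → ℕ) (p q : ℕ) :
    ∑ i ∈ Finset.range (p * q), φ i = ∑ a ∈ Finset.range p, ∑ j ∈ Finset.range q, φ (a * q + j) := by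
  induction p with
  | zero => simp
  | succ p ih =>
    rw [Nat.succ_mul, Finset.sum_range_add, ih, Finset.sum_range_succ]

open Classical in
/-- The number of non-core vertices on a fibre of a block. -/
noncomputable def ncount (M : ℝ≥0) (m : ℕ → ℕ) (k : ℕ) (d : Bool) (x : V) (r : ℕ) (ω : Ω) : ℕ :=
  ∑ i ∈ Finset.range (ell m k), if InCore M m k x (fib d x i r) ω then 0 else 1

/-- The bound for the number of non-core vertices on a fibre. -/
def mu (m : ℕ → ℕ) : ℕ → ℕ
  | 0 => 0
  | k + 1 => ell m k + m k * mu m k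

lemma ell_pos (hm : ∀ k, 0 < m k) (k : ℕ) : 0 < ell m k := by
  induction k with
  | zero => simp [ell]
  | succ k ih => exact Nat.mul_pos (hm k) ih

open Classical in
theorem ncount_le (hm : ∀ k, 0 < m k) (k : ℕ) : ∀ (d : Bool) (x : V) (r : ℕ) (ω : Ω),
    Good M m k x ω → r < ell m k → ncount M m k d x r ω ≤ mu m k := by
  induction k with
  | zero =>
    intro d x r ω hg hr
    have hr0 : r = 0 := by
      simp only [ell] at hr
      omega
    subst hr0
    unfold ncount
    simp only [ell, Finset.range_one, Finset.sum_singleton, fib_zero]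
    rw [if_pos ⟨rfl, hg⟩]
    simp [mu]
  | succ k ih =>
    intro d x r ω hg hr
    have hℓ : 0 < ell m k := ell_pos hm k
    set ℓ := ell m k with hℓdef
    have hr' : r < m k * ℓ := by simpa [ell] using hr
    set b := r / ℓ with hb
    set r' := r % ℓ with hr''
    have hrw : r = b * ℓ + r' := by
      rw [hb, hr'']
      exact (Nat.div_add_mod' r ℓ).symm
    have hbm : b < m k := Nat.div_lt_of_lt_mul (by rwa [mul_comm])
    have hr'l : r' < ℓ := Nat.mod_lt _ hℓ
    obtain ⟨c, r₀, hcr⟩ := good_dir hg d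
    unfold ncount
    have e0 : ell m (k + 1) = m k * ℓ := rfl
    rw [e0, sum_range_mul]
    have hterm : ∀ a ∈ Finset.range (m k), (∑ j ∈ Finset.range ℓ,
        (if InCore M m (k + 1) x (fib d x (a * ℓ + j) r) ω then 0 else 1)) ≤
        mu m k + if a = c then ℓ else 0 := by
      intro a ha
      have ham : a < m k := Finset.mem_range.1 ha
      by_cases hac : a = c
      · rw [if_pos hac]
        refine le_trans ?_ (Nat.le_add_left _ _)
        calc (∑ j ∈ Finset.range ℓ,
              (if InCore M m (k + 1) x (fib d x (a * ℓ + j) r) ω then 0 else 1))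
            ≤ ∑ _j ∈ Finset.range ℓ, 1 := Finset.sum_le_sum fun j _ => by split_ifs <;> simp
          _ = ℓ := by simp
      · rw [if_neg hac, add_zero]
        have hgc : Good M m k (fib d x (a * ℓ) (b * ℓ)) ω :=
          hcr a b ham hbm (fun he => hac (congrArg Prod.fst he))
        refine le_trans ?_ (ih d _ r' ω hgc hr'l)
        unfold ncount
        refine Finset.sum_le_sum fun j _ => ?_
        have e : fib d (fib d x (a * ℓ) (b * ℓ)) j r' = fib d x (a * ℓ + j) r := by
          rw [fib_fib, ← hrw]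
        rw [e]
        by_cases hin : InCore M m k (fib d x (a * ℓ) (b * ℓ)) (fib d x (a * ℓ + j) r) ω
        · rw [if_pos hin, if_pos (inCore_dir d ham hbm hgc hin)]
        · rw [if_neg hin]
          split_ifs <;> simp
    calc _ ≤ ∑ a ∈ Finset.range (m k), (mu m k + if a = c then ℓ else 0) :=
          Finset.sum_le_sum hterm
      _ ≤ mu m (k + 1) := by
          rw [Finset.sum_add_distrib, Finset.sum_const, Finset.card_range, smul_eq_mul,
            Finset.sum_ite_eq']
          have : mu m (k + 1) = ℓ + m k * mu m k := rfl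
          rw [this]
          split_ifs <;> omega

/-- Adjacent good blocks have adjacent core vertices. -/
lemma adj_core (hm : ∀ k, 0 < m k) {k : ℕ} (hμ : 2 * mu m k < ell m k) (d : Bool) {s : V} {ω : Ω}
    (hg : Good M m k s ω) (hg' : Good M m k (fib d s (ell m k) 0) ω) :
    ∃ p, InCore M m k s p ω ∧ InCore M m k (fib d s (ell m k) 0) (p + ev d) ω := by
  classical
  set ℓ := ell m k with hℓdef
  have hℓ : 0 < ℓ := ell_pos hm k
  have h1 := ncount_le hm k (!d) s (ℓ - 1) ω hg (by omega)
  have h2 := ncount_le hm k (!d) (fib d s ℓ 0) 0 ω hg' hℓ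
  by_contra hc
  push Not at hc
  have hsum : ℓ ≤ ncount M m k (!d) s (ℓ - 1) ω + ncount M m k (!d) (fib d s ℓ 0) 0 ω := by
    unfold ncount
    rw [← Finset.sum_add_distrib]
    calc ℓ = ∑ _r ∈ Finset.range (ell m k), 1 := by simp [hℓdef]
      _ ≤ _ := Finset.sum_le_sum fun r hr => ?_
    have hr' : r < ℓ := Finset.mem_range.1 hr
    have e1 : fib (!d) s r (ℓ - 1) = fib d s (ℓ - 1) r := fib_not d s (ℓ - 1) r
    have e2 : fib (!d) (fib d s ℓ 0) r 0 = fib d s (ℓ - 1) r + ev d := by
      rw [fib_not, fib_fib, ← fib_succ]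
      congr 1 <;> omega
    rw [e1, e2]
    by_cases h3 : InCore M m k s (fib d s (ℓ - 1) r) ω
    · have h4 := hc _ h3
      rw [if_neg h4]
      omega
    · rw [if_neg h3]
      omega
  have : mu m k + mu m k < ℓ := by omega
  omega

lemma core_nonempty (hm : ∀ k, 0 < m k) {k : ℕ} (hμ : 2 * mu m k < ell m k) {s : V} {ω : Ω}
    (hg : Good M m k s ω) : ∃ p, InCore M m k s p ω := by
  classical
  have hℓ : 0 < ell m k := ell_pos hm k
  have h1 := ncount_le hm k false s 0 ω hg hℓ
  by_contra hc
  push Not at hc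
  have : ell m k ≤ ncount M m k false s 0 ω := by
    unfold ncount
    calc ell m k = ∑ _r ∈ Finset.range (ell m k), 1 := by simp
      _ ≤ _ := Finset.sum_le_sum fun r _ => by rw [if_neg (hc _)]
  omega

lemma T_ev (ω : Ω) (p : V) (d : Bool) : T ω p (p + ev d) ≤ (ω (p, d) : ℝ) := by
  have hadj : Adj p (p + ev d) := by
    cases d <;> simp [Adj, dist1, ev]
  refine (T_le_wt ω hadj).trans (le_of_eq ?_)
  unfold wt
  cases d
  · have := edgeOf_e1 p
    simp only [ev, e1] at this ⊢
    rw [this]
  · have := edgeOf_e2 p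
    simp only [ev, e2] at this ⊢
    rw [this]

lemma T_ev_le {ω : Ω} {p : V} (hp : Good M m 0 p ω) (d : Bool) : T ω p (p + ev d) ≤ (M : ℝ) := by
  refine (T_ev ω p d).trans ?_
  cases d
  · exact_mod_cast hp.1
  · exact_mod_cast hp.2

/-- Crossing a line of good sub-blocks. -/
lemma seg (hm : ∀ k, 0 < m k) {k : ℕ} (hμ : 2 * mu m k < ell m k) {ω : Ω} {A : ℝ}
    (ih : ∀ x y y', Good M m k x ω → InCore M m k x y ω → InCore M m k x y' ω → T ω y y' ≤ A)
    (d : Bool) (x : V) (b mm : ℕ)
    (hg : ∀ a, a < mm → Good M m k (fib d x (a * ell m k) (b * ell m k)) ω) (n : ℕ) :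
    ∀ (a : ℕ) (y y' : V), a + n < mm →
      InCore M m k (fib d x (a * ell m k) (b * ell m k)) y ω →
      InCore M m k (fib d x ((a + n) * ell m k) (b * ell m k)) y' ω →
      T ω y y' ≤ (n + 1) * A + n * M := by
  induction n with
  | zero =>
    intro a y y' ha hy hy'
    have := ih _ y y' (hg a (by omega)) hy (by simpa using hy')
    simpa using this
  | succ n ih2 =>
    intro a y y' ha hy hy'
    have e : a + (n + 1) = a + n + 1 := by ring
    rw [e] at ha hy'
    have g1 := hg (a + n) (by omega)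
    have g2 := hg (a + n + 1) ha
    have e2 : fib d x ((a + n + 1) * ell m k) (b * ell m k) =
        fib d (fib d x ((a + n) * ell m k) (b * ell m k)) (ell m k) 0 := by
      rw [fib_fib]
      congr 1
      ring
    rw [e2] at g2 hy'
    obtain ⟨p, hp1, hp2⟩ := adj_core hm hμ d g1 g2
    have t1 := ih2 a y p (by omega) hy hp1
    have t2 := T_ev_le hp1.good_zero d
    have t3 := ih _ _ y' g2 hp2 hy'
    have t4 := T_triangle ω y p (p + ev d)
    have t5 := T_triangle ω y (p + ev d) y'
    push_cast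
    linarith

/-- Any two core points of sub-blocks of a good line are joined cheaply. -/
lemma seg' (hm : ∀ k, 0 < m k) {k : ℕ} (hμ : 2 * mu m k < ell m k) {ω : Ω} {A : ℝ} (hA : 0 ≤ A)
    (ih : ∀ x y y', Good M m k x ω → InCore M m k x y ω → InCore M m k x y' ω → T ω y y' ≤ A)
    (d : Bool) (x : V) (b mm : ℕ)
    (hg : ∀ a, a < mm → Good M m k (fib d x (a * ell m k) (b * ell m k)) ω) {a a' : ℕ} {y y' : V}
    (ha : a < mm) (ha' : a' < mm)
    (hy : InCore M m k (fib d x (a * ell m k) (b * ell m k)) y ω)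
    (hy' : InCore M m k (fib d x (a' * ell m k) (b * ell m k)) y' ω) :
    T ω y y' ≤ mm * (A + M) := by
  have hM : (0 : ℝ) ≤ M := M.2
  have key : ∀ {a a' : ℕ} {y y' : V}, a ≤ a' → a' < mm →
      InCore M m k (fib d x (a * ell m k) (b * ell m k)) y ω →
      InCore M m k (fib d x (a' * ell m k) (b * ell m k)) y' ω →
      T ω y y' ≤ mm * (A + M) := by
    intro a a' y y' hle hlt hy hy'
    obtain ⟨n, rfl⟩ := Nat.exists_eq_add_of_le hle
    have h1 := seg hm hμ ih d x b mm hg n a y y' hlt hy hy'
    have h2 : ((n : ℝ) + 1) ≤ mm := by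
      have : n + 1 ≤ mm := by omega
      exact_mod_cast this
    have h3 : (n : ℝ) ≤ mm := by linarith
    nlinarith [mul_le_mul_of_nonneg_right h2 hA, mul_le_mul_of_nonneg_right h3 hM]
  rcases le_total a a' with h | h
  · exact key h ha' hy hy'
  · rw [T_symm]
    exact key h ha hy' hy

/-- The diameter bound. -/
noncomputable def AA (M : ℝ≥0) (m : ℕ → ℕ) : ℕ → ℝ
  | 0 => 0
  | k + 1 => 4 * (m k) * (AA M m k + M)

lemma AA_nonneg (k : ℕ) : 0 ≤ AA M m k := by
  induction k with
  | zero => simp [AA]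
  | succ k ih =>
    simp only [AA]
    have hM : (0 : ℝ) ≤ M := M.2
    positivity

theorem diam (hm : ∀ k, 2 ≤ m k) (hμ : ∀ k, 2 * mu m k < ell m k) (k : ℕ) :
    ∀ (x y y' : V) (ω : Ω), Good M m k x ω → InCore M m k x y ω → InCore M m k x y' ω →
      T ω y y' ≤ AA M m k := by
  have hm0 : ∀ k, 0 < m k := fun k => by have := hm k; omega
  induction k with
  | zero =>
    intro x y y' ω _ hy hy'
    rw [hy.1, hy'.1]
    simp [AA]
  | succ k ih =>
    intro x y y' ω hg hy hy'
    have ih' : ∀ x y y', Good M m k x ω → InCore M m k x y ω → InCore M m k x y' ω →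
        T ω y y' ≤ AA M m k := fun x y y' => ih x y y' ω
    have hA := AA_nonneg (M := M) (m := m) k
    have hM : (0 : ℝ) ≤ M := M.2
    set ℓ := ell m k with hℓdef
    set mm := m k with hmm
    have hmm2 : 2 ≤ mm := hm k
    obtain ⟨c₀, r₀, hcr⟩ := hg
    -- a hub column and a hub row
    obtain ⟨cs, hcs, hcs0⟩ : ∃ cs, cs < mm ∧ cs ≠ c₀ := by
      by_cases h : c₀ = 0
      · exact ⟨1, by omega, by omega⟩
      · exact ⟨0, by omega, fun h' => h h'.symm⟩
    obtain ⟨rs, hrs, hrs0⟩ : ∃ rs, rs < mm ∧ rs ≠ r₀ := by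
      by_cases h : r₀ = 0
      · exact ⟨1, by omega, by omega⟩
      · exact ⟨0, by omega, fun h' => h h'.symm⟩
    -- cells, in the two directions
    have ecell : ∀ a b, fib true x (b * ℓ) (a * ℓ) = fib false x (a * ℓ) (b * ℓ) := by
      intro a b
      simp [fib]
    have hhub : Good M m k (fib false x (cs * ℓ) (rs * ℓ)) ω :=
      hcr cs rs hcs hrs (fun he => hcs0 (congrArg Prod.fst he))
    obtain ⟨h, hh⟩ := core_nonempty hm0 (hμ k) hhub
    have hrow_rs : ∀ a, a < mm → Good M m k (fib false x (a * ℓ) (rs * ℓ)) ω := fun a ha =>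
      hcr a rs ha hrs (fun he => hrs0 (congrArg Prod.snd he))
    have hcol_cs : ∀ b, b < mm → Good M m k (fib true x (b * ℓ) (cs * ℓ)) ω := fun b hb => by
      rw [ecell]
      exact hcr cs b hcs hb (fun he => hcs0 (congrArg Prod.fst he))
    -- every good cell reaches the hub
    have reach : ∀ a b z, a < mm → b < mm → Good M m k (fib false x (a * ℓ) (b * ℓ)) ω →
        InCore M m k (fib false x (a * ℓ) (b * ℓ)) z ω → T ω z h ≤ 2 * mm * (AA M m k + M) := by
      intro a b z ha hb hga hz
      by_cases hac : a = c₀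
      · -- the row of the cell is good
        have hrow : ∀ i, i < mm → Good M m k (fib false x (i * ℓ) (b * ℓ)) ω := by
          intro i hi
          by_cases hi' : i = a
          · rw [hi']; exact hga
          · exact hcr i b hi hb (fun he => hi' ((congrArg Prod.fst he).trans hac.symm))
        obtain ⟨h₁, hh₁⟩ := core_nonempty hm0 (hμ k) (hrow cs hcs)
        have t1 := seg' hm0 (hμ k) hA ih' false x b mm hrow ha hcs hz hh₁
        have hh₁' : InCore M m k (fib true x (b * ℓ) (cs * ℓ)) h₁ ω := by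
          rw [ecell]; exact hh₁
        have hh' : InCore M m k (fib true x (rs * ℓ) (cs * ℓ)) h ω := by
          rw [ecell]; exact hh
        have t2 := seg' hm0 (hμ k) hA ih' true x cs mm hcol_cs hb hrs hh₁' hh'
        have t3 := T_triangle ω z h₁ h
        linarith
      · -- the column of the cell is good
        have hcolm : ∀ j, j < mm → Good M m k (fib true x (j * ℓ) (a * ℓ)) ω := fun j hj => by
          rw [ecell]
          exact hcr a j ha hj (fun he => hac (congrArg Prod.fst he))
        obtain ⟨h₁, hh₁⟩ := core_nonempty hm0 (hμ k) (hrow_rs a ha)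
        have hz' : InCore M m k (fib true x (b * ℓ) (a * ℓ)) z ω := by
          rw [ecell]; exact hz
        have hh₁' : InCore M m k (fib true x (rs * ℓ) (a * ℓ)) h₁ ω := by
          rw [ecell]; exact hh₁
        have t1 := seg' hm0 (hμ k) hA ih' true x a mm hcolm hb hrs hz' hh₁'
        have t2 := seg' hm0 (hμ k) hA ih' false x rs mm hrow_rs ha hcs hh₁ hh
        have t3 := T_triangle ω z h₁ h
        linarith
    obtain ⟨a, b, ha, hb, hga, hz⟩ := hy
    obtain ⟨a', b', ha', hb', hga', hz'⟩ := hy'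
    have t1 := reach a b y ha hb hga hz
    have t2 := reach a' b' y' ha' hb' hga' hz'
    rw [T_symm] at t2
    have t3 := T_triangle ω y h y'
    show T ω y y' ≤ 4 * (mm : ℝ) * (AA M m k + M)
    linarith

end Vale.Agent.Lib.P158
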