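import Vale.Agent.Lib.P158.NoIso2

/-!
# Every bigeodesic branches infinitely often in both directions
-/

open MeasureTheory Set ProbabilityTheory
open scoped NNReal ENNReal

namespace Vale.Agent.Lib.P158

/-- A vertex with three allowed neighbours. -/
def Branch (ω : Ω) (y : V) : Prop :=
  ∃ a b c, a ≠ b ∧ a ≠ c ∧ b ≠ c ∧ Allowed ω y a ∧ Allowed ω y b ∧ Allowed ω y c

/-- A one-sided path all of whose vertices but the first have exactly the two allowed neighbours
on the path. -/
def IsRay (ω : Ω) (R : ℕ → V) : Prop :=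
  ∀ n, R n ≠ R (n + 2) ∧ Allowed ω (R (n + 1)) (R n) ∧ Allowed ω (R (n + 1)) (R (n + 2)) ∧
    ∀ c, Allowed ω (R (n + 1)) c → c = R n ∨ c = R (n + 2)

lemma branch_not_interior {ω : Ω} {R : ℕ → V} (hR : IsRay ω R) {t : ℕ}
    (hb : Branch ω (R (t + 1))) : False := by
  obtain ⟨a, b, c, h1, h2, h3, ha, hb, hc⟩ := hb
  have := (hR t).2.2.2
  rcases this a ha with e1 | e1 <;> rcases this b hb with e2 | e2 <;> rcases this c hc with e3 | e3
  · exact h1 (e1.trans e2.symm)
  · exact h1 (e1.trans e2.symm)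
  · exact h2 (e1.trans e3.symm)
  · exact h3 (e2.trans e3.symm)
  · exact h3 (e2.trans e3.symm)
  · exact h2 (e1.trans e3.symm)
  · exact h1 (e1.trans e2.symm)
  · exact h1 (e1.trans e2.symm)

lemma walk_back {ω : Ω} {R R' : ℕ → V} (hR : IsRay ω R) (hR' : IsRay ω R') {a b : ℕ}
    (h0 : R (a + 1) = R' (b + 1)) (h1 : R (a + 2) = R' (b + 2)) : R a = R' b := by
  have h2 : Allowed ω (R (a + 1)) (R' b) := by
    rw [h0]
    exact (hR' b).2.1
  rcases (hR a).2.2.2 _ h2 with e | e
  · exact e.symm
  · exact absurd (e.trans h1) (hR' b).1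

lemma walk_same {ω : Ω} {R R' : ℕ → V} (hR : IsRay ω R) (hR' : IsRay ω R') (n : ℕ) :
    ∀ a b : ℕ, R (a + n) = R' (b + n) → R (a + n + 1) = R' (b + n + 1) → R a = R' b := by
  induction n with
  | zero =>
    intro a b h0 _
    simpa using h0
  | succ n ih =>
    intro a b h0 h1
    have h2 : R (a + n) = R' (b + n) := walk_back hR hR' (by simpa [add_assoc] using h0)
      (by simpa [add_assoc] using h1)
    exact ih a b h2 (by simpa [add_assoc] using h0)

lemma walk_rev {ω : Ω} {R R' : ℕ → V} (hR : IsRay ω R) (hR' : IsRay ω R') (n : ℕ) :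
    ∀ a c : ℕ, R (a + n) = R' (c + 1) → R (a + n + 1) = R' c → R a = R' (c + 1 + n) := by
  induction n with
  | zero =>
    intro a c h0 _
    simpa using h0
  | succ n ih =>
    intro a c h0 h1
    have h0' : R (a + n + 1) = R' (c + 1) := by simpa [add_assoc] using h0
    have h1' : R (a + n + 2) = R' c := by simpa [add_assoc] using h1
    have h2 : Allowed ω (R (a + n + 1)) (R' (c + 2)) := by
      rw [h0']
      exact (hR' c).2.2.1
    have h3 : R (a + n) = R' (c + 2) := by
      rcases (hR (a + n)).2.2.2 _ h2 with e | e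
      · exact e.symm
      · exact absurd (h1'.symm.trans e.symm) (hR' c).1
    have := ih a (c + 1) h3 h0'
    rw [this]
    congr 1
    omega

/-- Two rays which meet at interior vertices and start at branching vertices have the same start. -/
lemma ray_meet {ω : Ω} {R R' : ℕ → V} (hR : IsRay ω R) (hR' : IsRay ω R')
    (hb : Branch ω (R 0)) (hb' : Branch ω (R' 0)) {j j' : ℕ} (h : R (j + 1) = R' (j' + 1)) :
    R 0 = R' 0 := by
  have h1 : Allowed ω (R (j + 1)) (R' (j' + 2)) := by
    rw [h]
    exact (hR' j').2.2.1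
  rcases (hR j).2.2.2 _ h1 with e | e
  · -- opposite orientations
    exfalso
    have h2 : Allowed ω (R (j + 1)) (R' j') := by
      rw [h]
      exact (hR' j').2.1
    have h3 : R' j' = R (j + 2) := by
      rcases (hR j).2.2.2 _ h2 with e' | e'
      · exact absurd (e'.trans e.symm) (hR' j').1
      · exact e'
    have h4 := walk_rev hR hR' (j + 1) 0 j' (by simpa using h) (by simpa using h3.symm)
    have h5 : Branch ω (R' (j' + (j + 1) + 1)) := by
      have e2 : j' + 1 + (j + 1) = j' + (j + 1) + 1 := by ring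
      rw [e2] at h4
      rw [← h4]
      exact hb
    exact branch_not_interior hR' h5
  · -- same orientation
    rcases le_total j j' with hle | hle
    · obtain ⟨t, rfl⟩ := Nat.exists_eq_add_of_le hle
      have h4 := walk_same hR hR' (j + 1) 0 t (by
        rw [zero_add, h]
        congr 1
        omega) (by
        rw [zero_add, show j + 1 + 1 = j + 2 by ring, ← e]
        congr 1
        omega)
      rcases t with _ | t
      · exact h4
      · exfalso
        exact branch_not_interior hR' (h4 ▸ hb)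
    · obtain ⟨t, rfl⟩ := Nat.exists_eq_add_of_le hle
      have h4 := walk_same hR' hR (j' + 1) 0 t (by
        rw [zero_add, ← h]
        congr 1
        omega) (by
        rw [zero_add, show j' + 1 + 1 = j' + 2 by ring, e]
        congr 1
        omega)
      rcases t with _ | t
      · exact h4.symm
      · exfalso
        exact branch_not_interior hR (h4 ▸ hb')

/-- The transport relation: `x` is an interior vertex of a ray starting at the branching vertex
`y`. -/
def QR (x y : V) (ω : Ω) : Prop := Branch ω y ∧ ∃ R, IsRay ω R ∧ R 0 = y ∧ ∃ j, R (j + 1) = x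

lemma qr_unique (x : V) (ω : Ω) (y y' : V) (h : QR x y ω) (h' : QR x y' ω) : y = y' := by
  obtain ⟨hb, R, hR, rfl, j, hj⟩ := h
  obtain ⟨hb', R', hR', rfl, j', hj'⟩ := h'
  exact ray_meet hR hR' hb hb' (hj.trans hj'.symm)

lemma allowed_theta (z : V) (ω : Ω) (u v : V) :
    Allowed (theta z ω) u v ↔ Allowed ω (u + z) (v + z) := by
  constructor
  · rintro ⟨L, hL, h0, h1⟩
    refine ⟨fun k => L k + z, ?_, by simp [h0], by simp [h1]⟩
    rw [← isBigeodesic_theta_iff z]
    simpa using hL
  · rintro ⟨L, hL, h0, h1⟩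
    exact ⟨_, hL.theta z, by simp [h0], by simp [h1]⟩

lemma branch_theta (z : V) (ω : Ω) (y : V) : Branch (theta z ω) y ↔ Branch ω (y + z) := by
  constructor
  · rintro ⟨a, b, c, h1, h2, h3, ha, hb, hc⟩
    rw [allowed_theta] at ha hb hc
    exact ⟨a + z, b + z, c + z, by simpa using h1, by simpa using h2, by simpa using h3, ha, hb, hc⟩
  · rintro ⟨a, b, c, h1, h2, h3, ha, hb, hc⟩
    refine ⟨a - z, b - z, c - z, by simpa using h1, by simpa using h2, by simpa using h3, ?_, ?_, ?_⟩
    all_goals rw [allowed_theta]; simpa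

lemma isRay_theta (z : V) (ω : Ω) (R : ℕ → V) :
    IsRay (theta z ω) R ↔ IsRay ω (fun n => R n + z) := by
  unfold IsRay
  simp only [allowed_theta, ne_eq, add_left_inj]
  constructor
  · intro h n
    refine ⟨(h n).1, (h n).2.1, (h n).2.2.1, fun c hc => ?_⟩
    have := (h n).2.2.2 (c - z) (by simpa using hc)
    rcases this with e | e
    · left; rw [← e]; simp
    · right; rw [← e]; simp
  · intro h n
    refine ⟨(h n).1, (h n).2.1, (h n).2.2.1, fun c hc => ?_⟩
    rcases (h n).2.2.2 (c + z) hc with e | e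
    · left; exact add_right_cancel e
    · right; exact add_right_cancel e

lemma qr_theta (x y z : V) (ω : Ω) : QR (x + z) (y + z) ω ↔ QR x y (theta z ω) := by
  unfold QR
  rw [branch_theta]
  refine and_congr_right fun _ => ?_
  constructor
  · rintro ⟨R, hR, h0, j, hj⟩
    refine ⟨fun n => R n - z, ?_, by simp [h0], j, by simp [hj]⟩
    rw [isRay_theta]
    simpa using hR
  · rintro ⟨R, hR, h0, j, hj⟩
    refine ⟨fun n => R n + z, (isRay_theta z ω R).1 hR, by simp [h0], j, by simp [hj]⟩

/-- The ray is determined by its first step. -/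
noncomputable def rayF (ω : Ω) (y v : V) (n : ℕ) : V := (fwd ω y v n).1

lemma IsRay.fwd_eq {ω : Ω} {R : ℕ → V} (hR : IsRay ω R) (n : ℕ) :
    fwd ω (R 0) (R 1) n = (R n, R (n + 1)) := by
  induction n with
  | zero => simp [fwd]
  | succ n ih =>
    simp only [fwd, ih]
    refine Prod.ext rfl ?_
    refine next_spec (hR n).1.symm (hR n).2.2.1 fun c hc hc' => ?_
    rcases (hR n).2.2.2 c hc' with e | e
    · exact absurd e hc
    · exact e

lemma qr_iff {x y : V} {ω : Ω} : QR x y ω ↔ Branch ω y ∧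
    ∃ v, IsRay ω (rayF ω y v) ∧ rayF ω y v 0 = y ∧ ∃ j, rayF ω y v (j + 1) = x := by
  refine and_congr_right fun _ => ?_
  constructor
  · rintro ⟨R, hR, h0, j, hj⟩
    have e : rayF ω y (R 1) = R := by
      funext n
      have := hR.fwd_eq n
      rw [h0] at this
      simp [rayF, this]
    exact ⟨R 1, by rw [e]; exact hR, by rw [e]; exact h0, j, by rw [e]; exact hj⟩
  · rintro ⟨v, h1, h2, h3⟩
    exact ⟨_, h1, h2, h3⟩

lemma measurable_qr (x y : V) : Measurable (QR x y) := by
  have : QR x y = fun ω => Branch ω y ∧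
      ∃ v, IsRay ω (rayF ω y v) ∧ rayF ω y v 0 = y ∧ ∃ j, rayF ω y v (j + 1) = x := by
    funext ω
    exact propext qr_iff
  rw [this]
  refine Measurable.and ?_ ?_
  · unfold Branch
    refine Measurable.exists fun a => Measurable.exists fun b => Measurable.exists fun c =>
      measurable_const.and (measurable_const.and (measurable_const.and
        ((measurable_allowed y a).and ((measurable_allowed y b).and (measurable_allowed y c)))))
  · refine Measurable.exists fun v => ?_
    have hc : ∀ n, Measurable fun ω : Ω => rayF ω y v n := fun n =>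
      (measurable_fwd y v n).fst
    refine Measurable.and ?_ ((meas_prop2 (fun a _ => a = y) (hc 0) (hc 0)).and
      (Measurable.exists fun j => meas_prop2 (fun a _ => a = x) (hc (j + 1)) (hc (j + 1))))
    unfold IsRay
    refine Measurable.forall fun n => ?_
    refine (meas_prop2 (fun a b => a ≠ b) (hc n) (hc (n + 2))).and
      ((measurable_allowed_comp measurable_id (hc (n + 1)) (hc n)).and
      ((measurable_allowed_comp measurable_id (hc (n + 1)) (hc (n + 2))).and ?_))
    refine Measurable.forall fun c => Measurable.imp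
      (measurable_allowed_comp measurable_id (hc (n + 1)) measurable_const) ?_
    exact (meas_prop2 (fun a _ => c = a) (hc n) (hc n)).or
      (meas_prop2 (fun a _ => c = a) (hc (n + 2)) (hc (n + 2)))

variable (G : Measure ℝ≥0) [IsProbabilityMeasure G]

/-- **Theorem.** Almost surely every bigeodesic branches at arbitrarily large indices. -/
theorem branching_fwd (hG : ∀ x, G {x} = 0) : ∀ᵐ ω ∂(PP G), ∀ L, IsBigeodesic ω L → ∀ k₀ : ℤ,
    ∃ k, k₀ ≤ k ∧ ∃ c, Allowed ω (L k) c ∧ c ≠ L (k - 1) ∧ c ≠ L (k + 1) := by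
  have hfin := mtp_finite G (Q := QR) measurable_qr qr_theta qr_unique
  filter_upwards [hfin, no_isolated G hG] with ω h1 h2 L hL k₀
  by_contra hc
  push Not at hc
  have hc' : ∀ k, k₀ ≤ k → ∀ c, Allowed ω (L k) c → c = L (k - 1) ∨ c = L (k + 1) := by
    intro k hk c hac
    by_cases e : c = L (k - 1)
    · exact Or.inl e
    · exact Or.inr (hc k hk c hac e)
  by_cases hU : LocUnique ω L
  · exact h2 ⟨L, isIsolated_of_locUnique hL hU⟩
  · unfold LocUnique at hU
    push Not at hU
    have hex : ∃ k, ∃ c, Allowed ω (L k) c ∧ c ≠ L (k - 1) ∧ c ≠ L (k + 1) := by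
      obtain ⟨k, c, h3, h4, h5⟩ := hU
      exact ⟨k, c, h3, h4, h5⟩
    have hbd : ∀ k, (∃ c, Allowed ω (L k) c ∧ c ≠ L (k - 1) ∧ c ≠ L (k + 1)) → k ≤ k₀ := by
      rintro k ⟨c, h3, h4, h5⟩
      by_contra hk
      rcases hc' k (by omega) c h3 with e | e
      · exact h4 e
      · exact h5 e
    obtain ⟨k₁, ⟨c, h3, h4, h5⟩, hmax⟩ := Int.exists_greatest_of_bdd (P := fun k =>
      ∃ c, Allowed ω (L k) c ∧ c ≠ L (k - 1) ∧ c ≠ L (k + 1)) ⟨k₀, hbd⟩ hex
    have hinj := hL.inj
    have hy : Branch ω (L k₁) := by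
      refine ⟨L (k₁ - 1), L (k₁ + 1), c, fun e => ?_, h4.symm, h5.symm, allowed_back hL k₁,
        allowed_fwd hL k₁, h3⟩
      have := hinj e
      omega
    have hRay : IsRay ω (fun n : ℕ => L (k₁ + n)) := by
      intro n
      have e1 : k₁ + ((n + 1 : ℕ) : ℤ) - 1 = k₁ + n := by push_cast; ring
      have e2 : k₁ + ((n + 1 : ℕ) : ℤ) + 1 = k₁ + ((n + 2 : ℕ) : ℤ) := by push_cast; ring
      refine ⟨fun e => ?_, ?_, ?_, fun c' hc'' => ?_⟩
      · have := hinj e
        omega
      · have := allowed_back hL (k₁ + ((n + 1 : ℕ) : ℤ))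
        rwa [e1] at this
      · have := allowed_fwd hL (k₁ + ((n + 1 : ℕ) : ℤ))
        rwa [e2] at this
      · by_contra hne
        push Not at hne
        have := hmax (k₁ + ((n + 1 : ℕ) : ℤ)) ⟨c', hc'', by rw [e1]; exact hne.1,
          by rw [e2]; exact hne.2⟩
        omega
    have hinf : {x | QR x (L k₁) ω}.Infinite := by
      have hinj' : Function.Injective fun j : ℕ => L (k₁ + ((j + 1 : ℕ) : ℤ)) := by
        intro a b hab
        have := hinj hab
        omega
      refine (Set.infinite_range_of_injective hinj').mono ?_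
      rintro _ ⟨j, rfl⟩
      exact ⟨hy, _, hRay, by simp, j, rfl⟩
    exact hinf (h1 _)

/-- **Theorem.** Almost surely every bigeodesic branches at arbitrarily large and at arbitrarily
negative indices. -/
theorem branching (hG : ∀ x, G {x} = 0) : ∀ᵐ ω ∂(PP G), ∀ L, IsBigeodesic ω L → ∀ k₀ : ℤ,
    (∃ k, k₀ ≤ k ∧ ∃ M, IsBigeodesic ω M ∧ M 0 = L k ∧ M 1 ≠ L (k - 1) ∧ M 1 ≠ L (k + 1)) ∧
    (∃ k, k ≤ k₀ ∧ ∃ M, IsBigeodesic ω M ∧ M 0 = L k ∧ M 1 ≠ L (k - 1) ∧ M 1 ≠ L (k + 1)) := by
  filter_upwards [branching_fwd G hG] with ω h L hL k₀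
  constructor
  · obtain ⟨k, hk, c, ⟨M, hM, h0, h1⟩, h2, h3⟩ := h L hL k₀
    exact ⟨k, hk, M, hM, h0, by rw [h1]; exact h2, by rw [h1]; exact h3⟩
  · obtain ⟨k, hk, c, ⟨M, hM, h0, h1⟩, h2, h3⟩ := h _ hL.neg (-k₀)
    refine ⟨-k, by omega, M, hM, h0, ?_, ?_⟩
    · rw [h1]
      have e : -(k + 1) = -k - 1 := by ring
      rw [← e]
      exact h3
    · rw [h1]
      have e : -(k - 1) = -k + 1 := by ring
      rw [← e]
      exact h2

end Vale.Agent.Lib.P158
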