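import Vale.Agent.Lib.P158.Basic

/-!
# Mod 2 chains and potentials on the square lattice

Faces are indexed by their lower-left corner.  A closed chain has a potential on faces, which
flips exactly across the edges of the chain.
-/

open Set

namespace Vale.Agent.Lib.P158

/-- The unit vector `(1,0)`. -/
abbrev e1 : V := (1, 0)
/-- The unit vector `(0,1)`. -/
abbrev e2 : V := (0, 1)

/-- First face adjacent to an edge. -/
def faceA (e : E) : V := e.1

/-- Second face adjacent to an edge. -/
def faceB (e : E) : V := if e.2 then e.1 - e1 else e.1 - e2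

/-- The coboundary of a function on faces. -/
def dd (φ : V → ZMod 2) (e : E) : ZMod 2 := φ (faceA e) + φ (faceB e)

/-- The sum of a chain over the four edges at a vertex. -/
def deg (c : E → ZMod 2) (v : V) : ZMod 2 :=
  c (v, false) + c (v - e1, false) + c (v, true) + c (v - e2, true)

/-- Closed chains. -/
def Closed (c : E → ZMod 2) : Prop := ∀ v, deg c v = 0

lemma z2_add_self (a : ZMod 2) : a + a = 0 := by revert a; decide

lemma z2_eq_of_add (a b : ZMod 2) (h : a + b = 0) : b = a := by revert a b; decide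

lemma z2_ne_add_one (D : ZMod 2) : D ≠ D + 1 := by revert D; decide

lemma z2_cases (a : ZMod 2) : a = 0 ∨ a = 1 := by revert a; decide

lemma closed_dd (φ : V → ZMod 2) : Closed (dd φ) := by
  intro v
  unfold deg dd faceA faceB
  simp only [Bool.false_eq_true, if_false, if_true]
  have e : v - e2 - e1 = v - e1 - e2 := sub_right_comm _ _ _
  rw [e]
  generalize φ v = a
  generalize φ (v - e1) = b
  generalize φ (v - e2) = c
  generalize φ (v - e1 - e2) = d
  revert a b c d
  decide

/-! ### Integration on `ℤ` -/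

/-- The discrete integral from `0` to `n`, mod 2. -/
noncomputable def integ (f : ℤ → ZMod 2) (n : ℤ) : ZMod 2 :=
  if 0 ≤ n then ∑ k ∈ Finset.Ioc 0 n, f k else ∑ k ∈ Finset.Ioc n 0, f k

lemma integ_zero (f : ℤ → ZMod 2) : integ f 0 = 0 := by simp [integ]

lemma integ_step (f : ℤ → ZMod 2) (n : ℤ) : integ f n + integ f (n - 1) = f n := by
  unfold integ
  rcases lt_trichotomy n 0 with h | h | h
  · have h1 : ¬ (0 ≤ n) := by omega
    have h2 : ¬ (0 ≤ n - 1) := by omega
    rw [if_neg h1, if_neg h2]
    have : Finset.Ioc (n - 1) 0 = insert n (Finset.Ioc n 0) := by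
      ext x
      simp only [Finset.mem_Ioc, Finset.mem_insert]
      omega
    rw [this, Finset.sum_insert (by simp)]
    generalize ∑ k ∈ Finset.Ioc n 0, f k = s
    generalize f n = t
    revert s t
    decide
  · subst h
    simp only [le_refl, if_true, Finset.Ioc_self, Finset.sum_empty, zero_sub]
    have : Finset.Ioc (-1 : ℤ) 0 = {0} := by
      ext x
      simp only [Finset.mem_Ioc, Finset.mem_singleton]
      omega
    simp [this]
  · have h1 : 0 ≤ n := by omega
    have h2 : 0 ≤ n - 1 := by omega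
    rw [if_pos h1, if_pos h2]
    have : Finset.Ioc 0 n = insert n (Finset.Ioc 0 (n - 1)) := by
      ext x
      simp only [Finset.mem_Ioc, Finset.mem_insert]
      omega
    rw [this, Finset.sum_insert (by simp)]
    generalize ∑ k ∈ Finset.Ioc 0 (n - 1), f k = s
    generalize f n = t
    revert s t
    decide

lemma integ_add (f g : ℤ → ZMod 2) (n : ℤ) :
    integ (fun k => f k + g k) n = integ f n + integ g n := by
  unfold integ
  split_ifs <;> exact Finset.sum_add_distrib

lemma integ_tele (g : ℤ → ZMod 2) (n : ℤ) :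
    integ (fun k => g k + g (k - 1)) n = g n + g 0 := by
  induction n using Int.induction_on with
  | zero => simp [integ_zero, z2_add_self]
  | succ n ih =>
    have h := integ_step (fun k => g k + g (k - 1)) ((n : ℤ) + 1)
    simp only [add_sub_cancel_right] at h
    rw [ih] at h
    have hcalc : ∀ a b c d : ZMod 2, a + (b + c) = d + b → a = d + c := by decide
    exact hcalc _ _ _ _ h
  | pred n ih =>
    have h := integ_step (fun k => g k + g (k - 1)) (-(n : ℤ))
    rw [ih] at h
    have hcalc : ∀ a b c d : ZMod 2, (a + b) + c = a + d → c = d + b := by decide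
    exact hcalc _ _ _ _ h

/-! ### Existence of a potential -/

/-- The potential of a chain. -/
noncomputable def pot (c : E → ZMod 2) (f : V) : ZMod 2 :=
  integ (fun i => c ((i, 0), true)) f.1 + integ (fun k => c ((f.1, k), false)) f.2

lemma dd_pot {c : E → ZMod 2} (hc : Closed c) (e : E) : dd (pot c) e = c e := by
  obtain ⟨⟨a, b⟩, t⟩ := e
  cases t with
  | false =>
    unfold dd faceA faceB pot
    simp only [Bool.false_eq_true, if_false]
    have h := integ_step (fun k => c ((a, k), false)) b
    have e : ((a, b) - e2 : V) = (a, b - 1) := by ext <;> simp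
    rw [e]
    simp only
    have hcalc : ∀ x y z w : ZMod 2, y + z = w → (x + y) + (x + z) = w := by decide
    exact hcalc _ _ _ _ h
  | true =>
    unfold dd faceA faceB pot
    simp only [if_true]
    have e : ((a, b) - e1 : V) = (a - 1, b) := by ext <;> simp
    rw [e]
    simp only
    have h1 := integ_step (fun i => c ((i, 0), true)) a
    have h2 : integ (fun k => c ((a, k), false) + c ((a - 1, k), false)) b =
        c ((a, b), true) + c ((a, 0), true) := by
      have : (fun k => c ((a, k), false) + c ((a - 1, k), false)) =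
          fun k => c ((a, k), true) + c ((a, k - 1), true) := by
        funext k
        have := hc (a, k)
        unfold deg at this
        have e3 : ((a, k) - e1 : V) = (a - 1, k) := by ext <;> simp
        have e4 : ((a, k) - e2 : V) = (a, k - 1) := by ext <;> simp
        rw [e3, e4] at this
        have hcalc : ∀ x y z w : ZMod 2, x + y + z + w = 0 → x + y = z + w := by decide
        exact hcalc _ _ _ _ this
      rw [this]
      exact integ_tele (fun k => c ((a, k), true)) b
    rw [integ_add] at h2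
    have hcalc : ∀ x y z w u t : ZMod 2, x + y = t → z + w = u + t → (x + z) + (y + w) = u := by
      decide
    exact hcalc _ _ _ _ _ _ h1 h2

lemma exists_potential {c : E → ZMod 2} (hc : Closed c) : ∃ τ : V → ZMod 2, ∀ e, dd τ e = c e :=
  ⟨pot c, dd_pot hc⟩

/-- A face outside the box of radius `B`. -/
def Far (B : ℕ) (f : V) : Prop := B < f.1.natAbs ∨ B < f.2.natAbs

lemma col_const {τ : V → ZMod 2} {c : E → ZMod 2} (h : ∀ e, dd τ e = c e) {a : ℤ}
    (h0 : ∀ k, c ((a, k), false) = 0) (b : ℤ) : τ (a, b) = τ (a, 0) := by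
  have step : ∀ k, τ (a, k) = τ (a, k - 1) := by
    intro k
    have := h ((a, k), false)
    rw [h0] at this
    unfold dd faceA faceB at this
    simp only [Bool.false_eq_true, if_false] at this
    have e : ((a, k) - e2 : V) = (a, k - 1) := by ext <;> simp
    rw [e] at this
    exact (z2_eq_of_add _ _ this).symm
  induction b using Int.induction_on with
  | zero => rfl
  | succ n ih =>
    rw [step]
    simpa using ih
  | pred n ih =>
    rw [← ih, step (-(n : ℤ))]

lemma row_const {τ : V → ZMod 2} {c : E → ZMod 2} (h : ∀ e, dd τ e = c e) {b : ℤ}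
    (h0 : ∀ i, c ((i, b), true) = 0) (a : ℤ) : τ (a, b) = τ (0, b) := by
  have step : ∀ i, τ (i, b) = τ (i - 1, b) := by
    intro i
    have := h ((i, b), true)
    rw [h0] at this
    unfold dd faceA faceB at this
    simp only [if_true] at this
    have e : ((i, b) - e1 : V) = (i - 1, b) := by ext <;> simp
    rw [e] at this
    exact (z2_eq_of_add _ _ this).symm
  induction a using Int.induction_on with
  | zero => rfl
  | succ n ih =>
    rw [step]
    simpa using ih
  | pred n ih =>
    rw [← ih, step (-(n : ℤ))]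

/-- A closed chain of bounded support has a potential vanishing outside a box. -/
lemma exists_potential_far {c : E → ZMod 2} (hc : Closed c) {B : ℕ}
    (hB : ∀ e : E, Far B e.1 → c e = 0) :
    ∃ σ : V → ZMod 2, (∀ e, dd σ e = c e) ∧ ∀ f, Far B f → σ f = 0 := by
  obtain ⟨τ, hτ⟩ := exists_potential hc
  set κ := τ (0, (B : ℤ) + 1) with hκ
  have hcol : ∀ a : ℤ, B < a.natAbs → ∀ b, τ (a, b) = τ (a, 0) := fun a ha b =>
    col_const hτ (fun k => hB _ (Or.inl ha)) b
  have hrow : ∀ b : ℤ, B < b.natAbs → ∀ a, τ (a, b) = τ (0, b) := fun b hb a =>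
    row_const hτ (fun i => hB _ (Or.inr hb)) a
  have hB1 : B < ((B : ℤ) + 1).natAbs := by omega
  have hval : ∀ f, Far B f → τ f = κ := by
    rintro ⟨a, b⟩ (h | h)
    · simp only at h
      rw [hcol a h b, ← hcol a h ((B : ℤ) + 1), hrow _ hB1 a]
    · simp only at h
      rw [hrow b h a, ← hrow b h ((B : ℤ) + 1), hcol _ hB1 b, ← hcol _ hB1 ((B : ℤ) + 1),
        hrow _ hB1 ((B : ℤ) + 1)]
  refine ⟨fun f => τ f + κ, fun e => ?_, fun f hf => ?_⟩
  · rw [← hτ e]
    unfold dd
    have hcalc : ∀ x y z : ZMod 2, (x + z) + (y + z) = x + y := by decide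
    exact hcalc _ _ _
  · simp only
    rw [hval f hf]
    exact z2_add_self κ

/-! ### Chains of paths -/

/-- The chain of the path `P` between the indices `i` and `j`. -/
noncomputable def pchain (P : ℤ → V) (i j : ℤ) (e : E) : ZMod 2 :=
  ∑ k ∈ Finset.Ico i j, (if edgeOf (P k) (P (k + 1)) = e then 1 else 0)

lemma edgeOf_e1 (x : V) : edgeOf x (x + e1) = (x, false) := by
  obtain ⟨a, b⟩ := x
  simp [edgeOf, e1]

lemma edgeOf_e2 (x : V) : edgeOf x (x + e2) = (x, true) := by
  obtain ⟨a, b⟩ := x
  simp [edgeOf, e2]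

lemma adj_cases' {q c : V} (h : Adj q c) :
    c = q + e1 ∨ c = q + e2 ∨ q = c + e1 ∨ q = c + e2 := by
  unfold Adj dist1 at h
  obtain ⟨q1, q2⟩ := q
  obtain ⟨c1, c2⟩ := c
  simp only [Prod.mk_add_mk, Prod.mk.injEq, e1, e2] at *
  omega

lemma adj_e1 (x : V) : Adj x (x + e1) := by
  unfold Adj dist1; simp [e1]

lemma adj_e2 (x : V) : Adj x (x + e2) := by
  unfold Adj dist1; simp [e2]

lemma deg_single_h (x v : V) :
    deg (fun e => if (x, false) = e then 1 else 0) v =
      (if x = v then 1 else 0) + (if x + e1 = v then 1 else 0) := by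
  unfold deg
  have h1 : ((x, false) = (v - e1, false)) ↔ x + e1 = v := by
    simp only [Prod.mk.injEq, and_true]
    constructor
    · intro h; rw [h]; simp
    · intro h; rw [← h]; simp
  simp only [h1]
  simp

lemma deg_single_v (x v : V) :
    deg (fun e => if (x, true) = e then 1 else 0) v =
      (if x = v then 1 else 0) + (if x + e2 = v then 1 else 0) := by
  unfold deg
  have h1 : ((x, true) = (v - e2, true)) ↔ x + e2 = v := by
    simp only [Prod.mk.injEq, and_true]
    constructor
    · intro h; rw [h]; simp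
    · intro h; rw [← h]; simp
  simp only [h1]
  simp

lemma deg_single {x y : V} (h : Adj x y) (v : V) :
    deg (fun e => if edgeOf x y = e then 1 else 0) v =
      (if x = v then 1 else 0) + (if y = v then 1 else 0) := by
  rcases adj_cases' h with rfl | rfl | rfl | rfl
  · rw [edgeOf_e1, deg_single_h]
  · rw [edgeOf_e2, deg_single_v]
  · rw [edgeOf_comm, edgeOf_e1, deg_single_h, add_comm]
  · rw [edgeOf_comm, edgeOf_e2, deg_single_v, add_comm]

lemma deg_add (c c' : E → ZMod 2) (v : V) :
    deg (fun e => c e + c' e) v = deg c v + deg c' v := by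
  unfold deg
  ring

lemma deg_pchain {P : ℤ → V} {i j : ℤ} (hij : i ≤ j)
    (hadj : ∀ k, i ≤ k → k < j → Adj (P k) (P (k + 1))) (v : V) :
    deg (pchain P i j) v = (if P i = v then 1 else 0) + (if P j = v then 1 else 0) := by
  induction j, hij using Int.le_induction with
  | base =>
    have : pchain P i i = fun _ => 0 := by
      funext e
      simp [pchain]
    rw [this]
    unfold deg
    simp only [add_zero]
    exact (z2_add_self _).symm
  | succ j hj ih =>
    have hsum : pchain P i (j + 1) = fun e => pchain P i j e +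
        (if edgeOf (P j) (P (j + 1)) = e then 1 else 0) := by
      funext e
      unfold pchain
      rw [← Finset.insert_Ico_right_eq_Ico_add_one hj, Finset.sum_insert Finset.right_notMem_Ico,
        add_comm]
    rw [hsum, deg_add, ih (fun k h1 h2 => hadj k h1 (by omega)),
      deg_single (hadj j hj (by omega))]
    generalize (if P i = v then (1 : ZMod 2) else 0) = a
    generalize (if P j = v then (1 : ZMod 2) else 0) = b
    generalize (if P (j + 1) = v then (1 : ZMod 2) else 0) = c
    revert a b c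
    decide

lemma pchain_support {P : ℤ → V} {i j : ℤ} {e : E} (h : pchain P i j e ≠ 0) :
    ∃ k, i ≤ k ∧ k < j ∧ edgeOf (P k) (P (k + 1)) = e := by
  unfold pchain at h
  obtain ⟨k, hk, hk'⟩ := Finset.exists_ne_zero_of_sum_ne_zero h
  simp only [Finset.mem_Ico] at hk
  refine ⟨k, hk.1, hk.2, ?_⟩
  by_contra hne
  simp [hne] at hk'

/-- Evaluating the chain of an injective path on one of its edges. -/
lemma pchain_edge {P : ℤ → V} {i j : ℤ} (hinj : Function.Injective P)
    (hadj : ∀ k, Adj (P k) (P (k + 1))) {k : ℤ} (h1 : i ≤ k) (h2 : k < j) :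
    pchain P i j (edgeOf (P k) (P (k + 1))) = 1 := by
  unfold pchain
  rw [Finset.sum_eq_single k]
  · simp
  · intro m _ hm
    rw [if_neg]
    intro h
    rcases edgeOf_inj h (hadj m) (hadj k) with ⟨h3, _⟩ | ⟨h3, h4⟩
    · exact hm (hinj h3)
    · have e1 := hinj h3
      have e2 := hinj h4
      omega
  · intro h
    exact absurd (Finset.mem_Ico.2 ⟨h1, h2⟩) h

/-! ### Local structure -/

/-- The chain vanishes on all edges at `v`. -/
def OffC (c : E → ZMod 2) (v : V) : Prop :=
  c (v, false) = 0 ∧ c (v - e1, false) = 0 ∧ c (v, true) = 0 ∧ c (v - e2, true) = 0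

/-- `f` is one of the four faces at `v`. -/
def FaceAt (v f : V) : Prop := f = v ∨ f = v - e1 ∨ f = v - e1 - e2 ∨ f = v - e2

/-- All four faces at `v` have the value `D`. -/
def Ar (φ : V → ZMod 2) (v : V) (D : ZMod 2) : Prop := ∀ f, FaceAt v f → φ f = D

/-- `e` is one of the four edges at `v`. -/
def Inc (v : V) (e : E) : Prop :=
  e = (v, false) ∨ e = (v - e1, false) ∨ e = (v, true) ∨ e = (v - e2, true)

lemma OffC.of_inc {c : E → ZMod 2} {v : V} (h : ∀ e, Inc v e → c e = 0) : OffC c v :=
  ⟨h _ (Or.inl rfl), h _ (Or.inr (Or.inl rfl)), h _ (Or.inr (Or.inr (Or.inl rfl))),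
    h _ (Or.inr (Or.inr (Or.inr rfl)))⟩

lemma faces_inc {v : V} {e : E} (h : Inc v e) : FaceAt v (faceA e) ∧ FaceAt v (faceB e) := by
  rcases h with rfl | rfl | rfl | rfl
  · exact ⟨Or.inl rfl, Or.inr (Or.inr (Or.inr rfl))⟩
  · exact ⟨Or.inr (Or.inl rfl), Or.inr (Or.inr (Or.inl rfl))⟩
  · exact ⟨Or.inl rfl, Or.inr (Or.inl rfl)⟩
  · refine ⟨Or.inr (Or.inr (Or.inr rfl)), Or.inr (Or.inr (Or.inl ?_))⟩
    simp [faceB, sub_right_comm]

lemma inc_edgeOf_left {a b : V} (h : Adj a b) : Inc a (edgeOf a b) := by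
  rcases adj_cases' h with rfl | rfl | rfl | rfl
  · rw [edgeOf_e1]; exact Or.inl rfl
  · rw [edgeOf_e2]; exact Or.inr (Or.inr (Or.inl rfl))
  · rw [edgeOf_comm, edgeOf_e1]; exact Or.inr (Or.inl (by simp))
  · rw [edgeOf_comm, edgeOf_e2]; exact Or.inr (Or.inr (Or.inr (by simp)))

lemma inc_edgeOf_right {a b : V} (h : Adj a b) : Inc b (edgeOf a b) := by
  rw [edgeOf_comm]
  exact inc_edgeOf_left h.symm

/-- An edge of the form `edgeOf a b` incident to `v` has `v` as an endpoint. -/
lemma eq_of_inc_edgeOf {a b v : V} (h : Adj a b) (hv : Inc v (edgeOf a b)) : v = a ∨ v = b := by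
  rcases hv with he | he | he | he
  · have h2 : edgeOf v (v + e1) = edgeOf a b := by rw [edgeOf_e1]; exact he.symm
    rcases edgeOf_inj h2 (adj_e1 v) h with ⟨h3, _⟩ | ⟨h3, _⟩
    · exact Or.inl h3
    · exact Or.inr h3
  · have h2 : edgeOf (v - e1) (v - e1 + e1) = edgeOf a b := by rw [edgeOf_e1]; exact he.symm
    rcases edgeOf_inj h2 (adj_e1 _) h with ⟨_, h3⟩ | ⟨_, h3⟩
    · right; rw [← h3]; simp
    · left; rw [← h3]; simp
  · have h2 : edgeOf v (v + e2) = edgeOf a b := by rw [edgeOf_e2]; exact he.symm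
    rcases edgeOf_inj h2 (adj_e2 v) h with ⟨h3, _⟩ | ⟨h3, _⟩
    · exact Or.inl h3
    · exact Or.inr h3
  · have h2 : edgeOf (v - e2) (v - e2 + e2) = edgeOf a b := by rw [edgeOf_e2]; exact he.symm
    rcases edgeOf_inj h2 (adj_e2 _) h with ⟨_, h3⟩ | ⟨_, h3⟩
    · right; rw [← h3]; simp
    · left; rw [← h3]; simp

lemma ar_of_off {τ : V → ZMod 2} {c : E → ZMod 2} (h : ∀ e, dd τ e = c e) {v : V} (hv : OffC c v) :
    Ar τ v (τ v) := by
  have e1' := h (v, false)
  have e2' := h (v, true)
  have e3' := h (v - e1, false)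
  rw [hv.1] at e1'
  rw [hv.2.2.1] at e2'
  rw [hv.2.1] at e3'
  unfold dd faceA faceB at e1' e2' e3'
  simp only [Bool.false_eq_true, if_false, if_true] at e1' e2' e3'
  have h1 := z2_eq_of_add _ _ e1'
  have h2 := z2_eq_of_add _ _ e2'
  have h3 := z2_eq_of_add _ _ e3'
  rintro f (rfl | rfl | rfl | rfl)
  · rfl
  · exact h2
  · rw [h3, h2]
  · exact h1

/-- Two adjacent vertices share a face. -/
lemma shared_face {v w : V} (h : Adj v w) : ∃ f, FaceAt v f ∧ FaceAt w f := by
  have := inc_edgeOf_left h
  exact ⟨faceA (edgeOf v w), (faces_inc this).1, (faces_inc (inc_edgeOf_right h)).1⟩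

lemma ar_step {τ : V → ZMod 2} {c : E → ZMod 2} (h : ∀ e, dd τ e = c e) {v w : V} (hvw : Adj v w)
    (hw : OffC c w) {D : ZMod 2} (hv : Ar τ v D) : Ar τ w D := by
  obtain ⟨f, h1, h2⟩ := shared_face hvw
  have h3 := ar_of_off h hw
  have h4 : τ w = D := by rw [← h3 f h2]; exact hv f h1
  rwa [h4] at h3

/-- Propagation of the value of a potential along a path off the chain. -/
lemma ar_path {τ : V → ZMod 2} {c : E → ZMod 2} (h : ∀ e, dd τ e = c e) {P : ℤ → V} {i j : ℤ}
    (hij : i ≤ j) (hadj : ∀ k, i ≤ k → k < j → Adj (P k) (P (k + 1)))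
    (hoff : ∀ k, i < k → k ≤ j → OffC c (P k)) {D : ZMod 2} (hi : Ar τ (P i) D) : Ar τ (P j) D := by
  induction j, hij using Int.le_induction with
  | base => exact hi
  | succ j hj ih =>
    exact ar_step h (hadj j hj (by omega)) (hoff _ (by omega) le_rfl)
      (ih (fun k h1 h2 => hadj k h1 (by omega)) (fun k h1 h2 => hoff k h1 (by omega)))

lemma ar_path_rev {τ : V → ZMod 2} {c : E → ZMod 2} (h : ∀ e, dd τ e = c e) {P : ℤ → V} {i j : ℤ}
    (hij : i ≤ j) (hadj : ∀ k, i ≤ k → k < j → Adj (P k) (P (k + 1)))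
    (hoff : ∀ k, i ≤ k → k < j → OffC c (P k)) {D : ZMod 2} (hj : Ar τ (P j) D) : Ar τ (P i) D := by
  have := ar_path (P := fun k => P (-k)) (i := -j) (j := -i) h (by omega) (fun k h1 h2 => ?_)
    (fun k h1 h2 => hoff _ (by omega) (by omega)) (by simpa using hj)
  · simpa using this
  · have := (hadj (-(k + 1)) (by omega) (by omega)).symm
    have e : -(k + 1) + 1 = -k := by ring
    rw [e] at this
    exact this

/-- A function on faces vanishing on far faces, constant along an injective path off the chain,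
vanishes along the path. -/
lemma ar_far {σ : V → ZMod 2} {c : E → ZMod 2} {B : ℕ} (h : ∀ e, dd σ e = c e)
    (hfar : ∀ f, Far B f → σ f = 0) {P : ℤ → V} (hinj : Function.Injective P)
    (hadj : ∀ k, Adj (P k) (P (k + 1))) (hoff : ∀ k, OffC c (P k)) (k : ℤ) : Ar σ (P k) 0 := by
  -- find a far vertex on the path
  have hbox : ({y : V | y.1.natAbs ≤ B + 1 ∧ y.2.natAbs ≤ B + 1}).Finite := by
    apply (Set.finite_Icc ((-((B : ℤ) + 1), -((B : ℤ) + 1)) : V) (((B : ℤ) + 1), ((B : ℤ) + 1))).subset
    rintro ⟨a, b⟩ ⟨h1, h2⟩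
    simp only at h1 h2
    exact ⟨Prod.mk_le_mk.2 ⟨by omega, by omega⟩, Prod.mk_le_mk.2 ⟨by omega, by omega⟩⟩
  have hnot : ¬ (range P ⊆ {y : V | y.1.natAbs ≤ B + 1 ∧ y.2.natAbs ≤ B + 1}) := by
    intro hsub
    exact (Set.infinite_range_of_injective hinj) (hbox.subset hsub)
  rw [Set.not_subset] at hnot
  obtain ⟨_, ⟨m, rfl⟩, hm⟩ := hnot
  have hm' : B + 1 < (P m).1.natAbs ∨ B + 1 < (P m).2.natAbs := by
    by_contra hc
    push Not at hc
    exact hm hc
  have hfm : Ar σ (P m) 0 := by
    have h0 := ar_of_off h (hoff m)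
    have : σ (P m) = 0 := hfar _ (by
      unfold Far; omega)
    rwa [this] at h0
  rcases le_total m k with hmk | hkm
  · exact ar_path h hmk (fun j _ _ => hadj j) (fun j _ _ => hoff j) hfm
  · exact ar_path_rev h hkm (fun j _ _ => hadj j) (fun j _ _ => hoff j) hfm

end Vale.Agent.Lib.P158
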