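import Vale.Agent.Lib.P158.Lines2

/-!
# Recurrence of the set of line vertices; existence of chords and of representative chords
-/

open MeasureTheory Set
open scoped NNReal ENNReal

namespace Vale.Agent.Lib.P158

lemma unit_cases {u : V} (hu : dist1 0 u = 1) :
    u = (1, 0) ∨ u = (-1, 0) ∨ u = (0, 1) ∨ u = (0, -1) := by
  obtain ⟨a, b⟩ := u
  unfold dist1 at hu
  simp only [Prod.fst_zero, Prod.snd_zero, zero_sub, Int.natAbs_neg] at hu
  simp only [Prod.mk.injEq]
  omega

lemma st_injective {u : V} (hu : dist1 0 u = 1) (y : V) : Function.Injective (st y u) := by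
  intro a b h
  have e1 := congrArg Prod.fst h
  have e2 := congrArg Prod.snd h
  simp only [st, Prod.fst_add, Prod.snd_add] at e1 e2
  rcases unit_cases hu with rfl | rfl | rfl | rfl <;> simp at e1 e2 <;> omega

/-- The last line vertex of a straight ray. -/
def Term (ω : Ω) (u y : V) : Prop := y ∈ Vt ω ∧ ∀ m, 0 < m → st y u m ∉ Vt ω

lemma measurable_term (u y : V) : Measurable fun ω : Ω => Term ω u y :=
  (measurable_vt y).and (Measurable.forall fun m => Measurable.imp measurable_const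
    (measurable_vt _).not)

lemma term_theta (z : V) (ω : Ω) (u y : V) : Term (theta z ω) u y ↔ Term ω u (y + z) := by
  unfold Term
  simp only [vt_theta, st_add]

section
variable (G : Measure ℝ≥0) [IsProbabilityMeasure G]

theorem ae_no_term {u : V} (hu : dist1 0 u = 1) : ∀ᵐ ω ∂(PP G), ∀ y, ¬ Term ω u y := by
  have key := mtp_finite G (Q := fun x y ω => Term ω u y ∧ ∃ k, x = st y u k)
    (fun x y => (measurable_term u y).and measurable_const)
    (fun x y z ω => by
      rw [term_theta]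
      constructor
      · rintro ⟨h1, k, hk⟩
        refine ⟨h1, k, ?_⟩
        rw [st_add] at hk
        exact add_right_cancel hk
      · rintro ⟨h1, k, hk⟩
        refine ⟨h1, k, ?_⟩
        rw [st_add, hk])
    (fun x ω y y' ⟨h1, k, hk⟩ ⟨h2, k', hk'⟩ => by
      have e : y' = st y u (k - k') := by
        have e1 := congrArg Prod.fst (hk.symm.trans hk')
        have e2 := congrArg Prod.snd (hk.symm.trans hk')
        simp only [st, Prod.fst_add, Prod.snd_add] at e1 e2
        ext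
        · simp only [st, Prod.fst_add]; linarith
        · simp only [st, Prod.snd_add]; linarith
      rcases lt_trichotomy k k' with hlt | heq | hgt
      · exfalso
        have e' : y = st y' u (k' - k) := by
          rw [e, st_st]
          simp
        exact h2.2 (k' - k) (by omega) (e' ▸ h1.1)
      · subst heq
        simpa using e.symm
      · exfalso
        exact h1.2 (k - k') (by omega) (e ▸ h2.1))
  filter_upwards [key] with ω hω y hy
  have hfin := hω y
  apply Set.infinite_range_of_injective (st_injective hu y)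
  refine hfin.subset ?_
  rintro _ ⟨k, rfl⟩
  exact ⟨hy, k, rfl⟩

end

lemma first_hit {ω : Ω} {x u : V} {n : ℤ} (hn : 0 < n) (h : st x u n ∈ Vt ω) :
    ∃ m, 0 < m ∧ m ≤ n ∧ st x u m ∈ Vt ω ∧ ∀ m', 0 < m' → m' < m → st x u m' ∉ Vt ω := by
  obtain ⟨m, ⟨h1, h2⟩, h3⟩ := Int.exists_least_of_bdd (P := fun m => 0 < m ∧ st x u m ∈ Vt ω)
    ⟨0, fun z hz => hz.1.le⟩ ⟨n, hn, h⟩
  refine ⟨m, h1, h3 n ⟨hn, h⟩, h2, fun m' h4 h5 h6 => ?_⟩
  have := h3 m' ⟨h4, h6⟩
  omega

lemma same_of_no_chord {ω : Ω} {u : V} (hno : ∀ R x k, ¬ IsChord ω u R x k) (n : ℕ) :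
    ∀ x, x ∈ Vt ω → st x u n ∈ Vt ω → SameLn ω x (st x u n) := by
  induction n using Nat.strong_induction_on with
  | _ n ih =>
    intro x hx hy
    rcases Nat.eq_zero_or_pos n with rfl | hn
    · simpa using sameLn_self_iff.2 hx
    · obtain ⟨m, h1, h2, h3, h4⟩ := first_hit (n := (n : ℤ)) (by omega) hy
      have h5 : SameLn ω x (st x u m) := by
        by_contra hc
        apply hno m.toNat x m
        refine ⟨by omega, by omega, hx, h3, h4, hc⟩
      obtain ⟨t, ht⟩ := Int.eq_ofNat_of_zero_le (sub_nonneg.2 h2)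
      have e : st (st x u m) u t = st x u n := by
        rw [st_st, ← ht]
        congr 1
        ring
      have h6 := ih t (by omega) (st x u m) h3 (by rw [e]; exact hy)
      rw [e] at h6
      exact h5.trans h6

lemma same_of_no_chord_int {ω : Ω} {u : V} (hno : ∀ R x k, ¬ IsChord ω u R x k) {x : V}
    (hx : x ∈ Vt ω) (k : ℤ) (hy : st x u k ∈ Vt ω) : SameLn ω x (st x u k) := by
  rcases le_total 0 k with hk | hk
  · obtain ⟨n, rfl⟩ := Int.eq_ofNat_of_zero_le hk
    exact same_of_no_chord hno n x hx hy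
  · obtain ⟨n, hn⟩ := Int.eq_ofNat_of_zero_le (neg_nonneg.2 hk)
    have e : st (st x u k) u n = x := by
      rw [st_st, ← hn]
      simp
    have := same_of_no_chord hno n (st x u k) hy (by rw [e]; exact hx)
    rw [e] at this
    exact this.symm

lemma far_hit {ω : Ω} {u : V} (hrec : ∀ y, ¬ Term ω u y) (n : ℕ) :
    ∀ x, x ∈ Vt ω → ∃ m : ℤ, n ≤ m ∧ st x u m ∈ Vt ω := by
  induction n with
  | zero =>
    intro x hx
    exact ⟨0, by simp, by simpa using hx⟩
  | succ n ih =>
    intro x hx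
    obtain ⟨m, h1, h2⟩ := ih x hx
    have h3 : ∃ m', 0 < m' ∧ st (st x u m) u m' ∈ Vt ω := by
      by_contra hc
      push Not at hc
      exact hrec _ ⟨h2, hc⟩
    obtain ⟨m', h4, h5⟩ := h3
    rw [st_st] at h5
    refine ⟨m + m', ?_, h5⟩
    push_cast
    omega

/-- If two disjoint isolated lines exist and line vertices recur vertically, there is a chord. -/
theorem chord_exists {ω : Ω} (hup : ∀ y, ¬ Term ω (0, 1) y) (hdn : ∀ y, ¬ Term ω (0, -1) y)
    {L M : Line} (hL : IsIsolated ω L) (hM : IsIsolated ω M) (hd : ∀ i j, L i ≠ M j) :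
    (∃ R x k, IsChord ω e1 R x k) ∨ (∃ R x k, IsChord ω e2 R x k) := by
  by_contra hc
  push Not at hc
  obtain ⟨h1, h2⟩ := hc
  set r := (M 0).2 with hr
  have hx : L 0 ∈ Vt ω := mem_Vt_of hL 0
  obtain ⟨m₁, hm₁, hz₁⟩ := far_hit hup (r - (L 0).2).natAbs (L 0) hx
  obtain ⟨m₂, hm₂, hz₂⟩ := far_hit hdn (r - (L 0).2).natAbs (L 0) hx
  have hs₁ : SameLn ω (L 0) (st (L 0) (0, 1) m₁) := same_of_no_chord_int h2 hx m₁ hz₁
  have e₂ : st (L 0) (0, -1) m₂ = st (L 0) (0, 1) (-m₂) := by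
    ext <;> simp [st]
  rw [e₂] at hz₂
  have hs₂ : SameLn ω (L 0) (st (L 0) (0, 1) (-m₂)) := same_of_no_chord_int h2 hx _ hz₂
  obtain ⟨j₁, hj₁⟩ := hL.on_of_same hs₁
  obtain ⟨j₂, hj₂⟩ := hL.on_of_same hs₂
  have hstep : ∀ k, |(fun k => (L k).2) (k + 1) - (fun k => (L k).2) k| ≤ 1 := by
    intro k
    have := hL.1.adj k
    unfold Adj dist1 at this
    simp only
    rw [abs_le]
    omega
  obtain ⟨k, hk⟩ := ivt_int (fun k => (L k).2) hstep (a := j₂) (b := j₁) (r := r)
    (by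
      simp only [hj₂, st, Prod.snd_add]
      simp only [mul_one]
      omega)
    (by
      simp only [hj₁, st, Prod.snd_add]
      simp only [mul_one]
      omega)
  have hk' : (L k).2 = r := hk
  have hy : M 0 ∈ Vt ω := mem_Vt_of hM 0
  have hw : L k ∈ Vt ω := mem_Vt_of hL k
  have e : st (L k) e1 ((M 0).1 - (L k).1) = M 0 := by
    ext
    · simp [st]
    · simp [st, hk', hr]
  have hs : SameLn ω (L k) (st (L k) e1 ((M 0).1 - (L k).1)) :=
    same_of_no_chord_int h1 hw _ (by rw [e]; exact hy)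
  rw [e] at hs
  obtain ⟨j, hj⟩ := hL.on_of_same hs
  exact hd j 0 hj

lemma dist1_st {u : V} (hu : dist1 0 u = 1) (x : V) (k : ℤ) :
    dist1 x (st x u k) = k.natAbs := by
  rcases unit_cases hu with rfl | rfl | rfl | rfl <;> simp [dist1, st]

lemma chord_k_unique {ω : Ω} {u : V} {R R' : ℕ} {x : V} {k k' : ℤ} (h : IsChord ω u R x k)
    (h' : IsChord ω u R' x k') : k = k' := by
  obtain ⟨a1, _, _, a4, a5, _⟩ := h
  obtain ⟨b1, _, _, b4, b5, _⟩ := h'
  rcases lt_trichotomy k k' with hlt | heq | hgt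
  · exact absurd a4 (b5 k (by omega) hlt)
  · exact heq
  · exact absurd b4 (a5 k' (by omega) hgt)

/-- A chord yields a representative chord, unless an isolated pair is near infinitely often. -/
theorem rep_of_chord {ω : Ω}
    (hnear : ¬ ∃ (L M : Line) (R : ℕ), IsIsolated ω L ∧ IsIsolated ω M ∧
      (∀ i j, L i ≠ M j) ∧ NearInf R L M)
    {u : V} (hu : dist1 0 u = 1) {R : ℕ} {x₀ : V} {k₀ : ℤ} (hc : IsChord ω u R x₀ k₀) :
    ∃ x, IsRep ω u R x := by
  obtain ⟨h1, h2, h3, h4, h5, h6⟩ := id hc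
  obtain ⟨L, hL, i₀, hi₀⟩ := h3
  obtain ⟨M, hM, j₀, hj₀⟩ := h4
  have hd : ∀ i j, L i ≠ M j := by
    intro i j he
    apply h6
    have := sameLn_of_meet hL hM he i₀ j₀
    rwa [hi₀, hj₀] at this
  set S : Set V := {x' | ∃ k', IsChord ω u R x' k' ∧ SameLn ω x₀ x' ∧
    SameLn ω (st x₀ u k₀) (st x' u k')} with hS
  have hnf : ¬ NearInf R L M := fun hn => hnear ⟨L, M, R, hL, hM, hd, hn⟩
  have hfin : {p : ℤ × ℤ | dist1 (L p.1) (M p.2) ≤ R}.Finite := by
    unfold NearInf at hnf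
    simpa using hnf
  have hSf : S.Finite := by
    refine (hfin.image fun p => L p.1).subset ?_
    rintro x' ⟨k', hc', hs1, hs2⟩
    have hs1' : SameLn ω (L i₀) x' := by rwa [hi₀]
    have hs2' : SameLn ω (M j₀) (st x' u k') := by rwa [hj₀]
    obtain ⟨i, hi⟩ := hL.on_of_same hs1'
    obtain ⟨j, hj⟩ := hM.on_of_same hs2'
    refine ⟨(i, j), ?_, hi⟩
    simp only [Set.mem_ofPred_eq, hi, hj]
    rw [dist1_st hu x' k']
    have := hc'.1
    have := hc'.2.1
    omega
  have hSne : S.Nonempty := ⟨x₀, k₀, hc, sameLn_self_iff.2 hc.2.2.1, sameLn_self_iff.2 hc.2.2.2.1⟩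
  obtain ⟨x, ⟨k, hx1, hx2, hx3⟩, hmin⟩ := exists_lex_min hSf hSne
  refine ⟨x, ⟨k, hx1⟩, fun k₁ x' k' hc₁ hc' hs hs' => hmin x' ⟨k', hc', hx2.trans hs, ?_⟩⟩
  have e : k₁ = k := chord_k_unique hc₁ hx1
  subst e
  exact hx3.trans hs'

end Vale.Agent.Lib.P158
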