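import Vale.Agent.Lib.P158.Pair

/-!
# Two environments differing at one edge cannot carry the same near pair of isolated lines
-/

open MeasureTheory Filter Set Topology
open scoped NNReal ENNReal

namespace Vale.Agent.Lib.P158

lemma T_le_sum (ω : Ω) {N : Line} (h : ∀ k, Adj (N k) (N (k + 1))) {i j : ℤ} (hij : i ≤ j) :
    T ω (N i) (N j) ≤ ∑ k ∈ Finset.Ico i j, wt ω (N k) (N (k + 1)) := by
  induction j, hij using Int.le_induction with
  | base => simp
  | succ j hj ih =>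
    rw [sum_Ico_succ _ hj]
    have := T_step_right ω (N i) (h j)
    linarith

lemma sum_avoid {ω₁ ω₂ : Ω} {e : E} (hoff : ∀ f, f ≠ e → ω₁ f = ω₂ f) {N : Line} {i j : ℤ}
    (h : ∀ k, i ≤ k → k < j → edgeOf (N k) (N (k + 1)) ≠ e) :
    ∑ k ∈ Finset.Ico i j, wt ω₁ (N k) (N (k + 1)) = ∑ k ∈ Finset.Ico i j, wt ω₂ (N k) (N (k + 1)) := by
  refine Finset.sum_congr rfl fun k hk => ?_
  simp only [Finset.mem_Ico] at hk
  unfold wt
  rw [hoff _ (h k hk.1 hk.2)]

/-- The edges of a bigeodesic through the oriented edge `(a, b)` at position `-1`. -/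
lemma edge_ne_of_ne {N : Line} (hN : Function.Injective N) {a b : V} (hab : Adj a b)
    (hadj : ∀ k, Adj (N k) (N (k + 1))) (hNa : N (-1) = a) (hNb : N 0 = b) {k : ℤ} (hk : k ≠ -1) :
    edgeOf (N k) (N (k + 1)) ≠ edgeOf a b := by
  intro h
  rcases edgeOf_inj h (hadj k) hab with ⟨h1, h2⟩ | ⟨h1, h2⟩
  · rw [← hNa] at h1
    exact hk (hN h1)
  · rw [← hNb] at h1
    rw [← hNa] at h2
    have h3 := hN h1
    have h4 := hN h2
    omega

/-- Lowering an edge on a bigeodesic keeps it a bigeodesic. -/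
lemma bigeo_lower {ω₁ ω₂ : Ω} {a b : V} (hab : Adj a b)
    (hoff : ∀ f, f ≠ edgeOf a b → ω₁ f = ω₂ f) (hle : ω₁ (edgeOf a b) ≤ ω₂ (edgeOf a b))
    {M : Line} (hM : IsBigeodesic ω₂ M) (hMa : M (-1) = a) (hMb : M 0 = b) : IsBigeodesic ω₁ M := by
  have he : ∀ {k : ℤ}, k ≠ -1 → edgeOf (M k) (M (k + 1)) ≠ edgeOf a b :=
    fun hk => edge_ne_of_ne hM.inj hab hM.adj hMa hMb hk
  have hM01 : T ω₂ a b = wt ω₂ a b := by
    have := hM.T_succ (-1)
    simpa [hMa, hMb] using this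
  refine ⟨hM.adj, hM.inj, fun i j hij => ?_⟩
  apply le_antisymm _ (T_le_sum ω₁ hM.adj hij.le)
  set X := ∑ k ∈ Finset.Ico i j, wt ω₁ (M k) (M (k + 1)) with hX
  have hs0 : 0 ≤ wt ω₁ a b := wt_nonneg _ _ _
  by_cases hj : j ≤ -1
  · have hX' : X = T ω₂ (M i) (M j) := by
      rw [hX, sum_avoid hoff fun k _ hk => he (by omega), hM.geo' hij.le]
    refine T_lower_bound hab hoff (by rw [hX']) ?_ ?_
    · rw [hX']
      have := hM.T_mono_right hij.le hj
      rw [hMa] at this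
      linarith [T_nonneg ω₂ b (M j)]
    · rw [hX']
      have := hM.T_mono_right hij.le (show j ≤ 0 by omega)
      rw [hMb] at this
      linarith [T_nonneg ω₂ a (M j)]
  by_cases hi : 0 ≤ i
  · have hX' : X = T ω₂ (M i) (M j) := by
      rw [hX, sum_avoid hoff fun k hk _ => he (by omega), hM.geo' hij.le]
    refine T_lower_bound hab hoff (by rw [hX']) ?_ ?_
    · rw [hX']
      have := hM.T_mono_left hi hij.le
      rw [hMb] at this
      linarith [T_nonneg ω₂ (M i) a]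
    · rw [hX']
      have := hM.T_mono_left (show -1 ≤ i by omega) hij.le
      rw [hMa] at this
      linarith [T_nonneg ω₂ (M i) b]
  · -- the segment contains the edge
    have hi' : i ≤ -1 := by omega
    have hj' : 0 ≤ j := by omega
    have hX' : X = T ω₂ (M i) a + wt ω₁ a b + T ω₂ b (M j) := by
      rw [hX, ← sum_Ico_cons _ (show i ≤ 0 by omega) hj',
        show (0 : ℤ) = -1 + 1 by norm_num, sum_Ico_succ _ hi', show (-1 : ℤ) + 1 = 0 by norm_num]
      rw [sum_avoid hoff (fun k _ hk => he (by omega)) (i := i) (j := -1),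
        sum_avoid hoff (fun k hk _ => he (by omega)) (i := 0) (j := j), hM.geo' hi', hM.geo' hj',
        hMa, hMb]
    have e1 := hM.T_add hi' (show (-1 : ℤ) ≤ 0 by norm_num)
    have e2 := hM.T_add (show (-1 : ℤ) ≤ 0 by norm_num) hj'
    rw [hMa, hMb] at e1 e2
    have e3 := hM.T_add (show i ≤ 0 by omega) hj'
    rw [hMb] at e3
    have hle' : wt ω₁ a b ≤ wt ω₂ a b := by
      unfold wt
      exact_mod_cast hle
    refine T_lower_bound hab hoff ?_ (by rw [hX']) ?_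
    · rw [hX', e3, e1]
      linarith
    · rw [hX', e1, e2]
      linarith [T_nonneg ω₂ a b]

/-- Raising an edge off a bigeodesic keeps it a bigeodesic. -/
lemma bigeo_raise {ω₁ ω₂ : Ω} {e : E} (hoff : ∀ f, f ≠ e → ω₁ f = ω₂ f) (hle : ω₁ e ≤ ω₂ e)
    {L : Line} (hL : IsBigeodesic ω₁ L) (h : ∀ k, edgeOf (L k) (L (k + 1)) ≠ e) :
    IsBigeodesic ω₂ L := by
  refine ⟨hL.adj, hL.inj, fun i j hij => ?_⟩
  apply le_antisymm _ (T_le_sum ω₂ hL.adj hij.le)
  rw [← sum_avoid hoff fun k _ _ => h k, hL.geo i j hij]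
  refine T_mono (fun f => ?_) _ _
  by_cases hf : f = e
  · rw [hf]; exact hle
  · exact (hoff f hf).le

/-- The core of the argument, for aligned lines. -/
theorem two_env_aligned {ω₁ ω₂ : Ω} {a b : V} (hab : Adj a b)
    (hoff : ∀ f, f ≠ edgeOf a b → ω₁ f = ω₂ f) (hlt : ω₁ (edgeOf a b) < ω₂ (edgeOf a b))
    (T1 : Typical ω₁) (T2 : Typical ω₂) {L M : Line} {R₀ R' : ℕ}
    (hL1 : IsIsolated ω₁ L) (hL2 : IsIsolated ω₂ L) (hM1 : IsIsolated ω₁ M) (hM2 : IsIsolated ω₂ M)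
    (hMa : M (-1) = a) (hMb : M 0 = b) (hd : ∀ i j, L i ≠ M j) (hn : NearInf R₀ L M)
    (hal : Aligned R₀ R' ω₂ L M) : False := by
  have hle : ∀ f, ω₁ f ≤ ω₂ f := by
    intro f
    by_cases hf : f = edgeOf a b
    · rw [hf]; exact hlt.le
    · exact (hoff f hf).le
  have T12 : ∀ x y, T ω₁ x y ≤ T ω₂ x y := T_mono hle
  have hal1 : Aligned R₀ R' ω₁ L M := by
    constructor
    · intro K
      obtain ⟨j, i, h1, h2, h3⟩ := hal.up K
      exact ⟨j, i, h1, h2, h3.1, (T12 _ _).trans h3.2⟩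
    · intro K
      obtain ⟨j, i, h1, h2, h3⟩ := hal.down K
      exact ⟨j, i, h1, h2, h3.1, (T12 _ _).trans h3.2⟩
  set Δ := wt ω₂ a b - wt ω₁ a b with hΔ
  have hΔ0 : 0 < Δ := by
    rw [hΔ]
    unfold wt
    have : ((ω₁ (edgeOf a b) : ℝ≥0) : ℝ) < ω₂ (edgeOf a b) := by exact_mod_cast hlt
    linarith
  obtain ⟨n, hn'⟩ := exists_nat_one_div_lt hΔ0
  -- a small defect below the edge, in the higher environment
  obtain ⟨jd, id, hid, hdf⟩ := rec_defect T2 hL2 hM2 hd hn n (-1)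
  -- a near pair far above the edge, beyond `jd`
  have hdiv := typ_div T2 hL2 hM2 hd hn
  obtain ⟨K₁, hK₁⟩ := hdiv.up (M 0) R'
  obtain ⟨ju, iu, hju, hiu, hTN⟩ := hal.up (max (max K₁ jd) 0)
  have hjd : jd ≤ ju := (le_trans (le_max_right _ _) (le_max_left _ _)).trans hju
  have hiu0 : 0 ≤ iu := (le_max_right _ _).trans hiu
  have hiuK : K₁ ≤ iu := (le_trans (le_max_left _ _) (le_max_left _ _)).trans hiu
  have hfar := hK₁ iu hiuK
  -- the line `L` avoids the edge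
  have hLav : ∀ k, edgeOf (L k) (L (k + 1)) ≠ edgeOf a b := by
    intro k h
    rcases edgeOf_inj h (hL1.1.adj k) hab with ⟨h1, _⟩ | ⟨h1, _⟩
    · exact hd k (-1) (by rw [h1, hMa])
    · exact hd k 0 (by rw [h1, hMb])
  have hTL : T ω₁ (L jd) (L ju) = T ω₂ (L jd) (L ju) := by
    rw [← hL1.1.geo' hjd, ← hL2.1.geo' hjd]
    exact sum_avoid hoff fun k _ _ => hLav k
  have hMne : ∀ {k : ℤ}, k ≠ -1 → edgeOf (M k) (M (k + 1)) ≠ edgeOf a b :=
    fun hk => edge_ne_of_ne hM1.1.inj hab hM1.1.adj hMa hMb hk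
  have hTup : ∀ k : ℕ, T ω₁ (M 0) (M k) = T ω₂ (M 0) (M k) := by
    intro k
    rw [← hM1.1.geo' (by omega), ← hM2.1.geo' (by omega)]
    exact sum_avoid hoff fun j hj _ => hMne (by omega)
  have hTdown : T ω₁ (M id) a = T ω₂ (M id) a := by
    rw [← hMa, ← hM1.1.geo' hid, ← hM2.1.geo' hid]
    exact sum_avoid hoff fun j _ hj => hMne (by omega)
  -- values of the Busemann functions on `M` below the edge
  have hB1 : B ω₁ M (M id) = T ω₁ (M id) a + wt ω₁ a b := by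
    rw [B_line_down hM1.1 (by omega), hM1.1.T_add hid (show (-1 : ℤ) ≤ 0 by norm_num), hMa]
    have := hM1.1.T_succ (-1)
    simp only [show (-1 : ℤ) + 1 = 0 by norm_num, hMa, hMb] at this
    rw [hMb, this]
  have hB2 : B ω₂ M (M id) = T ω₂ (M id) a + wt ω₂ a b := by
    rw [B_line_down hM2.1 (by omega), hM2.1.T_add hid (show (-1 : ℤ) ≤ 0 by norm_num), hMa]
    have := hM2.1.T_succ (-1)
    simp only [show (-1 : ℤ) + 1 = 0 by norm_num, hMa, hMb] at this
    rw [hMb, this]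
  -- far above the edge the two Busemann functions agree on `L`
  have hBup : B ω₂ M (L ju) ≤ B ω₁ M (L ju) := by
    refine le_of_tendsto_of_tendsto (B_tendsto hM2.1 (L ju)) (B_tendsto hM1.1 (L ju)) ?_
    filter_upwards [eventually_ge_atTop iu.toNat] with k hk
    have hk' : iu ≤ (k : ℤ) := by omega
    rw [hTup k]
    have e1 := T_triangle ω₂ (L ju) (M iu) (M k)
    have e2 := hM2.1.T_add hiu0 hk'
    have e3 := hTN.2
    have e4 := hM2.1.T_mono_left (show (-1 : ℤ) ≤ 0 by norm_num) (show (0 : ℤ) ≤ k by omega)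
    rw [hMa] at e4
    rw [hMb] at e2
    rw [hMb] at e4
    rw [hMb] at hfar
    have hs := wt_nonneg ω₁ a b
    have : T ω₂ (L ju) (M k) ≤ T ω₁ (L ju) (M k) := by
      refine T_lower_bound hab hoff le_rfl ?_ ?_
      · linarith [T_nonneg ω₂ (L ju) a]
      · linarith [T_nonneg ω₂ (L ju) b]
    rw [hMb]
    linarith
  -- the defect vanishes in the lower environment
  have hZ := zero_defect T1 hL1 hM1 hd hn hal1 hjd
  unfold Dfc at hZ hdf
  have h1 := B_le_add ω₁ M (L jd) (M id)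
  have h2 := T12 (L jd) (M id)
  have h3 := B_le_add ω₂ M (L jd) (L ju)
  rw [hB1, hTdown] at h1
  rw [hB2] at hdf
  rw [hΔ] at hn'
  rw [← hTL] at h3
  linarith

/-- The core of the argument. -/
theorem two_env {ω₁ ω₂ : Ω} {a b : V} (hab : Adj a b)
    (hoff : ∀ f, f ≠ edgeOf a b → ω₁ f = ω₂ f) (hlt : ω₁ (edgeOf a b) < ω₂ (edgeOf a b))
    (T1 : Typical ω₁) (T2 : Typical ω₂) {L M : Line} {R₀ : ℕ}
    (hL1 : IsIsolated ω₁ L) (hL2 : IsIsolated ω₂ L) (hM1 : IsIsolated ω₁ M) (hM2 : IsIsolated ω₂ M)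
    (hMa : M (-1) = a) (hMb : M 0 = b) (hd : ∀ i j, L i ≠ M j) (hn : NearInf R₀ L M) : False := by
  obtain ⟨R', h⟩ := typ_aligned T2 hL2 hM2 hd hn
  rcases h with h | h
  · exact two_env_aligned hab hoff hlt T1 T2 hL1 hL2 hM1 hM2 hMa hMb hd hn h
  · exact two_env_aligned hab hoff hlt T1 T2 hL1.neg hL2.neg hM1 hM2 hMa hMb
      (fun i j => hd _ _) (nearInf_neg_left hn) h

end Vale.Agent.Lib.P158
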