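import Mathlib

/-!
# Counting edges of a bipartite relation without `K_{2,3}`
-/

namespace Vale.Agent.Lib.P158

theorem k23_count {α : Type*} [DecidableEq α] (A : Finset α) (E : Finset (α × α))
    (hE : ∀ p ∈ E, p.1 ∈ A ∧ p.2 ∈ A)
    (hK : ∀ a₁ a₂ b₁ b₂ b₃, a₁ ≠ a₂ → b₁ ≠ b₂ → b₁ ≠ b₃ → b₂ ≠ b₃ →
      (a₁, b₁) ∈ E → (a₁, b₂) ∈ E → (a₁, b₃) ∈ E → (a₂, b₁) ∈ E → (a₂, b₂) ∈ E → (a₂, b₃) ∈ E →
        False) :
    E.card ^ 2 ≤ A.card * E.card + 2 * A.card ^ 3 := by
  classical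
  set Nb : α → Finset α := fun b => A.filter fun a => (a, b) ∈ E with hNb
  have hsum : E.card = ∑ b ∈ A, (Nb b).card := by
    rw [Finset.card_eq_sum_card_fiberwise (f := Prod.snd) (t := A) (fun p hp => (hE p hp).2)]
    refine Finset.sum_congr rfl fun b _ => ?_
    refine Finset.card_bij (fun p _ => p.1) ?_ ?_ ?_
    · intro p hp
      simp only [Finset.mem_filter] at hp
      simp only [hNb, Finset.mem_filter]
      refine ⟨(hE p hp.1).1, ?_⟩
      have : (p.1, b) = p := Prod.ext rfl hp.2.symm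
      rw [this]
      exact hp.1
    · intro p hp q hq h
      simp only [Finset.mem_filter] at hp hq
      exact Prod.ext h (hp.2.trans hq.2.symm)
    · intro a ha
      simp only [hNb, Finset.mem_filter] at ha
      exact ⟨(a, b), by simp [ha.2], rfl⟩
  have hcomm : ∀ p ∈ A.offDiag, (A.filter fun b => (p.1, b) ∈ E ∧ (p.2, b) ∈ E).card ≤ 2 := by
    intro p hp
    by_contra hc
    push Not at hc
    obtain ⟨b₁, h1, b₂, h2, b₃, h3, n12, n13, n23⟩ := Finset.two_lt_card.1 hc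
    simp only [Finset.mem_filter] at h1 h2 h3
    exact hK p.1 p.2 b₁ b₂ b₃ (Finset.mem_offDiag.1 hp).2.2 n12 n13 n23 h1.2.1 h2.2.1 h3.2.1
      h1.2.2 h2.2.2 h3.2.2
  have hoff : ∑ b ∈ A, ((Nb b).offDiag).card ≤ 2 * A.card ^ 2 := by
    have e1 : ∀ b ∈ A, ((Nb b).offDiag).card =
        ∑ p ∈ A.offDiag, if (p.1, b) ∈ E ∧ (p.2, b) ∈ E then 1 else 0 := by
      intro b _
      rw [← Finset.card_filter]
      congr 1
      ext p
      simp only [hNb, Finset.mem_offDiag, Finset.mem_filter]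
      tauto
    rw [Finset.sum_congr rfl e1, Finset.sum_comm]
    have e2 : ∀ p ∈ A.offDiag, (∑ b ∈ A, if (p.1, b) ∈ E ∧ (p.2, b) ∈ E then 1 else 0) ≤ 2 := by
      intro p hp
      rw [← Finset.card_filter]
      exact hcomm p hp
    calc ∑ p ∈ A.offDiag, ∑ b ∈ A, (if (p.1, b) ∈ E ∧ (p.2, b) ∈ E then 1 else 0)
        ≤ ∑ _p ∈ A.offDiag, 2 := Finset.sum_le_sum e2
      _ = A.offDiag.card * 2 := by simp
      _ ≤ 2 * A.card ^ 2 := by
          rw [Finset.offDiag_card]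
          have : A.card * A.card - A.card ≤ A.card ^ 2 := by
            rw [sq]
            exact Nat.sub_le _ _
          omega
  have hsq : ∀ b, (Nb b).card ^ 2 = ((Nb b).offDiag).card + (Nb b).card := by
    intro b
    rw [Finset.offDiag_card, sq]
    exact (Nat.sub_add_cancel (Nat.le_mul_self _)).symm
  calc E.card ^ 2 = (∑ b ∈ A, (Nb b).card) ^ 2 := by rw [hsum]
    _ ≤ A.card * ∑ b ∈ A, (Nb b).card ^ 2 := sq_sum_le_card_mul_sum_sq
    _ = A.card * (∑ b ∈ A, ((Nb b).offDiag).card + E.card) := by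
        rw [hsum, Finset.sum_congr rfl fun b _ => hsq b, Finset.sum_add_distrib]
    _ ≤ A.card * (2 * A.card ^ 2 + E.card) := by
        exact Nat.mul_le_mul_left _ (by omega)
    _ = A.card * E.card + 2 * A.card ^ 3 := by ring

end Vale.Agent.Lib.P158
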