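import Vale.Agent.Lib.P158.Core

/-!
# Resampling one edge, and the theorem on near pairs of isolated bigeodesics
-/

open MeasureTheory Filter Set Topology
open scoped NNReal ENNReal

namespace Vale.Agent.Lib.P158

variable {G : Measure ℝ≥0} [IsProbabilityMeasure G]

/-- Resampling the edge `e`. -/
noncomputable def resample (e : E) (p : Ω × ℝ≥0) : Ω := Function.update p.1 e p.2

lemma measurable_resample (e : E) : Measurable (resample e) := by
  classical
  refine measurable_pi_lambda _ fun f => ?_
  unfold resample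
  by_cases hf : f = e
  · subst hf
    simpa using measurable_snd
  · simp only [Function.update_of_ne hf]
    exact (measurable_pi_apply f).comp measurable_fst

lemma map_resample (e : E) : ((PP G).prod G).map (resample e) = PP G := by
  classical
  refine Measure.eq_infinitePi _ fun s t ht => ?_
  rw [Measure.map_apply (measurable_resample e) (MeasurableSet.pi s.countable_toSet fun i _ => ht i)]
  by_cases he : e ∈ s
  · have hset : resample e ⁻¹' Set.pi s t = (Set.pi (s.erase e : Finset E) t) ×ˢ t e := by
      ext ⟨ω, u⟩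
      simp only [resample, Set.mem_preimage, Set.mem_pi, Set.mem_prod, Finset.mem_coe,
        Finset.mem_erase]
      constructor
      · intro h
        refine ⟨fun i hi => ?_, ?_⟩
        · have := h i hi.2
          rwa [Function.update_of_ne hi.1] at this
        · have := h e he
          simpa using this
      · rintro ⟨h1, h2⟩ i hi
        by_cases hie : i = e
        · subst hie
          simpa using h2
        · rw [Function.update_of_ne hie]
          exact h1 i ⟨hie, hi⟩
    rw [hset, Measure.prod_prod, Measure.infinitePi_pi _ (fun i _ => ht i)]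
    rw [← Finset.prod_erase_mul s _ he]
  · have hset : resample e ⁻¹' Set.pi s t = (Set.pi (s : Finset E) t) ×ˢ univ := by
      ext ⟨ω, u⟩
      simp only [resample, Set.mem_preimage, Set.mem_pi, Set.mem_prod, Finset.mem_coe,
        Set.mem_univ, and_true]
      constructor
      · intro h i hi
        have := h i hi
        have hie : i ≠ e := fun h' => he (h' ▸ hi)
        rwa [Function.update_of_ne hie] at this
      · intro h i hi
        have hie : i ≠ e := fun h' => he (h' ▸ hi)
        rw [Function.update_of_ne hie]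
        exact h i hi
    rw [hset, Measure.prod_prod, Measure.infinitePi_pi _ (fun i _ => ht i)]
    simp

/-- The event with labels. -/
def EvPair (R : ℕ) (x d a b : V) (ω : Ω) (L M : Line) : Prop :=
  IsIsolated ω L ∧ IsIsolated ω M ∧ L 0 = x ∧ L 1 = d ∧ M (-1) = a ∧ M 0 = b ∧
    (∀ i j, L i ≠ M j) ∧ NearInf R L M

lemma evPair_iff {R : ℕ} {x d a b : V} {ω : Ω} :
    (∃ L M, EvPair R x d a b ω L M) ↔
      EvPair R x d a b ω (lineF ω x d) (fun k => lineF ω a b (k + 1)) := by
  constructor
  · rintro ⟨L, M, h⟩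
    have h1 : lineF ω x d = L := lineF_eq h.1 h.2.2.1 h.2.2.2.1
    have h2 : lineF ω a b = fun k => M (k + (-1)) := by
      refine lineF_eq (h.2.1.shift (-1)) ?_ ?_
      · simpa using h.2.2.2.2.1
      · simpa using h.2.2.2.2.2.1
    rw [h1, h2]
    simpa using h
  · exact fun h => ⟨_, _, h⟩

lemma measurableSet_evPair (R : ℕ) (x d a b : V) :
    MeasurableSet {ω | ∃ L M, EvPair R x d a b ω L M} := by
  simp only [evPair_iff]
  refine measurableSet_setOfPred.2 ?_
  have hL : Measurable fun ω : Ω => lineF ω x d := measurable_lineF _ _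
  have hM : Measurable fun ω : Ω => fun k => lineF ω a b (k + 1) :=
    measurable_pi_lambda _ fun k => (measurable_pi_apply (k + 1)).comp (measurable_lineF a b)
  have hc1 : ∀ k, Measurable fun ω : Ω => lineF ω x d k := fun k => (measurable_pi_apply k).comp hL
  have hc2 : ∀ k, Measurable fun ω : Ω => lineF ω a b (k + 1) := fun k =>
    (measurable_pi_apply (k + 1)).comp (measurable_lineF a b)
  unfold EvPair
  exact (measurable_isIsolated_comp measurable_id hL).and
    ((measurable_isIsolated_comp measurable_id hM).and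
    ((meas_prop2 (fun u _ => u = x) (hc1 0) (hc1 0)).and
    ((meas_prop2 (fun u _ => u = d) (hc1 1) (hc1 1)).and
    ((meas_prop2 (fun u _ => u = a) (hc2 (-1)) (hc2 (-1))).and
    ((meas_prop2 (fun u _ => u = b) (hc2 0) (hc2 0)).and
    ((Measurable.forall fun i => Measurable.forall fun j =>
      (meas_prop2 (fun u v => u = v) (hc1 i) (hc2 j)).not).and
    (measurable_nearInf_comp hL hM)))))))

/-- Two resamplings of an edge cannot both carry the labelled pair, in typical environments. -/
lemma two_values_false {R : ℕ} {x d a b : V} {ω : Ω} {s₁ s₂ : ℝ≥0} (hs : s₁ < s₂)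
    (h1 : ∃ L M, EvPair R x d a b (Function.update ω (edgeOf a b) s₁) L M)
    (h2 : ∃ L M, EvPair R x d a b (Function.update ω (edgeOf a b) s₂) L M)
    (T1 : Typical (Function.update ω (edgeOf a b) s₁))
    (T2 : Typical (Function.update ω (edgeOf a b) s₂)) : False := by
  classical
  obtain ⟨L₁, M₁, hL₁, hM₁, hx₁, hd₁, ha₁, hb₁, hdis₁, hn₁⟩ := h1
  obtain ⟨L₂, M₂, hL₂, hM₂, hx₂, hd₂, ha₂, hb₂, hdis₂, hn₂⟩ := h2
  set e := edgeOf a b with he
  set ω₁ := Function.update ω e s₁ with hω₁
  set ω₂ := Function.update ω e s₂ with hω₂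
  have hab : Adj a b := by
    have := hM₁.1.adj (-1)
    simpa [ha₁, hb₁] using this
  have hoff : ∀ f, f ≠ e → ω₁ f = ω₂ f := by
    intro f hf
    rw [hω₁, hω₂, Function.update_of_ne hf, Function.update_of_ne hf]
  have hlt : ω₁ e < ω₂ e := by
    rw [hω₁, hω₂, Function.update_self, Function.update_self]
    exact hs
  -- identify the second lines
  have hM₂' : IsBigeodesic ω₁ M₂ := bigeo_lower hab hoff hlt.le hM₂.1 ha₂ hb₂
  have hMeq : M₂ = M₁ := hM₁.eq_of_edge hM₂' (t := -1) (by rw [ha₁, ha₂]) (by simp [hb₁, hb₂])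
  subst hMeq
  -- identify the first lines
  have hLav : ∀ k, edgeOf (L₁ k) (L₁ (k + 1)) ≠ e := by
    intro k h
    rcases edgeOf_inj h (hL₁.1.adj k) hab with ⟨h1, _⟩ | ⟨h1, _⟩
    · exact hdis₁ k (-1) (by rw [h1, ha₁])
    · exact hdis₁ k 0 (by rw [h1, hb₁])
  have hL₁' : IsBigeodesic ω₂ L₁ := bigeo_raise hoff hlt.le hL₁.1 hLav
  have hLeq : L₁ = L₂ := hL₂.eq_of_edge hL₁' (t := 0) (by rw [hx₁, hx₂]) (by simp [hd₁, hd₂])
  subst hLeq
  exact two_env hab hoff hlt T1 T2 hL₁ hL₂ hM₁ hM₂ ha₂ hb₂ hdis₁ hn₁

lemma measure_evPair_zero (hG : ∀ x, G {x} = 0) (R : ℕ) (x d a b : V) :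
    PP G {ω | ∃ L M, EvPair R x d a b ω L M} = 0 := by
  classical
  set A := {ω | ∃ L M, EvPair R x d a b ω L M} with hA
  have hAm : MeasurableSet A := measurableSet_evPair R x d a b
  -- a measurable null set containing the atypical environments
  have hnull : PP G {ω | ¬ Typical ω} = 0 := ae_iff.1 (ae_typical hG)
  set N := toMeasurable (PP G) {ω | ¬ Typical ω} with hN
  have hNm : MeasurableSet N := measurableSet_toMeasurable _ _
  have hN0 : PP G N = 0 := by rw [hN, measure_toMeasurable]; exact hnull
  have hNs : {ω | ¬ Typical ω} ⊆ N := subset_toMeasurable _ _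
  have hW : MeasurableSet (A \ N) := hAm.diff hNm
  have hmain : PP G (A \ N) = 0 := by
    by_contra hpos
    set e := edgeOf a b with he
    have hmap : ((PP G).prod G) (resample e ⁻¹' (A \ N)) = PP G (A \ N) := by
      rw [← Measure.map_apply (measurable_resample e) hW, map_resample]
    rw [← hmap, Measure.prod_apply ((measurable_resample e) hW)] at hpos
    -- some environment has a positive measure of good resamplings
    have : ∃ ω, G (Prod.mk ω ⁻¹' (resample e ⁻¹' (A \ N))) ≠ 0 := by
      by_contra hcon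
      push Not at hcon
      apply hpos
      exact (lintegral_congr hcon).trans (by simp)
    obtain ⟨ω, hω⟩ := this
    obtain ⟨s₀, hs₀⟩ := nonempty_of_measure_ne_zero hω
    obtain ⟨s₁, hs₁, hne⟩ : ∃ s₁ ∈ Prod.mk ω ⁻¹' (resample e ⁻¹' (A \ N)), s₁ ≠ s₀ := by
      by_contra hcon
      push Not at hcon
      apply hω
      refine measure_mono_null (t := {s₀}) (fun s hs => hcon s hs) (hG s₀)
    have hgood : ∀ s ∈ Prod.mk ω ⁻¹' (resample e ⁻¹' (A \ N)),
        (∃ L M, EvPair R x d a b (Function.update ω e s) L M) ∧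
          Typical (Function.update ω e s) := by
      intro s hs
      refine ⟨hs.1, ?_⟩
      by_contra hc
      exact hs.2 (hNs hc)
    rcases lt_or_gt_of_ne hne with hlt | hlt
    · exact two_values_false hlt (hgood _ hs₁).1 (hgood _ hs₀).1 (hgood _ hs₁).2 (hgood _ hs₀).2
    · exact two_values_false hlt (hgood _ hs₀).1 (hgood _ hs₁).1 (hgood _ hs₀).2 (hgood _ hs₁).2
  refine measure_mono_null (t := (A \ N) ∪ N) (fun ω hω => ?_) (measure_union_null hmain hN0)
  by_cases h : ω ∈ N
  · exact Or.inr h
  · exact Or.inl ⟨hω, h⟩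

/-- **Theorem.** For every atomless law of the edge weights, almost surely there are no two
disjoint isolated bigeodesics coming within a bounded distance of each other infinitely often. -/
theorem no_near_isolated_pair (hG : ∀ x, G {x} = 0) :
    ∀ᵐ ω ∂(PP G), ¬ ∃ (L M : Line) (R : ℕ), IsIsolated ω L ∧ IsIsolated ω M ∧
      (∀ i j, L i ≠ M j) ∧ NearInf R L M := by
  have h : ∀ᵐ ω ∂(PP G), ∀ (R : ℕ) (x d a b : V), ¬ ∃ L M, EvPair R x d a b ω L M := by
    simp only [ae_all_iff]
    intro R x d a b
    exact ae_iff.2 (by simpa using measure_evPair_zero hG R x d a b)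
  filter_upwards [h] with ω hω
  rintro ⟨L, M, R, hL, hM, hd, hn⟩
  exact hω R _ _ _ _ ⟨L, M, hL, hM, rfl, rfl, rfl, rfl, hd, hn⟩

end Vale.Agent.Lib.P158
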