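import Vale.Agent.Lib.P158.MTP

/-!
# Covariant index sets along a pair of near lines have no extreme element
-/

open MeasureTheory Filter Set Topology
open scoped NNReal ENNReal

namespace Vale.Agent.Lib.P158

/-- A covariant family of sets of indices along the second line. -/
structure IdxSet (S : Ω → Line → Line → Set ℤ) : Prop where
  meas : ∀ i, Measurable fun p : Ω × Line × Line => i ∈ S p.1 p.2.1 p.2.2
  cov : ∀ z ω L M i, i ∈ S (theta z ω) (fun k => L k - z) (fun k => M k - z) ↔ i ∈ S ω L M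
  shift : ∀ ω L M a b i, IsBigeodesic ω L → IsBigeodesic ω M →
    (i ∈ S ω (fun k => L (k + a)) (fun k => M (k + b)) ↔ i + b ∈ S ω L M)

/-- The marking by the least element. -/
def mkLeast (S : Ω → Line → Line → Set ℤ) : Ω → Line → Line → V → Prop :=
  fun ω L M y => ∃ i, i ∈ S ω L M ∧ (∀ k, k ∈ S ω L M → i ≤ k) ∧ M i = y

/-- The marking by the greatest element. -/
def mkGreatest (S : Ω → Line → Line → Set ℤ) : Ω → Line → Line → V → Prop :=
  fun ω L M y => ∃ i, i ∈ S ω L M ∧ (∀ k, k ∈ S ω L M → k ≤ i) ∧ M i = y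

lemma marking_least {S : Ω → Line → Line → Set ℤ} (hS : IdxSet S) : Marking (mkLeast S) := by
  refine ⟨fun y => ?_, fun z ω L M y => ?_, fun ω L M a b y hL hM => ?_, fun ω L M y y' _ _ h h' => ?_⟩
  · unfold mkLeast
    refine Measurable.exists fun i => (hS.meas i).and (Measurable.and ?_ ?_)
    · exact Measurable.forall fun k => Measurable.imp (hS.meas k) measurable_const
    · exact meas_prop2 (fun a _ => a = y)
        ((measurable_pi_apply i).comp (measurable_snd.comp measurable_snd))
        ((measurable_pi_apply i).comp (measurable_snd.comp measurable_snd))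
  · unfold mkLeast
    have hc := fun i => hS.cov z ω L M i
    constructor
    · rintro ⟨i, h1, h2, h3⟩
      exact ⟨i, (hc i).1 h1, fun k hk => h2 k ((hc k).2 hk), by rw [← h3]; simp⟩
    · rintro ⟨i, h1, h2, h3⟩
      exact ⟨i, (hc i).2 h1, fun k hk => h2 k ((hc k).1 hk), by simp [h3]⟩
  · unfold mkLeast
    have hc := fun i => hS.shift ω L M a b i hL hM
    constructor
    · rintro ⟨i, h1, h2, h3⟩
      refine ⟨i + b, (hc i).1 h1, fun k hk => ?_, h3⟩
      have := h2 (k - b) ((hc _).2 (by simpa using hk))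
      omega
    · rintro ⟨i, h1, h2, h3⟩
      refine ⟨i - b, (hc _).2 (by simpa using h1), fun k hk => ?_, by simpa using h3⟩
      have := h2 (k + b) ((hc k).1 hk)
      omega
  · obtain ⟨i, h1, h2, h3⟩ := h
    obtain ⟨i', h1', h2', h3'⟩ := h'
    have : i = i' := le_antisymm (h2 _ h1') (h2' _ h1)
    rw [← h3, ← h3', this]

lemma marking_greatest {S : Ω → Line → Line → Set ℤ} (hS : IdxSet S) : Marking (mkGreatest S) := by
  refine ⟨fun y => ?_, fun z ω L M y => ?_, fun ω L M a b y hL hM => ?_, fun ω L M y y' _ _ h h' => ?_⟩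
  · unfold mkGreatest
    refine Measurable.exists fun i => (hS.meas i).and (Measurable.and ?_ ?_)
    · exact Measurable.forall fun k => Measurable.imp (hS.meas k) measurable_const
    · exact meas_prop2 (fun a _ => a = y)
        ((measurable_pi_apply i).comp (measurable_snd.comp measurable_snd))
        ((measurable_pi_apply i).comp (measurable_snd.comp measurable_snd))
  · unfold mkGreatest
    have hc := fun i => hS.cov z ω L M i
    constructor
    · rintro ⟨i, h1, h2, h3⟩
      exact ⟨i, (hc i).1 h1, fun k hk => h2 k ((hc k).2 hk), by rw [← h3]; simp⟩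
    · rintro ⟨i, h1, h2, h3⟩
      exact ⟨i, (hc i).2 h1, fun k hk => h2 k ((hc k).1 hk), by simp [h3]⟩
  · unfold mkGreatest
    have hc := fun i => hS.shift ω L M a b i hL hM
    constructor
    · rintro ⟨i, h1, h2, h3⟩
      refine ⟨i + b, (hc i).1 h1, fun k hk => ?_, h3⟩
      have := h2 (k - b) ((hc _).2 (by simpa using hk))
      omega
    · rintro ⟨i, h1, h2, h3⟩
      refine ⟨i - b, (hc _).2 (by simpa using h1), fun k hk => ?_, by simpa using h3⟩
      have := h2 (k + b) ((hc k).1 hk)
      omega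
  · obtain ⟨i, h1, h2, h3⟩ := h
    obtain ⟨i', h1', h2', h3'⟩ := h'
    have : i = i' := le_antisymm (h2' _ h1) (h2 _ h1')
    rw [← h3, ← h3', this]

/-- Unbounded in both directions, as soon as nonempty. -/
def Unb (A : Set ℤ) : Prop := A.Nonempty → (∀ K, ∃ i ∈ A, i ≤ K) ∧ (∀ K, ∃ i ∈ A, K ≤ i)

variable {G : Measure ℝ≥0} [IsProbabilityMeasure G]

/-- A covariant set of indices along `M`, for a pair of near disjoint isolated bigeodesics, is
unbounded in both directions as soon as it is nonempty. -/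
theorem idx_unb {S : Ω → Line → Line → Set ℤ} (hS : IdxSet S) (R : ℕ) :
    ∀ᵐ ω ∂(PP G), ∀ L M, IsIsolated ω L → IsIsolated ω M → (∀ i j, L i ≠ M j) → NearInf R L M →
      Unb (S ω L M) := by
  filter_upwards [no_marking (G := G) (marking_least hS) R,
    no_marking (G := G) (marking_greatest hS) R] with ω h1 h2 L M hL hM hd hn hne
  obtain ⟨i₀, hi₀⟩ := hne
  constructor
  · intro K
    by_contra hcon
    push Not at hcon
    obtain ⟨lb, hlb, hlb'⟩ := Int.exists_least_of_bdd (P := fun i => i ∈ S ω L M)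
      ⟨K, fun z hz => (hcon z hz).le⟩ ⟨i₀, hi₀⟩
    exact h1 L M hL hM hd hn _ ⟨lb, hlb, hlb', rfl⟩
  · intro K
    by_contra hcon
    push Not at hcon
    obtain ⟨ub, hub, hub'⟩ := Int.exists_greatest_of_bdd (P := fun i => i ∈ S ω L M)
      ⟨K, fun z hz => (hcon z hz).le⟩ ⟨i₀, hi₀⟩
    exact h2 L M hL hM hd hn _ ⟨ub, hub, hub', rfl⟩

/-! ### Busemann functions -/

/-- The Busemann function of the line `M` towards its positive end, normalised at `M 0`. -/
noncomputable def B (ω : Ω) (M : Line) (x : V) : ℝ :=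
  ⨅ k : ℕ, (T ω x (M k) - T ω (M 0) (M k))

/-- The defect of a pair of vertices with respect to the positive end of `M`. -/
noncomputable def Dfc (ω : Ω) (M : Line) (x y : V) : ℝ := T ω x y + B ω M y - B ω M x

lemma B_bdd (ω : Ω) (M : Line) (x : V) :
    BddBelow (Set.range fun k : ℕ => T ω x (M k) - T ω (M 0) (M k)) := by
  refine ⟨-T ω (M 0) x, ?_⟩
  rintro _ ⟨k, rfl⟩
  have := T_triangle ω (M 0) x (M k)
  simp only
  linarith

lemma B_le_term (ω : Ω) (M : Line) (x : V) (k : ℕ) :
    B ω M x ≤ T ω x (M k) - T ω (M 0) (M k) :=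
  ciInf_le (B_bdd ω M x) k

lemma B_le_add (ω : Ω) (M : Line) (x y : V) : B ω M x ≤ T ω x y + B ω M y := by
  have : B ω M x - T ω x y ≤ B ω M y := by
    apply le_ciInf
    intro k
    have h1 := B_le_term ω M x k
    have h2 := T_triangle ω x y (M k)
    linarith
  linarith

lemma Dfc_nonneg (ω : Ω) (M : Line) (x y : V) : 0 ≤ Dfc ω M x y := by
  unfold Dfc
  have := B_le_add ω M x y
  linarith

lemma term_antitone {ω : Ω} {M : Line} (hM : IsBigeodesic ω M) (x : V) :
    Antitone fun k : ℕ => T ω x (M k) - T ω (M 0) (M k) := by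
  intro k k' hkk
  have hkk' : (k : ℤ) ≤ k' := by exact_mod_cast hkk
  have h1 := T_triangle ω x (M k) (M k')
  have h2 := hM.T_add (i := 0) (j := k) (k := k') (by omega) hkk'
  simp only
  linarith

lemma B_tendsto {ω : Ω} {M : Line} (hM : IsBigeodesic ω M) (x : V) :
    Tendsto (fun k : ℕ => T ω x (M k) - T ω (M 0) (M k)) atTop (𝓝 (B ω M x)) :=
  tendsto_atTop_ciInf (term_antitone hM x) (B_bdd ω M x)

/-- The Busemann function along the line. -/
lemma B_line_add {ω : Ω} {M : Line} (hM : IsBigeodesic ω M) {i i' : ℤ} (h : i ≤ i') :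
    B ω M (M i) = T ω (M i) (M i') + B ω M (M i') := by
  apply le_antisymm (B_le_add _ _ _ _)
  -- compare the two limits
  have h1 := B_tendsto hM (M i)
  have h2 := B_tendsto hM (M i')
  refine le_of_tendsto_of_tendsto (h2.const_add (T ω (M i) (M i'))) h1 ?_
  filter_upwards [eventually_ge_atTop (i'.toNat)] with k hk
  have hk' : i' ≤ (k : ℤ) := by omega
  have := hM.T_add h hk'
  linarith

lemma B_line_base {ω : Ω} {M : Line} (hM : IsBigeodesic ω M) : B ω M (M 0) = 0 := by
  have h1 := B_tendsto hM (M 0)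
  have : (fun k : ℕ => T ω (M 0) (M k) - T ω (M 0) (M k)) = fun _ => 0 := by
    funext k; ring
  rw [this] at h1
  exact tendsto_nhds_unique h1 tendsto_const_nhds

/-- Changing the base point of a line changes the Busemann function by a constant. -/
lemma B_shift {ω : Ω} {M : Line} (hM : IsBigeodesic ω M) (b : ℤ) :
    ∃ c : ℝ, ∀ x, B ω (fun k => M (k + b)) x = B ω M x + c := by
  refine ⟨B ω M (M 0) - B ω M (M b), fun x => ?_⟩
  rw [B_line_base hM, zero_sub]
  have hM' := hM.shift b
  have h1 := B_tendsto hM' x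
  -- the terms along the shifted line
  have hφ : Tendsto (fun k : ℕ => (((k : ℤ) + b).toNat : ℕ)) atTop atTop := by
    rw [tendsto_atTop]
    intro n
    filter_upwards [eventually_ge_atTop (n + b.natAbs)] with k hk
    omega
  have h2 := ((B_tendsto hM x).comp hφ).add_const (- B ω M (M b))
  refine tendsto_nhds_unique h1 (h2.congr' ?_)
  filter_upwards [eventually_ge_atTop (b.natAbs)] with k hk
  have hk0 : (0 : ℤ) ≤ (k : ℤ) + b := by omega
  have e : (((k : ℤ) + b).toNat : ℤ) = (k : ℤ) + b := Int.toNat_of_nonneg hk0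
  simp only [Function.comp, e, zero_add]
  -- `B (M b)` is the difference of the two arcs
  have e1 : B ω M (M b) = T ω (M b) (M ((k : ℤ) + b)) + B ω M (M ((k : ℤ) + b)) :=
    B_line_add hM (by omega)
  have e2 : B ω M (M 0) = T ω (M 0) (M ((k : ℤ) + b)) + B ω M (M ((k : ℤ) + b)) :=
    B_line_add hM hk0
  rw [B_line_base hM] at e2
  linarith

lemma Dfc_shift {ω : Ω} {M : Line} (hM : IsBigeodesic ω M) (b : ℤ) (x y : V) :
    Dfc ω (fun k => M (k + b)) x y = Dfc ω M x y := by
  obtain ⟨c, hc⟩ := B_shift hM b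
  unfold Dfc
  rw [hc, hc]
  ring

lemma B_theta (z : V) (ω : Ω) (M : Line) (x : V) :
    B (theta z ω) (fun k => M k - z) (x - z) = B ω M x := by
  unfold B
  simp only [T_theta, sub_add_cancel]

lemma Dfc_theta (z : V) (ω : Ω) (M : Line) (x y : V) :
    Dfc (theta z ω) (fun k => M k - z) (x - z) (y - z) = Dfc ω M x y := by
  unfold Dfc
  rw [B_theta, B_theta, T_theta]
  simp only [sub_add_cancel]

lemma measurable_B_comp {α : Type*} [MeasurableSpace α] {f : α → Ω} {M : α → Line} {x : α → V}
    (hf : Measurable f) (hM : Measurable M) (hx : Measurable x) :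
    Measurable fun a => B (f a) (M a) (x a) := by
  unfold B
  refine Measurable.iInf fun k => ?_
  have hc : ∀ k, Measurable fun a => M a k := fun k => (measurable_pi_apply k).comp hM
  exact (measurable_T_comp hf hx (hc k)).sub (measurable_T_comp hf (hc 0) (hc k))

lemma measurable_Dfc_comp {α : Type*} [MeasurableSpace α] {f : α → Ω} {M : α → Line} {x y : α → V}
    (hf : Measurable f) (hM : Measurable M) (hx : Measurable x) (hy : Measurable y) :
    Measurable fun a => Dfc (f a) (M a) (x a) (y a) := by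
  unfold Dfc
  exact ((measurable_T_comp hf hx hy).add (measurable_B_comp hf hM hy)).sub
    (measurable_B_comp hf hM hx)

/-! ### The index sets -/

/-- Indices of `M` at bounded distance and bounded passage time from `L`. -/
def SNear (R R' : ℕ) : Ω → Line → Line → Set ℤ := fun ω L M =>
  {i | ∃ j, dist1 (L j) (M i) ≤ R ∧ T ω (L j) (M i) ≤ R'}

/-- Edges of `M` of weight at least `1/(n+1)`. -/
def SHeavy (n : ℕ) : Ω → Line → Line → Set ℤ := fun ω _ M =>
  {i | 1 / ((n : ℝ) + 1) ≤ wt ω (M i) (M (i + 1))}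

/-- Indices of `M` near a point of `L` after which `L` still has a defect `> 1/(n+1)`. -/
def SDef (R R' n : ℕ) : Ω → Line → Line → Set ℤ := fun ω L M =>
  {i | ∃ j j', dist1 (L j) (M i) ≤ R ∧ T ω (L j) (M i) ≤ R' ∧ j ≤ j' ∧
    1 / ((n : ℝ) + 1) < Dfc ω M (L j) (L j')}

/-- Indices of `M` with a point of `L` at bounded distance and small defect. -/
def SRec (R n : ℕ) : Ω → Line → Line → Set ℤ := fun ω L M =>
  {i | ∃ j, dist1 (L j) (M i) ≤ R ∧ Dfc ω M (L j) (M i) < 1 / ((n : ℝ) + 1)}

section Meas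
variable {i j : ℤ}

lemma meas_L (j : ℤ) : Measurable fun p : Ω × Line × Line => p.2.1 j :=
  (measurable_pi_apply j).comp (measurable_fst.comp measurable_snd)

lemma meas_M (j : ℤ) : Measurable fun p : Ω × Line × Line => p.2.2 j :=
  (measurable_pi_apply j).comp (measurable_snd.comp measurable_snd)

lemma meas_ML : Measurable fun p : Ω × Line × Line => p.2.2 :=
  measurable_snd.comp measurable_snd

end Meas

lemma dist1_sub (z x y : V) : dist1 (x - z) (y - z) = dist1 x y := by
  unfold dist1
  simp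

lemma idx_near (R R' : ℕ) : IdxSet (SNear R R') := by
  refine ⟨fun i => ?_, fun z ω L M i => ?_, fun ω L M a b i _ _ => ?_⟩
  · refine Measurable.exists fun j => (meas_le_nat R (meas_L j) (meas_M i)).and ?_
    exact measurableSet_setOfPred.1 (measurableSet_le
      (measurable_T_comp measurable_fst (meas_L j) (meas_M i)) measurable_const)
  · simp only [SNear, Set.mem_ofPred_eq, T_theta, dist1_sub, sub_add_cancel]
  · simp only [SNear, Set.mem_ofPred_eq]
    constructor
    · rintro ⟨j, h1, h2⟩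
      exact ⟨j + a, h1, h2⟩
    · rintro ⟨j, h1, h2⟩
      exact ⟨j - a, by simpa using h1, by simpa using h2⟩

lemma idx_heavy (n : ℕ) : IdxSet (SHeavy n) := by
  refine ⟨fun i => ?_, fun z ω L M i => ?_, fun ω L M a b i _ _ => ?_⟩
  · exact measurableSet_setOfPred.1 (measurableSet_le measurable_const
      (measurable_wt_comp measurable_fst (meas_M i) (meas_M (i + 1))))
  · simp only [SHeavy, Set.mem_ofPred_eq, wt_theta, sub_add_cancel]
  · simp only [SHeavy, Set.mem_ofPred_eq]
    rw [add_right_comm i 1 b]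

lemma idx_def (R R' n : ℕ) : IdxSet (SDef R R' n) := by
  refine ⟨fun i => ?_, fun z ω L M i => ?_, fun ω L M a b i hL hM => ?_⟩
  · refine Measurable.exists fun j => Measurable.exists fun j' =>
      (meas_le_nat R (meas_L j) (meas_M i)).and (Measurable.and ?_
        (measurable_const.and ?_))
    · exact measurableSet_setOfPred.1 (measurableSet_le
        (measurable_T_comp measurable_fst (meas_L j) (meas_M i)) measurable_const)
    · exact measurableSet_setOfPred.1 (measurableSet_lt measurable_const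
        (measurable_Dfc_comp measurable_fst meas_ML (meas_L j) (meas_L j')))
  · simp only [SDef, Set.mem_ofPred_eq, T_theta, dist1_sub, sub_add_cancel, Dfc_theta]
  · simp only [SDef, Set.mem_ofPred_eq]
    constructor
    · rintro ⟨j, j', h1, h2, h3, h4⟩
      rw [Dfc_shift hM] at h4
      exact ⟨j + a, j' + a, h1, h2, by omega, h4⟩
    · rintro ⟨j, j', h1, h2, h3, h4⟩
      refine ⟨j - a, j' - a, by simpa using h1, by simpa using h2, by omega, ?_⟩
      rw [Dfc_shift hM]
      simpa using h4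

lemma idx_rec (R n : ℕ) : IdxSet (SRec R n) := by
  refine ⟨fun i => ?_, fun z ω L M i => ?_, fun ω L M a b i hL hM => ?_⟩
  · refine Measurable.exists fun j => (meas_le_nat R (meas_L j) (meas_M i)).and ?_
    exact measurableSet_setOfPred.1 (measurableSet_lt
      (measurable_Dfc_comp measurable_fst meas_ML (meas_L j) (meas_M i)) measurable_const)
  · simp only [SRec, Set.mem_ofPred_eq, dist1_sub, Dfc_theta]
  · simp only [SRec, Set.mem_ofPred_eq]
    constructor
    · rintro ⟨j, h1, h2⟩
      rw [Dfc_shift hM] at h2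
      exact ⟨j + a, h1, h2⟩
    · rintro ⟨j, h1, h2⟩
      refine ⟨j - a, by simpa using h1, ?_⟩
      rw [Dfc_shift hM]
      simpa using h2

/-! ### Typical environments -/

/-- The properties of a typical environment. -/
structure Typical (ω : Ω) : Prop where
  pos : ∀ e, 0 < ω e
  near : ∀ R₀ R R', ∀ L M, IsIsolated ω L → IsIsolated ω M → (∀ i j, L i ≠ M j) → NearInf R₀ L M →
    Unb (SNear R R' ω L M)
  heavy : ∀ R₀ n, ∀ L M, IsIsolated ω L → IsIsolated ω M → (∀ i j, L i ≠ M j) → NearInf R₀ L M →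
    Unb (SHeavy n ω L M)
  dfc : ∀ R₀ R R' n, ∀ L M, IsIsolated ω L → IsIsolated ω M → (∀ i j, L i ≠ M j) →
    NearInf R₀ L M → Unb (SDef R R' n ω L M)
  rcr : ∀ R₀ R n, ∀ L M, IsIsolated ω L → IsIsolated ω M → (∀ i j, L i ≠ M j) →
    NearInf R₀ L M → Unb (SRec R n ω L M)

theorem ae_typical (hG : ∀ x, G {x} = 0) : ∀ᵐ ω ∂(PP G), Typical ω := by
  have h0 : ∀ᵐ ω ∂(PP G), ∀ e, 0 < ω e := by
    rw [ae_all_iff]
    intro e
    have hp := measurePreserving_eval_infinitePi (fun _ : E => G) e
    have hzero : ∀ᵐ s ∂G, 0 < s := by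
      have : ∀ᵐ s ∂G, s ≠ 0 := by
        rw [ae_iff]
        simpa using hG 0
      exact this.mono fun s hs => pos_iff_ne_zero.2 hs
    exact hp.quasiMeasurePreserving.ae hzero
  have h1 : ∀ᵐ ω ∂(PP G), ∀ R₀ R R' : ℕ, ∀ L M, IsIsolated ω L → IsIsolated ω M →
      (∀ i j, L i ≠ M j) → NearInf R₀ L M → Unb (SNear R R' ω L M) := by
    simp only [ae_all_iff]
    exact fun R₀ R R' => idx_unb (idx_near R R') R₀
  have h2 : ∀ᵐ ω ∂(PP G), ∀ R₀ n : ℕ, ∀ L M, IsIsolated ω L → IsIsolated ω M →
      (∀ i j, L i ≠ M j) → NearInf R₀ L M → Unb (SHeavy n ω L M) := by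
    simp only [ae_all_iff]
    exact fun R₀ n => idx_unb (idx_heavy n) R₀
  have h3 : ∀ᵐ ω ∂(PP G), ∀ R₀ R R' n : ℕ, ∀ L M, IsIsolated ω L → IsIsolated ω M →
      (∀ i j, L i ≠ M j) → NearInf R₀ L M → Unb (SDef R R' n ω L M) := by
    simp only [ae_all_iff]
    exact fun R₀ R R' n => idx_unb (idx_def R R' n) R₀
  have h4 : ∀ᵐ ω ∂(PP G), ∀ R₀ R n : ℕ, ∀ L M, IsIsolated ω L → IsIsolated ω M →
      (∀ i j, L i ≠ M j) → NearInf R₀ L M → Unb (SRec R n ω L M) := by
    simp only [ae_all_iff]
    exact fun R₀ R n => idx_unb (idx_rec R n) R₀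
  filter_upwards [h0, h1, h2, h3, h4] with ω a b c d e
  exact ⟨a, b, c, d, e⟩

end Vale.Agent.Lib.P158
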