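import Vale.Agent.Lib.P158.Trap

/-!
# Straight connections between disjoint bi-infinite paths: no `K_{2,3}`
-/

open Set

namespace Vale.Agent.Lib.P158

/-- The straight path from `x` in direction `u`. -/
def st (x u : V) (m : ℤ) : V := x + (m * u.1, m * u.2)

@[simp] lemma st_zero (x u : V) : st x u 0 = x := by
  ext <;> simp [st]

lemma st_adj {u : V} (hu : dist1 0 u = 1) (x : V) (m : ℤ) : Adj (st x u m) (st x u (m + 1)) := by
  unfold Adj dist1 st
  unfold dist1 at hu
  simp only [Prod.fst_zero, Prod.snd_zero, zero_sub, Int.natAbs_neg] at hu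
  simp only [Prod.fst_add, Prod.snd_add]
  have e1' : x.1 + m * u.1 - (x.1 + (m + 1) * u.1) = -u.1 := by ring
  have e2' : x.2 + m * u.2 - (x.2 + (m + 1) * u.2) = -u.2 := by ring
  rw [e1', e2']
  simpa using hu

/-- A straight connection, in direction `u`, from `x` to `y`, of length `k`, with no point of `W`
inside. -/
structure Link (W : Set V) (u x y : V) (k : ℤ) : Prop where
  pos : 1 ≤ k
  free : ∀ m, 0 < m → m < k → st x u m ∉ W
  reach : st x u k = y

lemma link_interior_unique {W : Set V} {u x x' y y' : V} {k k' m m' : ℤ}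
    (h : Link W u x y k) (h' : Link W u x' y' k') (hx : x ∈ W) (hx' : x' ∈ W)
    (hm : 0 < m) (hmk : m < k) (hm' : 0 < m') (hmk' : m' < k') (he : st x u m = st x' u m') :
    x = x' := by
  have e1' := congrArg Prod.fst he
  have e2' := congrArg Prod.snd he
  simp only [st, Prod.fst_add, Prod.snd_add] at e1' e2'
  rcases lt_trichotomy m m' with hlt | heq | hgt
  · exfalso
    apply h'.free (m' - m) (by omega) (by omega)
    have : st x' u (m' - m) = x := by
      ext
      · simp only [st, Prod.fst_add]; linarith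
      · simp only [st, Prod.snd_add]; linarith
    rw [this]
    exact hx
  · subst heq
    ext
    · linarith
    · linarith
  · exfalso
    apply h.free (m - m') (by omega) (by omega)
    have : st x u (m - m') = x' := by
      ext
      · simp only [st, Prod.fst_add]; linarith
      · simp only [st, Prod.snd_add]; linarith
    rw [this]
    exact hx'

lemma link_fwd_unique {W : Set V} {u x y y' : V} {k k' : ℤ}
    (h : Link W u x y k) (h' : Link W u x y' k') (hy : y ∈ W) (hy' : y' ∈ W) : y = y' := by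
  rcases lt_trichotomy k k' with hlt | heq | hgt
  · exact absurd (by rw [h.reach]; exact hy) (h'.free k (by have := h.pos; omega) hlt)
  · rw [← h.reach, ← h'.reach, heq]
  · exact absurd (by rw [h'.reach]; exact hy') (h.free k' (by have := h'.pos; omega) hgt)

/-- A bi-infinite path inside `W`. -/
structure InW (W : Set V) (N : Line) : Prop where
  adj : ∀ k, Adj (N k) (N (k + 1))
  inj : Function.Injective N
  mem : ∀ k, N k ∈ W

/-- Two vertex-disjoint paths. -/
def Dj (N N' : Line) : Prop := ∀ i j, N i ≠ N' j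

lemma Dj.symm {N N' : Line} (h : Dj N N') : Dj N' N := fun i j e => h j i e.symm

/-- The chain of a segment of `N` between two indices, in any order. -/
noncomputable def pseg (N : Line) (a b : ℤ) : E → ZMod 2 := pchain N (min a b) (max a b)

lemma deg_pseg {N : Line} (hadj : ∀ k, Adj (N k) (N (k + 1))) (a b : ℤ) (v : V) :
    deg (pseg N a b) v = (if N a = v then 1 else 0) + (if N b = v then 1 else 0) := by
  unfold pseg
  rw [deg_pchain (min_le_max) (fun k _ _ => hadj k)]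
  rcases le_total a b with h | h
  · rw [min_eq_left h, max_eq_right h]
  · rw [min_eq_right h, max_eq_left h, add_comm]

lemma pseg_support {N : Line} {a b : ℤ} {e : E} (h : pseg N a b e ≠ 0) :
    ∃ k, edgeOf (N k) (N (k + 1)) = e := by
  obtain ⟨k, _, _, h3⟩ := pchain_support h
  exact ⟨k, h3⟩

lemma pseg_off {N : Line} (hadj : ∀ k, Adj (N k) (N (k + 1))) {a b : ℤ} {v : V} (h : ∀ k, N k ≠ v)
    (e : E) (he : Inc v e) : pseg N a b e = 0 :=
  pchain_off (fun k _ _ => hadj k) (fun k _ _ => h k) e he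

/-- The chain of a straight connection. -/
noncomputable def plink (x u : V) (k : ℤ) : E → ZMod 2 := pchain (st x u) 0 k

lemma deg_plink {W : Set V} {u x y : V} {k : ℤ} (hu : dist1 0 u = 1) (h : Link W u x y k) (v : V) :
    deg (plink x u k) v = (if x = v then 1 else 0) + (if y = v then 1 else 0) := by
  unfold plink
  rw [deg_pchain (by have := h.pos; omega) (fun m _ _ => st_adj hu x m), st_zero, h.reach]

lemma link_ne {W : Set V} {u x y v : V} {k : ℤ} (h : Link W u x y k) (hx : x ≠ v) (hy : y ≠ v)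
    (hv : v ∈ W) (m : ℤ) (h0 : 0 ≤ m) (hk : m ≤ k) : st x u m ≠ v := by
  rcases h0.lt_or_eq with h1 | h1
  · rcases hk.lt_or_eq with h2 | h2
    · intro he
      exact h.free m h1 h2 (he ▸ hv)
    · rw [h2, h.reach]; exact hy
  · rw [← h1, st_zero]; exact hx

lemma plink_off {W : Set V} {u x y v : V} {k : ℤ} (hu : dist1 0 u = 1) (h : Link W u x y k)
    (hx : x ≠ v) (hy : y ≠ v) (hv : v ∈ W) (e : E) (he : Inc v e) : plink x u k e = 0 :=
  pchain_off (fun m _ _ => st_adj hu x m) (fun m h1 h2 => link_ne h hx hy hv m h1 h2) e he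

lemma plink_off_interior {W : Set V} {u x y x₂ y₂ : V} {k k₂ m₂ : ℤ} (hu : dist1 0 u = 1)
    (h : Link W u x y k) (h₂ : Link W u x₂ y₂ k₂) (hx : x ∈ W) (hy : y ∈ W) (hx₂ : x₂ ∈ W)
    (hne : x ≠ x₂) (h1 : 0 < m₂) (h2 : m₂ < k₂) (e : E) (he : Inc (st x₂ u m₂) e) :
    plink x u k e = 0 := by
  have hz : st x₂ u m₂ ∉ W := h₂.free m₂ h1 h2
  refine pchain_off (fun m _ _ => st_adj hu x m) (fun m h3 h4 heq => ?_) e he
  rcases h3.lt_or_eq with h5 | h5
  · rcases h4.lt_or_eq with h6 | h6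
    · exact hne (link_interior_unique h h₂ hx hx₂ h5 h6 h1 h2 heq)
    · rw [h6, h.reach] at heq
      exact hz (heq ▸ hy)
  · rw [← h5, st_zero] at heq
    exact hz (heq ▸ hx)

lemma ar_line {τ : V → ZMod 2} {c : E → ZMod 2} (h : ∀ e, dd τ e = c e) {N : Line}
    (hadj : ∀ k, Adj (N k) (N (k + 1))) (hoff : ∀ k, OffC c (N k)) {D : ZMod 2} {a : ℤ}
    (ha : Ar τ (N a) D) (b : ℤ) : Ar τ (N b) D := by
  rcases le_total a b with hab | hab
  · exact ar_path h hab (fun j _ _ => hadj j) (fun j _ _ => hoff j) ha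
  · exact ar_path_rev h hab (fun j _ _ => hadj j) (fun j _ _ => hoff j) ha

lemma faces_of_ar {τ : V → ZMod 2} {a b : V} (hab : Adj a b) {D : ZMod 2} (h : Ar τ b D) :
    τ (faceA (edgeOf a b)) = D ∧ τ (faceB (edgeOf a b)) = D := by
  obtain ⟨h1, h2⟩ := faces_inc (inc_edgeOf_right hab)
  exact ⟨h _ h1, h _ h2⟩

lemma support_pchain_finite (P : ℤ → V) (i j : ℤ) : {e | pchain P i j e ≠ 0}.Finite := by
  apply ((Finset.Ico i j).image fun k => edgeOf (P k) (P (k + 1))).finite_toSet.subset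
  intro e he
  obtain ⟨k, h1, h2, h3⟩ := pchain_support he
  simp only [Finset.coe_image, Set.mem_image, Finset.mem_coe, Finset.mem_Ico]
  exact ⟨k, ⟨h1, h2⟩, h3⟩

lemma exists_far_bound {c : E → ZMod 2} (h : {e | c e ≠ 0}.Finite) :
    ∃ B : ℕ, ∀ e : E, Far B e.1 → c e = 0 := by
  obtain ⟨B, hB⟩ := (h.image fun e => e.1.1.natAbs + e.1.2.natAbs).bddAbove
  refine ⟨B, fun e he => ?_⟩
  by_contra hne
  have := hB (Set.mem_image_of_mem _ hne)
  unfold Far at he
  omega

/-- The ordered form of the `K_{2,3}` lemma. -/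
theorem k23_ordered {W : Set V} {u : V} (hu : dist1 0 u = 1) {L1 L2 M1 M2 M3 : Line}
    (hL1 : InW W L1) (hL2 : InW W L2) (hM1 : InW W M1) (hM2 : InW W M2) (hM3 : InW W M3)
    (d1 : Dj L1 L2) (d2 : Dj L1 M1) (d3 : Dj L1 M2) (d4 : Dj L1 M3) (d5 : Dj L2 M1)
    (d6 : Dj L2 M2) (d7 : Dj L2 M3) (d8 : Dj M1 M2) (d9 : Dj M1 M3) (d10 : Dj M2 M3)
    {p1 p2 p3 q1 q2 q3 r1 r2 r3 s1 s2 s3 k1 k2 k3 l1 l2 l3 : ℤ} (h12 : p1 < p2) (h23 : p2 < p3)
    (a1 : Link W u (L1 p1) (M1 r1) k1) (a2 : Link W u (L1 p2) (M2 r2) k2)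
    (a3 : Link W u (L1 p3) (M3 r3) k3)
    (b1 : Link W u (L2 q1) (M1 s1) l1) (b2 : Link W u (L2 q2) (M2 s2) l2)
    (b3 : Link W u (L2 q3) (M3 s3) l3) : False := by
  classical
  obtain ⟨τ, hτ⟩ := exists_potential (cLine_closed hL1.adj hL1.inj)
  set D := τ (L2 0) with hD
  have hoffW : ∀ z, z ∉ W → OffC (cLine L1) z := fun z hz =>
    cLine_off hL1.adj fun k h => hz (h ▸ hL1.mem k)
  have hoffL2 : ∀ k, OffC (cLine L1) (L2 k) := fun k => cLine_off hL1.adj fun j => d1 j k
  have hARL2 : ∀ k, Ar τ (L2 k) D := fun k =>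
    ar_line hτ hL2.adj hoffL2 (ar_of_off hτ (hoffL2 0)) k
  -- the common side of `L1` on which everything else lies
  have key : ∀ (M : Line) (p q r s k l : ℤ), InW W M → Dj L1 M → Link W u (L1 p) (M r) k →
      Link W u (L2 q) (M s) l →
      (∀ m, 0 ≤ m → m ≤ l → Ar τ (st (L2 q) u m) D) ∧ (∀ j, Ar τ (M j) D) ∧
        (∀ m, 1 ≤ m → m ≤ k → Ar τ (st (L1 p) u m) D) := by
    intro M p q r s k l hM dj a b
    have hoffM : ∀ j, OffC (cLine L1) (M j) := fun j => cLine_off hL1.adj fun i => dj i j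
    have h1 : ∀ m, 0 ≤ m → m ≤ l → Ar τ (st (L2 q) u m) D := by
      intro m hm hml
      refine ar_path hτ hm (fun j _ _ => st_adj hu _ j) (fun j h3 h4 => ?_)
        (by rw [st_zero]; exact hARL2 q)
      rcases (h4.trans hml).lt_or_eq with h5 | h5
      · exact hoffW _ (b.free j h3 h5)
      · rw [h5, b.reach]; exact hoffM s
    have h2 : ∀ j, Ar τ (M j) D := fun j => by
      have := h1 l (by have := b.pos; omega) le_rfl
      rw [b.reach] at this
      exact ar_line hτ hM.adj hoffM this j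
    refine ⟨h1, h2, fun m hm hmk => ?_⟩
    refine ar_path_rev hτ hmk (fun j _ _ => st_adj hu _ j) (fun j h3 h4 => ?_)
      (by rw [a.reach]; exact h2 r)
    exact hoffW _ (a.free j (by omega) h4)
  obtain ⟨K1a, K1b, K1c⟩ := key M1 p1 q1 r1 s1 k1 l1 hM1 d2 a1 b1
  obtain ⟨K2a, K2b, K2c⟩ := key M2 p2 q2 r2 s2 k2 l2 hM2 d3 a2 b2
  obtain ⟨K3a, K3b, K3c⟩ := key M3 p3 q3 r3 s3 k3 l3 hM3 d4 a3 b3
  -- the closed chain
  let c : E → ZMod 2 := fun e =>
    pchain L1 p1 p3 e + plink (L1 p3) u k3 e + pseg M3 r3 s3 e + plink (L2 q3) u l3 e +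
      pseg L2 q3 q1 e + plink (L2 q1) u l1 e + pseg M1 s1 r1 e + plink (L1 p1) u k1 e
  have hclosed : Closed c := by
    intro v
    have hsplit : deg c v = deg (pchain L1 p1 p3) v + deg (plink (L1 p3) u k3) v +
        deg (pseg M3 r3 s3) v + deg (plink (L2 q3) u l3) v + deg (pseg L2 q3 q1) v +
        deg (plink (L2 q1) u l1) v + deg (pseg M1 s1 r1) v + deg (plink (L1 p1) u k1) v := by
      simp only [deg, c]
      ring
    rw [hsplit, deg_pchain (by omega) (fun k _ _ => hL1.adj k), deg_plink hu a3, deg_pseg hM3.adj,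
      deg_plink hu b3, deg_pseg hL2.adj, deg_plink hu b1, deg_pseg hM1.adj, deg_plink hu a1]
    generalize (if L1 p1 = v then (1 : ZMod 2) else 0) = A
    generalize (if L1 p3 = v then (1 : ZMod 2) else 0) = B
    generalize (if M3 r3 = v then (1 : ZMod 2) else 0) = C
    generalize (if M3 s3 = v then (1 : ZMod 2) else 0) = E'
    generalize (if L2 q3 = v then (1 : ZMod 2) else 0) = F
    generalize (if L2 q1 = v then (1 : ZMod 2) else 0) = G
    generalize (if M1 s1 = v then (1 : ZMod 2) else 0) = H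
    generalize (if M1 r1 = v then (1 : ZMod 2) else 0) = I
    revert A B C E' F G H I
    decide
  have hfinite : {e | c e ≠ 0}.Finite := by
    refine ((support_pchain_finite L1 p1 p3).union ((support_pchain_finite (st (L1 p3) u) 0 k3).union
      ((support_pchain_finite M3 (min r3 s3) (max r3 s3)).union
      ((support_pchain_finite (st (L2 q3) u) 0 l3).union
      ((support_pchain_finite L2 (min q3 q1) (max q3 q1)).union
      ((support_pchain_finite (st (L2 q1) u) 0 l1).union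
      ((support_pchain_finite M1 (min s1 r1) (max s1 r1)).union
      (support_pchain_finite (st (L1 p1) u) 0 k1)))))))).subset ?_
    intro e he
    by_contra hcon
    simp only [Set.mem_union, Set.mem_ofPred_eq, not_or, not_not] at hcon
    apply he
    simp only [c, plink, pseg]
    obtain ⟨h1, h2, h3, h4, h5, h6, h7, h8⟩ := hcon
    rw [h1, h2, h3, h4, h5, h6, h7, h8]
    simp
  obtain ⟨B, hB⟩ := exists_far_bound hfinite
  obtain ⟨σ, hσ, hfar⟩ := exists_potential_far hclosed hB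
  -- the edges of the chain off `L1` lie on the side `D`
  have hA : ∀ e, c e ≠ 0 → cLine L1 e = 0 → τ (faceA e) = D ∧ τ (faceB e) = D := by
    intro e he hcL
    by_contra hcon
    apply he
    have hp1 : pchain L1 p1 p3 e = 0 := by
      by_contra hne
      obtain ⟨k, _, _, rfl⟩ := pchain_support hne
      rw [cLine_edge] at hcL
      exact one_ne_zero hcL
    have hseg : ∀ (N : Line) (x y : ℤ), InW W N → (∀ j, Ar τ (N j) D) → pseg N x y e = 0 := by
      intro N x y hN hAr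
      by_contra hne
      obtain ⟨k, rfl⟩ := pseg_support hne
      exact hcon (faces_of_ar (hN.adj k) (hAr (k + 1)))
    have hlinkL2 : ∀ (q l : ℤ), (∀ m, 0 ≤ m → m ≤ l → Ar τ (st (L2 q) u m) D) →
        plink (L2 q) u l e = 0 := by
      intro q l hAr
      by_contra hne
      obtain ⟨m, h1, h2, rfl⟩ := pchain_support hne
      exact hcon (faces_of_ar (st_adj hu _ m) (hAr _ (by omega) (by omega)))
    have hlinkL1 : ∀ (p k : ℤ), (∀ m, 1 ≤ m → m ≤ k → Ar τ (st (L1 p) u m) D) →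
        plink (L1 p) u k e = 0 := by
      intro p k hAr
      by_contra hne
      obtain ⟨m, h1, h2, rfl⟩ := pchain_support hne
      exact hcon (faces_of_ar (st_adj hu _ m) (hAr _ (by omega) (by omega)))
    simp only [c]
    rw [hp1, hlinkL1 p3 k3 K3c, hseg M3 _ _ hM3 K3b, hlinkL2 q3 l3 K3a, hseg L2 _ _ hL2 hARL2,
      hlinkL2 q1 l1 K1a, hseg M1 _ _ hM1 K1b, hlinkL1 p1 k1 K1c]
    simp
  -- at the middle vertex the chain agrees with the line
  have hBm : ∀ e, Inc (L1 p2) e → c e = cLine L1 e := by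
    intro e he
    have hv := hL1.mem p2
    have hne1 : L1 p3 ≠ L1 p2 := fun h => by have := hL1.inj h; omega
    have hne2 : L1 p1 ≠ L1 p2 := fun h => by have := hL1.inj h; omega
    simp only [c]
    rw [cLine_eq_pchain hL1.adj hL1.inj h12 h23 e he,
      plink_off hu a3 hne1 (d4 p2 r3).symm hv e he,
      pseg_off hM3.adj (fun k => (d4 p2 k).symm) e he,
      plink_off hu b3 (d1 p2 q3).symm (d4 p2 s3).symm hv e he,
      pseg_off hL2.adj (fun k => (d1 p2 k).symm) e he,
      plink_off hu b1 (d1 p2 q1).symm (d2 p2 s1).symm hv e he,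
      pseg_off hM1.adj (fun k => (d2 p2 k).symm) e he,
      plink_off hu a1 hne2 (d2 p2 r1).symm hv e he]
    simp
  -- the escape of the middle connection to infinity
  have hoffM2 : ∀ j, OffC c (M2 j) := by
    intro j
    refine OffC.of_inc fun e he => ?_
    have hv := hM2.mem j
    simp only [c]
    rw [pchain_off (fun k _ _ => hL1.adj k) (fun k _ _ => d3 k j) e he,
      plink_off hu a3 (d3 p3 j) (d10 j r3).symm hv e he,
      pseg_off hM3.adj (fun k => (d10 j k).symm) e he,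
      plink_off hu b3 (d6 q3 j) (d10 j s3).symm hv e he,
      pseg_off hL2.adj (fun k => d6 k j) e he,
      plink_off hu b1 (d6 q1 j) (d8 s1 j) hv e he,
      pseg_off hM1.adj (fun k => d8 k j) e he,
      plink_off hu a1 (d3 p1 j) (d8 r1 j) hv e he]
    simp
  have hARM2 : ∀ j, Ar σ (M2 j) 0 := ar_far hσ hfar hM2.inj hM2.adj hoffM2
  have hoffint : ∀ m, 0 < m → m < k2 → OffC c (st (L1 p2) u m) := by
    intro m h1 h2
    refine OffC.of_inc fun e he => ?_
    have hz : st (L1 p2) u m ∉ W := a2.free m h1 h2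
    have hnotline : ∀ (N : Line), InW W N → ∀ k, N k ≠ st (L1 p2) u m :=
      fun N hN k h3 => hz (h3 ▸ hN.mem k)
    simp only [c]
    rw [pchain_off (fun k _ _ => hL1.adj k) (fun k _ _ => hnotline L1 hL1 k) e he,
      plink_off_interior hu a3 a2 (hL1.mem _) (hM3.mem _) (hL1.mem _)
        (fun h => by have := hL1.inj h; omega) h1 h2 e he,
      pseg_off hM3.adj (hnotline M3 hM3) e he,
      plink_off_interior hu b3 a2 (hL2.mem _) (hM3.mem _) (hL1.mem _)
        (d1 p2 q3).symm h1 h2 e he,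
      pseg_off hL2.adj (hnotline L2 hL2) e he,
      plink_off_interior hu b1 a2 (hL2.mem _) (hM1.mem _) (hL1.mem _)
        (d1 p2 q1).symm h1 h2 e he,
      pseg_off hM1.adj (hnotline M1 hM1) e he,
      plink_off_interior hu a1 a2 (hL1.mem _) (hM1.mem _) (hL1.mem _)
        (fun h => by have := hL1.inj h; omega) h1 h2 e he]
    simp
  have hk2 : 1 ≤ k2 := a2.pos
  have hARσ : Ar σ (st (L1 p2) u 1) 0 := by
    refine ar_path_rev hσ hk2 (fun j _ _ => st_adj hu _ j) (fun j h3 h4 => hoffint j (by omega) h4)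
      (by rw [a2.reach]; exact hARM2 r2)
  have hadj1 : Adj (L1 p2) (st (L1 p2) u 1) := by
    have := st_adj hu (L1 p2) 0
    simpa using this
  obtain ⟨f, hf1, hf2⟩ := shared_face hadj1
  exact trap hL1.adj hL1.inj hσ hτ hfar hA hBm hf1 (hARσ f hf2) (K2c 1 le_rfl hk2 f hf2)

/-- The `K_{2,3}` lemma: two disjoint bi-infinite paths cannot both be linked to three further
disjoint bi-infinite paths by straight connections in a fixed direction, avoiding `W`. -/
theorem k23 {W : Set V} {u : V} (hu : dist1 0 u = 1) {L1 L2 M1 M2 M3 : Line}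
    (hL1 : InW W L1) (hL2 : InW W L2) (hM1 : InW W M1) (hM2 : InW W M2) (hM3 : InW W M3)
    (d1 : Dj L1 L2) (d2 : Dj L1 M1) (d3 : Dj L1 M2) (d4 : Dj L1 M3) (d5 : Dj L2 M1)
    (d6 : Dj L2 M2) (d7 : Dj L2 M3) (d8 : Dj M1 M2) (d9 : Dj M1 M3) (d10 : Dj M2 M3)
    {p1 p2 p3 q1 q2 q3 r1 r2 r3 s1 s2 s3 k1 k2 k3 l1 l2 l3 : ℤ}
    (a1 : Link W u (L1 p1) (M1 r1) k1) (a2 : Link W u (L1 p2) (M2 r2) k2)
    (a3 : Link W u (L1 p3) (M3 r3) k3)
    (b1 : Link W u (L2 q1) (M1 s1) l1) (b2 : Link W u (L2 q2) (M2 s2) l2)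
    (b3 : Link W u (L2 q3) (M3 s3) l3) : False := by
  have n12 : p1 ≠ p2 := by
    rintro rfl
    exact d8 r1 r2 (link_fwd_unique a1 a2 (hM1.mem _) (hM2.mem _))
  have n13 : p1 ≠ p3 := by
    rintro rfl
    exact d9 r1 r3 (link_fwd_unique a1 a3 (hM1.mem _) (hM3.mem _))
  have n23 : p2 ≠ p3 := by
    rintro rfl
    exact d10 r2 r3 (link_fwd_unique a2 a3 (hM2.mem _) (hM3.mem _))
  rcases lt_or_gt_of_ne n12 with h12 | h12 <;> rcases lt_or_gt_of_ne n13 with h13 | h13 <;>
    rcases lt_or_gt_of_ne n23 with h23 | h23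
  · exact k23_ordered hu hL1 hL2 hM1 hM2 hM3 d1 d2 d3 d4 d5 d6 d7 d8 d9 d10 h12 h23 a1 a2 a3 b1 b2 b3
  · exact k23_ordered hu hL1 hL2 hM1 hM3 hM2 d1 d2 d4 d3 d5 d7 d6 d9 d8 d10.symm h13 h23 a1 a3 a2 b1 b3 b2
  · omega
  · exact k23_ordered hu hL1 hL2 hM3 hM1 hM2 d1 d4 d2 d3 d7 d5 d6 d9.symm d10.symm d8 h13 h12 a3 a1 a2 b3 b1 b2
  · exact k23_ordered hu hL1 hL2 hM2 hM1 hM3 d1 d3 d2 d4 d6 d5 d7 d8.symm d10 d9 h12 h13 a2 a1 a3 b2 b1 b3
  · omega
  · exact k23_ordered hu hL1 hL2 hM2 hM3 hM1 d1 d3 d4 d2 d6 d7 d5 d10 d8.symm d9.symm h23 h13 a2 a3 a1 b2 b3 b1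
  · exact k23_ordered hu hL1 hL2 hM3 hM2 hM1 d1 d4 d3 d2 d7 d6 d5 d10.symm d9.symm d8.symm h23 h12 a3 a2 a1 b3 b2 b1

end Vale.Agent.Lib.P158
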