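import Vale.Agent.Lib.P158.Bigeo

/-!
# Existence of bigeodesics through an oriented edge: a countable description

A compactness (König) argument shows that a bigeodesic through `(u, v)` exists as soon as
arbitrarily long finite geodesic windows exist.  This makes the event measurable.
-/

open MeasureTheory Filter Set Topology
open scoped NNReal ENNReal

namespace Vale.Agent.Lib.P158

/-- The conditions of a bigeodesic on the index window `[-n, n+1]`. -/
def WinGood (ω : Ω) (n : ℕ) (p : Line) : Prop :=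
  (∀ k : ℤ, -(n : ℤ) ≤ k → k ≤ n → Adj (p k) (p (k + 1))) ∧
  (∀ i j : ℤ, -(n : ℤ) ≤ i → i ≤ n + 1 → -(n : ℤ) ≤ j → j ≤ n + 1 → p i = p j → i = j) ∧
  (∀ i j : ℤ, -(n : ℤ) ≤ i → i < j → j ≤ n + 1 →
    ∑ k ∈ Finset.Ico i j, wt ω (p k) (p (k + 1)) = T ω (p i) (p j))

lemma WinGood.congr {ω : Ω} {n : ℕ} {p q : Line}
    (h : ∀ k, -(n : ℤ) ≤ k → k ≤ n + 1 → p k = q k) (hp : WinGood ω n p) : WinGood ω n q := by
  refine ⟨fun k h1 h2 => ?_, fun i j h1 h2 h3 h4 h5 => ?_, fun i j h1 h2 h3 => ?_⟩
  · rw [← h k h1 (by omega), ← h (k + 1) (by omega) (by omega)]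
    exact hp.1 k h1 h2
  · rw [← h i h1 h2, ← h j h3 h4] at h5
    exact hp.2.1 i j h1 h2 h3 h4 h5
  · rw [← h i h1 (by omega), ← h j (by omega) h3, ← hp.2.2 i j h1 h2 h3]
    refine Finset.sum_congr rfl fun k hk => ?_
    simp only [Finset.mem_Ico] at hk
    rw [h k (by omega) (by omega), h (k + 1) (by omega) (by omega)]

lemma WinGood.mono {ω : Ω} {n m : ℕ} (hnm : n ≤ m) {p : Line} (hp : WinGood ω m p) :
    WinGood ω n p := by
  have hnm' : (n : ℤ) ≤ m := by exact_mod_cast hnm
  refine ⟨fun k h1 h2 => hp.1 k (by omega) (by omega),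
    fun i j h1 h2 h3 h4 h5 => hp.2.1 i j (by omega) (by omega) (by omega) (by omega) h5,
    fun i j h1 h2 h3 => hp.2.2 i j (by omega) h2 (by omega)⟩

lemma IsBigeodesic.winGood {ω : Ω} {L : Line} (h : IsBigeodesic ω L) (n : ℕ) : WinGood ω n L :=
  ⟨fun k _ _ => h.adj k, fun _ _ _ _ _ _ h5 => h.inj h5, fun i j _ h2 _ => h.geo i j h2⟩

lemma isBigeodesic_of_winGood {ω : Ω} {L : Line} (h : ∀ n, WinGood ω n L) : IsBigeodesic ω L := by
  refine ⟨fun k => ?_, fun i j hij => ?_, fun i j hij => ?_⟩
  · exact (h (k.natAbs)).1 k (by omega) (by omega)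
  · exact (h (i.natAbs + j.natAbs)).2.1 i j (by omega) (by omega) (by omega) (by omega) hij
  · exact (h (i.natAbs + j.natAbs)).2.2 i j (by omega) hij (by omega)

/-- There is a bigeodesic through the oriented edge `(u, v)`. -/
def Allowed (ω : Ω) (u v : V) : Prop := ∃ L : Line, IsBigeodesic ω L ∧ L 0 = u ∧ L 1 = v

lemma dist1_triangle (x y z : V) : dist1 x z ≤ dist1 x y + dist1 y z := by
  unfold dist1; omega

lemma dist1_self (x : V) : dist1 x x = 0 := by
  unfold dist1; simp

/-- Along a window, the path stays close to its base point. -/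
lemma WinGood.dist_le {ω : Ω} {n : ℕ} {p : Line} (hp : WinGood ω n p) (k : ℤ)
    (h1 : -(n : ℤ) ≤ k) (h2 : k ≤ n + 1) : dist1 (p 0) (p k) ≤ k.natAbs := by
  have hpos : ∀ m : ℕ, (m : ℤ) ≤ n + 1 → dist1 (p 0) (p m) ≤ m := by
    intro m
    induction m with
    | zero => intro _; simp [dist1_self]
    | succ m ih =>
      intro hm
      push_cast at hm
      have := ih (by omega)
      have h3 := hp.1 m (by omega) (by omega)
      have h4 := dist1_triangle (p 0) (p m) (p (m + 1))
      unfold Adj at h3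
      push_cast
      omega
  have hneg : ∀ m : ℕ, (m : ℤ) ≤ n → dist1 (p 0) (p (-(m : ℤ))) ≤ m := by
    intro m
    induction m with
    | zero => intro _; simp [dist1_self]
    | succ m ih =>
      intro hm
      push_cast at hm
      have := ih (by omega)
      have h3 := hp.1 (-(m + 1 : ℤ)) (by omega) (by omega)
      have e : (-(m + 1 : ℤ) + 1) = -(m : ℤ) := by ring
      rw [e] at h3
      have h4 := dist1_triangle (p 0) (p (-(m : ℤ))) (p (-(m + 1 : ℤ)))
      unfold Adj at h3
      rw [dist1_comm] at h3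
      push_cast
      omega
  rcases le_total 0 k with hk | hk
  · obtain ⟨m, rfl⟩ := Int.eq_ofNat_of_zero_le hk
    simpa using hpos m h2
  · obtain ⟨m, hm⟩ := Int.eq_ofNat_of_zero_le (neg_nonneg.2 hk)
    have e : k = -(m : ℤ) := by omega
    rw [e]
    simpa using hneg m (by omega)

lemma finite_ball (u : V) (m : ℕ) : {y : V | dist1 u y ≤ m}.Finite := by
  apply (Set.finite_Icc (u - ((m : ℤ), (m : ℤ))) (u + ((m : ℤ), (m : ℤ)))).subset
  intro y hy
  simp only [Set.mem_ofPred_eq] at hy
  unfold dist1 at hy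
  constructor
  · exact Prod.mk_le_mk.2 ⟨by simp only [Prod.fst_sub]; omega, by simp only [Prod.snd_sub]; omega⟩
  · exact Prod.mk_le_mk.2 ⟨by simp only [Prod.fst_add]; omega, by simp only [Prod.snd_add]; omega⟩

lemma isClosed_of_window (s : Finset ℤ) (A : Set Line)
    (hA : ∀ p q : Line, (∀ k ∈ s, p k = q k) → p ∈ A → q ∈ A) : IsClosed A := by
  let r : Line → (s → V) := fun p k => p k
  have hr : Continuous r := continuous_pi fun k => continuous_apply _
  have hA' : A = r ⁻¹' (r '' A) := by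
    ext q
    constructor
    · intro hq
      exact ⟨q, hq, rfl⟩
    · rintro ⟨p, hp, hpq⟩
      refine hA p q (fun k hk => ?_) hp
      exact congrFun hpq ⟨k, hk⟩
  rw [hA']
  exact (isClosed_discrete _).preimage hr

/-- König's lemma for bigeodesics. -/
lemma allowed_of_windows {ω : Ω} {u v : V} (h : ∀ n : ℕ, ∃ p : Line, p 0 = u ∧ p 1 = v ∧ WinGood ω n p) :
    Allowed ω u v := by
  classical
  let K : Set Line := Set.pi univ (fun k : ℤ => {y : V | dist1 u y ≤ k.natAbs})
  have hK : IsCompact K := isCompact_univ_pi fun k => (finite_ball u k.natAbs).isCompact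
  let C : ℕ → Set Line := fun n => K ∩ {p | p 0 = u ∧ p 1 = v ∧ WinGood ω n p}
  have hclosed : ∀ n, IsClosed {p : Line | p 0 = u ∧ p 1 = v ∧ WinGood ω n p} := by
    intro n
    refine isClosed_of_window (insert 0 (insert 1 (Finset.Icc (-(n : ℤ)) (n + 1)))) _ ?_
    rintro p q hpq ⟨h0, h1, h2⟩
    refine ⟨?_, ?_, h2.congr fun k h3 h4 => hpq k ?_⟩
    · rw [← hpq 0 (by simp)]; exact h0
    · rw [← hpq 1 (by simp)]; exact h1
    · simp [h3, h4]
  have hC : ∀ n, (C n).Nonempty := by
    intro n
    obtain ⟨p, h0, h1, h2⟩ := h (n + 1)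
    -- truncate outside the window
    let q : Line := fun k => if -((n + 1 : ℕ) : ℤ) ≤ k ∧ k ≤ ((n + 1 : ℕ) : ℤ) + 1 then p k else u
    have hpq : ∀ k, -((n + 1 : ℕ) : ℤ) ≤ k → k ≤ ((n + 1 : ℕ) : ℤ) + 1 → p k = q k := by
      intro k h3 h4
      simp only [q, h3, h4, and_self, if_true]
    have hq0 : q 0 = u := by rw [← hpq 0 (by push_cast; omega) (by push_cast; omega)]; exact h0
    have hq1 : q 1 = v := by rw [← hpq 1 (by push_cast; omega) (by push_cast; omega)]; exact h1
    have hgq : WinGood ω (n + 1) q := h2.congr hpq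
    refine ⟨q, ?_, hq0, hq1, hgq.mono (Nat.le_succ n)⟩
    intro k _
    simp only [Set.mem_ofPred_eq]
    by_cases hk : -((n + 1 : ℕ) : ℤ) ≤ k ∧ k ≤ ((n + 1 : ℕ) : ℤ) + 1
    · have := hgq.dist_le k hk.1 hk.2
      rwa [hq0] at this
    · simp only [q, hk, if_false, dist1_self]
      exact Nat.zero_le _
  have hne := IsCompact.nonempty_iInter_of_sequence_nonempty_isCompact_isClosed C
    (fun n => inter_subset_inter_right _ fun p hp => ⟨hp.1, hp.2.1, hp.2.2.mono (Nat.le_succ n)⟩)
    hC (hK.inter_right (hclosed 0)) (fun n => hK.isClosed.inter (hclosed n))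
  obtain ⟨L, hL⟩ := hne
  rw [Set.mem_iInter] at hL
  exact ⟨L, isBigeodesic_of_winGood fun n => (hL n).2.2.2, (hL 0).2.1, (hL 0).2.2.1⟩

lemma measurable_winGood (n : ℕ) (p : Line) : Measurable fun ω : Ω => WinGood ω n p := by
  unfold WinGood
  refine measurable_const.and (measurable_const.and ?_)
  refine Measurable.forall fun i => Measurable.forall fun j => Measurable.imp measurable_const
    (Measurable.imp measurable_const (Measurable.imp measurable_const ?_))
  refine measurableSet_setOfPred.1 (measurableSet_eq_fun ?_ (measurable_T _ _))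
  exact Finset.measurable_sum _ fun k _ => measurable_wt _ _

lemma allowed_iff (ω : Ω) (u v : V) :
    Allowed ω u v ↔ ∀ n : ℕ, ∃ f : ℤ →₀ V, f 0 = u ∧ f 1 = v ∧ WinGood ω n f := by
  classical
  constructor
  · rintro ⟨L, hL, h0, h1⟩ n
    let q : ℤ → V := fun k => if k ∈ insert 0 (insert 1 (Finset.Icc (-(n : ℤ)) (n + 1))) then L k else 0
    let f : ℤ →₀ V := Finsupp.onFinset (insert 0 (insert 1 (Finset.Icc (-(n : ℤ)) (n + 1)))) q (by
      intro k hk
      by_contra hk'
      exact hk (by simp only [q, hk', if_false]))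
    have hf : ∀ k, k ∈ insert 0 (insert 1 (Finset.Icc (-(n : ℤ)) (n + 1))) → L k = f k := by
      intro k hk
      simp only [f, Finsupp.onFinset_apply, q, hk, if_true]
    refine ⟨f, ?_, ?_, (hL.winGood n).congr fun k h3 h4 => hf k (by simp [h3, h4])⟩
    · rw [← hf 0 (by simp)]; exact h0
    · rw [← hf 1 (by simp)]; exact h1
  · intro h
    refine allowed_of_windows fun n => ?_
    obtain ⟨f, h0, h1, h2⟩ := h n
    exact ⟨f, h0, h1, h2⟩

lemma measurable_allowed (u v : V) : Measurable fun ω : Ω => Allowed ω u v := by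
  simp only [allowed_iff]
  refine Measurable.forall fun n => Measurable.exists fun f => ?_
  exact measurable_const.and (measurable_const.and (measurable_winGood n f))

lemma measurable_allowed_comp {α : Type*} [MeasurableSpace α] {f : α → Ω} {a b : α → V}
    (hf : Measurable f) (ha : Measurable a) (hb : Measurable b) :
    Measurable fun p => Allowed (f p) (a p) (b p) := by
  have h1 : Measurable fun q : Ω × (V × V) => Allowed q.1 q.2.1 q.2.2 :=
    measurable_from_prod_countable_left fun y => measurable_allowed y.1 y.2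
  exact h1.comp (hf.prodMk (ha.prodMk hb))

end Vale.Agent.Lib.P158
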