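import Vale.Agent.Lib.P158.Konig

/-!
# Isolated bigeodesics are determined by an oriented edge, measurably
-/

open MeasureTheory Filter Set Topology
open scoped NNReal ENNReal

namespace Vale.Agent.Lib.P158

lemma allowed_fwd {ω : Ω} {M : Line} (hM : IsBigeodesic ω M) (t : ℤ) :
    Allowed ω (M t) (M (t + 1)) :=
  ⟨fun k => M (k + t), hM.shift t, by simp, by rw [add_comm]⟩

lemma allowed_back {ω : Ω} {M : Line} (hM : IsBigeodesic ω M) (t : ℤ) :
    Allowed ω (M t) (M (t - 1)) :=
  ⟨fun k => (fun k => M (-k)) (k + (-t)), hM.neg.shift (-t), by simp, by simp [sub_eq_add_neg]⟩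

/-- Local uniqueness: the only oriented edges out of `L k` lying on a bigeodesic follow `L`. -/
def LocUnique (ω : Ω) (L : Line) : Prop :=
  ∀ k c, Allowed ω (L k) c → c = L (k - 1) ∨ c = L (k + 1)

lemma IsIsolated.locUnique {ω : Ω} {L : Line} (h : IsIsolated ω L) : LocUnique ω L := by
  rintro k c ⟨M, hM, h0, h1⟩
  obtain ⟨d, hd⟩ := h.2 M hM ⟨0, k, h0⟩
  rcases hd with hd | hd
  · have e : 0 + d = k := h.1.inj (by rw [← hd, h0])
    right
    rw [← h1, hd 1]
    congr 1
    omega
  · have e : d - 0 = k := h.1.inj (by rw [← hd, h0])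
    left
    rw [← h1, hd 1]
    congr 1
    omega

lemma LocUnique.neg {ω : Ω} {L : Line} (h : LocUnique ω L) : LocUnique ω (fun k => L (-k)) := by
  intro k c hc
  rcases h (-k) c hc with h1 | h1
  · right
    rw [h1]; congr 1; ring
  · left
    rw [h1]; congr 1; ring

lemma follow_aux {ω : Ω} {L M : Line} (hU : LocUnique ω L) (hM : IsBigeodesic ω M) {t s : ℤ}
    (h0 : M t = L s) (h1 : M (t + 1) = L (s + 1)) :
    M (t + 2) = L (s + 2) ∧ M (t - 1) = L (s - 1) := by
  constructor
  · have h2 := allowed_fwd hM (t + 1)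
    rw [h1] at h2
    rcases hU _ _ h2 with h3 | h3
    · exfalso
      have e : s + 1 - 1 = s := by ring
      rw [e, ← h0] at h3
      have := hM.inj h3
      omega
    · have e1 : t + 1 + 1 = t + 2 := by ring
      have e2 : s + 1 + 1 = s + 2 := by ring
      rw [e1, e2] at h3
      exact h3
  · have h2 := allowed_back hM t
    rw [h0] at h2
    rcases hU _ _ h2 with h3 | h3
    · exact h3
    · exfalso
      rw [← h1] at h3
      have := hM.inj h3
      omega

lemma follow {ω : Ω} {L M : Line} (hU : LocUnique ω L) (hM : IsBigeodesic ω M) {t s : ℤ}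
    (h0 : M t = L s) (h1 : M (t + 1) = L (s + 1)) (k : ℤ) : M (t + k) = L (s + k) := by
  have hp : ∀ n : ℕ, M (t + n) = L (s + n) ∧ M (t + n + 1) = L (s + n + 1) := by
    intro n
    induction n with
    | zero => simpa using ⟨h0, h1⟩
    | succ n ih =>
      have := (follow_aux hU hM ih.1 ih.2).1
      push_cast
      have e1 : t + (n + 1 : ℤ) = t + n + 1 := by ring
      have e2 : s + (n + 1 : ℤ) = s + n + 1 := by ring
      have e3 : t + n + 1 + 1 = t + n + 2 := by ring
      have e4 : s + n + 1 + 1 = s + n + 2 := by ring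
      rw [e1, e2, e3, e4]
      exact ⟨ih.2, this⟩
  have hn : ∀ n : ℕ, M (t - n) = L (s - n) ∧ M (t - n + 1) = L (s - n + 1) := by
    intro n
    induction n with
    | zero => simpa using ⟨h0, h1⟩
    | succ n ih =>
      have := (follow_aux hU hM ih.1 ih.2).2
      push_cast
      have e1 : t - (n + 1 : ℤ) = t - n - 1 := by ring
      have e2 : s - (n + 1 : ℤ) = s - n - 1 := by ring
      have e3 : t - n - 1 + 1 = t - n := by ring
      have e4 : s - n - 1 + 1 = s - n := by ring
      rw [e1, e2, e3, e4]
      exact ⟨this, ih.1⟩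
  rcases le_total 0 k with hk | hk
  · obtain ⟨m, rfl⟩ := Int.eq_ofNat_of_zero_le hk
    exact (hp m).1
  · obtain ⟨m, hm⟩ := Int.eq_ofNat_of_zero_le (neg_nonneg.2 hk)
    have e : k = -(m : ℤ) := by omega
    rw [e]
    have := (hn m).1
    simpa [sub_eq_add_neg] using this

lemma isIsolated_of_locUnique {ω : Ω} {L : Line} (hL : IsBigeodesic ω L) (hU : LocUnique ω L) :
    IsIsolated ω L := by
  refine ⟨hL, fun M hM ⟨i, j, hij⟩ => ?_⟩
  have h2 := allowed_fwd hM i
  rw [hij] at h2
  rcases hU _ _ h2 with h3 | h3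
  · -- reflected
    have hU' := hU.neg
    have h0' : M i = (fun k => L (-k)) (-j) := by simpa using hij
    have h1' : M (i + 1) = (fun k => L (-k)) (-j + 1) := by
      rw [h3]; simp only; congr 1; ring
    refine ⟨j + i, Or.inr fun k => ?_⟩
    have := follow hU' hM h0' h1' (k - i)
    have e : i + (k - i) = k := by ring
    rw [e] at this
    rw [this]
    congr 1
    ring
  · refine ⟨j - i, Or.inl fun k => ?_⟩
    have := follow hU hM hij h3 (k - i)
    have e : i + (k - i) = k := by ring
    rw [e] at this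
    rw [this]
    congr 1
    ring

lemma isIsolated_iff {ω : Ω} {L : Line} : IsIsolated ω L ↔ IsBigeodesic ω L ∧ LocUnique ω L :=
  ⟨fun h => ⟨h.1, h.locUnique⟩, fun h => isIsolated_of_locUnique h.1 h.2⟩

lemma Allowed.adj {ω : Ω} {u v : V} (h : Allowed ω u v) : Adj u v := by
  obtain ⟨L, hL, h0, h1⟩ := h
  have := hL.adj 0
  rw [zero_add, h0, h1] at this
  exact this

/-! ### The continuation map -/

open Classical in
/-- The continuation of a step `p → q`: the first neighbour `c ≠ p` of `q` such that `(q, c)` lies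
on a bigeodesic. -/
noncomputable def next (ω : Ω) (p q : V) : V :=
  if q + (1, 0) ≠ p ∧ Allowed ω q (q + (1, 0)) then q + (1, 0)
  else if q + (0, 1) ≠ p ∧ Allowed ω q (q + (0, 1)) then q + (0, 1)
  else if q + (-1, 0) ≠ p ∧ Allowed ω q (q + (-1, 0)) then q + (-1, 0)
  else q + (0, -1)

lemma adj_cases {q c : V} (h : Adj q c) :
    c = q + (1, 0) ∨ c = q + (0, 1) ∨ c = q + (-1, 0) ∨ c = q + (0, -1) := by
  unfold Adj dist1 at h
  obtain ⟨q1, q2⟩ := q
  obtain ⟨c1, c2⟩ := c
  simp only [Prod.mk_add_mk, Prod.mk.injEq] at *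
  omega

lemma next_spec {ω : Ω} {p q c : V} (hp : c ≠ p) (ha : Allowed ω q c)
    (huniq : ∀ c', c' ≠ p → Allowed ω q c' → c' = c) : next ω p q = c := by
  unfold next
  split_ifs with h1 h2 h3
  · exact huniq _ h1.1 h1.2
  · exact huniq _ h2.1 h2.2
  · exact huniq _ h3.1 h3.2
  · rcases adj_cases ha.adj with e | e | e | e
    · exact absurd ⟨e ▸ hp, e ▸ ha⟩ h1
    · exact absurd ⟨e ▸ hp, e ▸ ha⟩ h2
    · exact absurd ⟨e ▸ hp, e ▸ ha⟩ h3
    · exact e.symm

/-- Iterated continuation. -/
noncomputable def fwd (ω : Ω) (u v : V) : ℕ → V × V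
  | 0 => (u, v)
  | n + 1 => ((fwd ω u v n).2, next ω (fwd ω u v n).1 (fwd ω u v n).2)

/-- The candidate line through the oriented edge `(u, v)`. -/
noncomputable def lineF (ω : Ω) (u v : V) : Line := fun k =>
  if 0 ≤ k then (fwd ω u v k.toNat).1 else (fwd ω v u (1 - k).toNat).1

lemma next_fwd {ω : Ω} {L : Line} (h : IsIsolated ω L) (k : ℤ) :
    next ω (L k) (L (k + 1)) = L (k + 2) := by
  have e : k + 2 = k + 1 + 1 := by ring
  rw [e]
  refine next_spec (fun h' => ?_) (allowed_fwd h.1 _) ?_
  · have := h.1.inj h'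
    omega
  · intro c' h1 h2
    rcases h.locUnique _ _ h2 with h3 | h3
    · exfalso
      apply h1
      rw [h3]
      congr 1
      ring
    · exact h3

lemma next_back {ω : Ω} {L : Line} (h : IsIsolated ω L) (k : ℤ) :
    next ω (L (k + 1)) (L k) = L (k - 1) := by
  refine next_spec (fun h' => ?_) (allowed_back h.1 _) ?_
  · have := h.1.inj h'
    omega
  · intro c' h1 h2
    rcases h.locUnique _ _ h2 with h3 | h3
    · exact h3
    · exact absurd h3 h1

lemma fwd_eq {ω : Ω} {L : Line} (h : IsIsolated ω L) {u v : V} (h0 : L 0 = u) (h1 : L 1 = v)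
    (n : ℕ) : fwd ω u v n = (L n, L (n + 1)) := by
  induction n with
  | zero => simp [fwd, h0, h1]
  | succ n ih =>
    simp only [fwd, ih]
    rw [next_fwd h]
    push_cast
    congr 2

lemma fwd_back_eq {ω : Ω} {L : Line} (h : IsIsolated ω L) {u v : V} (h0 : L 0 = u) (h1 : L 1 = v)
    (n : ℕ) : fwd ω v u n = (L (1 - n), L (- n)) := by
  induction n with
  | zero => simp [fwd, h0, h1]
  | succ n ih =>
    simp only [fwd, ih]
    have e1 : (1 - (n : ℤ)) = -n + 1 := by ring
    rw [e1, next_back h]
    push_cast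
    congr 2 <;> ring

/-- An isolated bigeodesic is determined by an oriented edge. -/
lemma lineF_eq {ω : Ω} {L : Line} (h : IsIsolated ω L) {u v : V} (h0 : L 0 = u) (h1 : L 1 = v) :
    lineF ω u v = L := by
  funext k
  unfold lineF
  split_ifs with hk
  · rw [fwd_eq h h0 h1]
    simp [Int.toNat_of_nonneg hk]
  · rw [fwd_back_eq h h0 h1]
    have : (((1 - k).toNat : ℕ) : ℤ) = 1 - k := Int.toNat_of_nonneg (by omega)
    simp only [this]
    congr 1
    ring

/-! ### Measurability -/

lemma meas_prop2 {α : Type*} [MeasurableSpace α] (P : V → V → Prop) {x y : α → V}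
    (hx : Measurable x) (hy : Measurable y) : Measurable fun a => P (x a) (y a) :=
  (Measurable.of_discrete (f := fun q : V × V => P q.1 q.2)).comp (hx.prodMk hy)

lemma meas_le_nat {α : Type*} [MeasurableSpace α] (R : ℕ) {x y : α → V}
    (hx : Measurable x) (hy : Measurable y) : Measurable fun a => dist1 (x a) (y a) ≤ R :=
  meas_prop2 (fun a b => dist1 a b ≤ R) hx hy

lemma measurable_next (p q : V) : Measurable fun ω : Ω => next ω p q := by
  classical
  unfold next
  refine Measurable.ite ?_ measurable_const (Measurable.ite ?_ measurable_const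
    (Measurable.ite ?_ measurable_const measurable_const))
  all_goals
    exact measurableSet_setOfPred.2 (measurable_const.and (measurable_allowed _ _))

lemma measurable_next_comp {α : Type*} [MeasurableSpace α] {f : α → Ω} {a b : α → V}
    (hf : Measurable f) (ha : Measurable a) (hb : Measurable b) :
    Measurable fun p => next (f p) (a p) (b p) := by
  have h1 : Measurable fun q : Ω × (V × V) => next q.1 q.2.1 q.2.2 :=
    measurable_from_prod_countable_left fun y => measurable_next y.1 y.2
  exact h1.comp (hf.prodMk (ha.prodMk hb))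

lemma measurable_fwd (u v : V) (n : ℕ) : Measurable fun ω : Ω => fwd ω u v n := by
  induction n with
  | zero => simp [fwd]
  | succ n ih =>
    simp only [fwd]
    exact ih.snd.prodMk (measurable_next_comp measurable_id ih.fst ih.snd)

lemma measurable_lineF (u v : V) : Measurable fun ω : Ω => lineF ω u v := by
  refine measurable_pi_lambda _ fun k => ?_
  unfold lineF
  split_ifs
  · exact (measurable_fwd u v _).fst
  · exact (measurable_fwd v u _).fst

lemma isBigeodesic_iff' {ω : Ω} {L : Line} : IsBigeodesic ω L ↔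
    (∀ k, Adj (L k) (L (k + 1))) ∧ (∀ i j, L i = L j → i = j) ∧
      (∀ i j, i < j → ∑ k ∈ Finset.Ico i j, wt ω (L k) (L (k + 1)) = T ω (L i) (L j)) :=
  ⟨fun h => ⟨h.adj, fun _ _ h' => h.inj h', h.geo⟩, fun h => ⟨h.1, fun _ _ h' => h.2.1 _ _ h', h.2.2⟩⟩

lemma measurable_isBigeodesic_comp {α : Type*} [MeasurableSpace α] {f : α → Ω} {L : α → Line}
    (hf : Measurable f) (hL : Measurable L) : Measurable fun a => IsBigeodesic (f a) (L a) := by
  have hc : ∀ k, Measurable fun a => L a k := fun k => (measurable_pi_apply k).comp hL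
  simp only [isBigeodesic_iff']
  refine Measurable.and ?_ (Measurable.and ?_ ?_)
  · exact Measurable.forall fun k => meas_prop2 Adj (hc k) (hc (k + 1))
  · exact Measurable.forall fun i => Measurable.forall fun j =>
      Measurable.imp (meas_prop2 (fun a b => a = b) (hc i) (hc j)) measurable_const
  · refine Measurable.forall fun i => Measurable.forall fun j => Measurable.imp measurable_const ?_
    refine measurableSet_setOfPred.1 (measurableSet_eq_fun ?_
      (measurable_T_comp hf (hc i) (hc j)))
    exact Finset.measurable_sum _ fun k _ => measurable_wt_comp hf (hc k) (hc (k + 1))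

lemma measurable_isIsolated_comp {α : Type*} [MeasurableSpace α] {f : α → Ω} {L : α → Line}
    (hf : Measurable f) (hL : Measurable L) : Measurable fun a => IsIsolated (f a) (L a) := by
  have hc : ∀ k, Measurable fun a => L a k := fun k => (measurable_pi_apply k).comp hL
  simp only [isIsolated_iff]
  refine (measurable_isBigeodesic_comp hf hL).and ?_
  unfold LocUnique
  refine Measurable.forall fun k => Measurable.forall fun c => Measurable.imp
    (measurable_allowed_comp hf (hc k) measurable_const) ?_
  exact (meas_prop2 (fun a b => c = a) (hc (k - 1)) (hc (k - 1))).or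
    (meas_prop2 (fun a b => c = a) (hc (k + 1)) (hc (k + 1)))

end Vale.Agent.Lib.P158
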