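import Vale.Agent.Lib.P158.K23
import Vale.Agent.Lib.P158.Final

/-!
# The set of vertices on isolated bigeodesics; straight chords between distinct lines
-/

open MeasureTheory Set
open scoped NNReal ENNReal

namespace Vale.Agent.Lib.P158

/-- Vertices on isolated bigeodesics. -/
def Vt (ω : Ω) : Set V := {x | ∃ L, IsIsolated ω L ∧ ∃ k, L k = x}

/-- Two vertices on a common isolated bigeodesic. -/
def SameLn (ω : Ω) (x y : V) : Prop := ∃ L, IsIsolated ω L ∧ (∃ i, L i = x) ∧ ∃ j, L j = y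

lemma mem_Vt_of {ω : Ω} {L : Line} (h : IsIsolated ω L) (k : ℤ) : L k ∈ Vt ω := ⟨L, h, k, rfl⟩

lemma sameLn_self_iff {ω : Ω} {x : V} : SameLn ω x x ↔ x ∈ Vt ω := by
  constructor
  · rintro ⟨L, h, ⟨i, hi⟩, _⟩
    exact ⟨L, h, i, hi⟩
  · rintro ⟨L, h, i, hi⟩
    exact ⟨L, h, ⟨i, hi⟩, ⟨i, hi⟩⟩

lemma SameLn.symm {ω : Ω} {x y : V} (h : SameLn ω x y) : SameLn ω y x := by
  obtain ⟨L, hL, hi, hj⟩ := h
  exact ⟨L, hL, hj, hi⟩

lemma SameLn.left_mem {ω : Ω} {x y : V} (h : SameLn ω x y) : x ∈ Vt ω := by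
  obtain ⟨L, hL, ⟨i, hi⟩, _⟩ := h
  exact ⟨L, hL, i, hi⟩

lemma SameLn.right_mem {ω : Ω} {x y : V} (h : SameLn ω x y) : y ∈ Vt ω := h.symm.left_mem

/-- A vertex on the same line as a vertex of the isolated line `L` is on `L`. -/
lemma IsIsolated.on_of_same {ω : Ω} {L : Line} (hL : IsIsolated ω L) {i : ℤ} {y : V}
    (h : SameLn ω (L i) y) : ∃ j, L j = y := by
  obtain ⟨M, hM, ⟨a, ha⟩, ⟨b, hb⟩⟩ := h
  obtain ⟨c, hc⟩ := hL.2 M hM.1 ⟨a, i, ha⟩
  rcases hc with hc | hc
  · exact ⟨b + c, by rw [← hc, hb]⟩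
  · exact ⟨c - b, by rw [← hc, hb]⟩

lemma SameLn.trans {ω : Ω} {x y z : V} (h1 : SameLn ω x y) (h2 : SameLn ω y z) : SameLn ω x z := by
  obtain ⟨L, hL, hx, ⟨j, hj⟩⟩ := h1
  have h3 : SameLn ω (L j) z := by rw [hj]; exact h2
  obtain ⟨l, hl⟩ := hL.on_of_same h3
  exact ⟨L, hL, hx, ⟨l, hl⟩⟩

/-- Two isolated lines which meet give `SameLn` for any of their vertices. -/
lemma sameLn_of_meet {ω : Ω} {L M : Line} (hL : IsIsolated ω L) (hM : IsIsolated ω M) {p q : ℤ}
    (h : L p = M q) (a b : ℤ) : SameLn ω (L a) (M b) := by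
  have h1 : SameLn ω (L a) (L p) := ⟨L, hL, ⟨a, rfl⟩, ⟨p, rfl⟩⟩
  have h2 : SameLn ω (M q) (M b) := ⟨M, hM, ⟨q, rfl⟩, ⟨b, rfl⟩⟩
  rw [h] at h1
  exact h1.trans h2

lemma sameLn_iff_lineF {ω : Ω} {x y : V} : SameLn ω x y ↔
    ∃ v, IsIsolated ω (lineF ω x v) ∧ lineF ω x v 0 = x ∧ ∃ j, lineF ω x v j = y := by
  constructor
  · rintro ⟨L, hL, ⟨i, hi⟩, ⟨j, hj⟩⟩
    have hL' := hL.shift i
    have e : lineF ω x (L (1 + i)) = fun k => L (k + i) :=
      lineF_eq hL' (by simpa using hi) rfl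
    refine ⟨L (1 + i), ?_, ?_, j - i, ?_⟩
    · rw [e]; exact hL'
    · rw [e]; simpa using hi
    · rw [e]; simpa using hj
  · rintro ⟨v, h1, h2, h3⟩
    exact ⟨_, h1, ⟨0, h2⟩, h3⟩

lemma measurable_sameLn (x y : V) : Measurable fun ω : Ω => SameLn ω x y := by
  simp only [sameLn_iff_lineF]
  refine Measurable.exists fun v => ?_
  have hL : Measurable fun ω : Ω => lineF ω x v := measurable_lineF x v
  have hc : ∀ k, Measurable fun ω : Ω => lineF ω x v k := fun k => (measurable_pi_apply k).comp hL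
  refine (measurable_isIsolated_comp measurable_id hL).and
    ((meas_prop2 (fun a _ => a = x) (hc 0) (hc 0)).and ?_)
  exact Measurable.exists fun j => meas_prop2 (fun a _ => a = y) (hc j) (hc j)

lemma measurable_vt (x : V) : Measurable fun ω : Ω => x ∈ Vt ω := by
  simp only [← sameLn_self_iff]
  exact measurable_sameLn x x

lemma sameLn_theta (z : V) (ω : Ω) (x y : V) :
    SameLn (theta z ω) x y ↔ SameLn ω (x + z) (y + z) := by
  constructor
  · rintro ⟨L, hL, ⟨i, hi⟩, ⟨j, hj⟩⟩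
    have h1 : IsIsolated ω (fun k => L k + z) := by
      rw [← isIsolated_theta_iff z]
      simpa using hL
    exact ⟨_, h1, ⟨i, by simp [hi]⟩, ⟨j, by simp [hj]⟩⟩
  · rintro ⟨L, hL, ⟨i, hi⟩, ⟨j, hj⟩⟩
    exact ⟨_, hL.theta z, ⟨i, by simp [hi]⟩, ⟨j, by simp [hj]⟩⟩

lemma vt_theta (z : V) (ω : Ω) (x : V) : x ∈ Vt (theta z ω) ↔ x + z ∈ Vt ω := by
  rw [← sameLn_self_iff, ← sameLn_self_iff, sameLn_theta]

lemma st_add (x z u : V) (m : ℤ) : st (x + z) u m = st x u m + z := by
  ext <;> simp [st] <;> ring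

lemma st_st (x u : V) (a b : ℤ) : st (st x u a) u b = st x u (a + b) := by
  ext <;> simp [st] <;> ring

/-- A straight chord between two distinct lines: direction `u`, length at most `R`, with no point
of a line inside. -/
def IsChord (ω : Ω) (u : V) (R : ℕ) (x : V) (k : ℤ) : Prop :=
  1 ≤ k ∧ k ≤ R ∧ x ∈ Vt ω ∧ st x u k ∈ Vt ω ∧ (∀ m, 0 < m → m < k → st x u m ∉ Vt ω) ∧
    ¬ SameLn ω x (st x u k)

lemma isChord_theta (z : V) (ω : Ω) (u : V) (R : ℕ) (x : V) (k : ℤ) :
    IsChord (theta z ω) u R x k ↔ IsChord ω u R (x + z) k := by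
  unfold IsChord
  simp only [vt_theta, sameLn_theta, st_add]

lemma measurable_isChord (u : V) (R : ℕ) (x : V) (k : ℤ) :
    Measurable fun ω : Ω => IsChord ω u R x k := by
  unfold IsChord
  refine measurable_const.and (measurable_const.and ((measurable_vt x).and
    ((measurable_vt _).and ?_)))
  refine (Measurable.forall fun m => Measurable.imp measurable_const
    (Measurable.imp measurable_const (measurable_vt _).not)).and (measurable_sameLn _ _).not

/-- The lexicographic order on vertices. -/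
def LexLe (x y : V) : Prop := x.1 < y.1 ∨ (x.1 = y.1 ∧ x.2 ≤ y.2)

lemma lexLe_add (z x y : V) : LexLe (x + z) (y + z) ↔ LexLe x y := by
  unfold LexLe
  simp only [Prod.fst_add, Prod.snd_add, add_lt_add_iff_right, add_left_inj, add_le_add_iff_right]

lemma LexLe.antisymm {x y : V} (h1 : LexLe x y) (h2 : LexLe y x) : x = y := by
  unfold LexLe at h1 h2
  ext <;> omega

lemma exists_lex_min {S : Set V} (hS : S.Finite) (hne : S.Nonempty) :
    ∃ a ∈ S, ∀ b ∈ S, LexLe a b := by
  obtain ⟨a, ha, hmin⟩ := Set.exists_min_image S (fun v : V => toLex v) hS hne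
  refine ⟨a, ha, fun b hb => ?_⟩
  have := hmin b hb
  rw [Prod.Lex.le_iff] at this
  simpa [LexLe] using this

/-- A representative chord: its left end is lexicographically minimal among the left ends of
chords joining the same ordered pair of lines. -/
def IsRep (ω : Ω) (u : V) (R : ℕ) (x : V) : Prop :=
  (∃ k, IsChord ω u R x k) ∧ ∀ k x' k', IsChord ω u R x k → IsChord ω u R x' k' →
    SameLn ω x x' → SameLn ω (st x u k) (st x' u k') → LexLe x x'

lemma isRep_theta (z : V) (ω : Ω) (u : V) (R : ℕ) (x : V) :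
    IsRep (theta z ω) u R x ↔ IsRep ω u R (x + z) := by
  unfold IsRep
  simp only [isChord_theta, sameLn_theta, st_add]
  constructor
  · rintro ⟨h1, h2⟩
    refine ⟨h1, fun k x' k' hc hc' hs hs' => ?_⟩
    have e : x' - z + z = x' := by simp
    have := h2 k (x' - z) k' hc (by rw [e]; exact hc') (by rw [e]; exact hs)
      (by
        have e2 : st (x' - z) u k' + z = st x' u k' := by rw [← st_add, e]
        rw [e2]
        exact hs')
    rw [← lexLe_add z, e] at this
    exact this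
  · rintro ⟨h1, h2⟩
    refine ⟨h1, fun k x' k' hc hc' hs hs' => ?_⟩
    rw [← lexLe_add z]
    exact h2 k (x' + z) k' hc hc' hs (by rw [st_add]; exact hs')

lemma measurable_isRep (u : V) (R : ℕ) (x : V) : Measurable fun ω : Ω => IsRep ω u R x := by
  unfold IsRep
  refine (Measurable.exists fun k => measurable_isChord u R x k).and ?_
  refine Measurable.forall fun k => Measurable.forall fun x' => Measurable.forall fun k' =>
    Measurable.imp (measurable_isChord u R x k) (Measurable.imp (measurable_isChord u R x' k')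
      (Measurable.imp (measurable_sameLn _ _) (Measurable.imp (measurable_sameLn _ _)
        measurable_const)))

/-- Discrete intermediate value theorem. -/
lemma ivt_up (f : ℤ → ℤ) (hf : ∀ k, |f (k + 1) - f k| ≤ 1) (r : ℤ) (n : ℕ) :
    ∀ a, f a ≤ r → r ≤ f (a + n) → ∃ k, f k = r := by
  induction n with
  | zero =>
    intro a h1 h2
    simp only [Nat.cast_zero, add_zero] at h2
    exact ⟨a, le_antisymm h1 h2⟩
  | succ n ih =>
    intro a h1 h2
    by_cases h3 : r ≤ f (a + n)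
    · exact ih a h1 h3
    · refine ⟨a + n + 1, ?_⟩
      have h4 := hf (a + n)
      rw [abs_le] at h4
      have e : a + ((n + 1 : ℕ) : ℤ) = a + n + 1 := by push_cast; ring
      rw [e] at h2
      omega

lemma ivt_int (f : ℤ → ℤ) (hf : ∀ k, |f (k + 1) - f k| ≤ 1) {a b r : ℤ} (h1 : f a ≤ r)
    (h2 : r ≤ f b) : ∃ k, f k = r := by
  rcases le_total a b with hab | hab
  · obtain ⟨n, hn⟩ := Int.eq_ofNat_of_zero_le (sub_nonneg.2 hab)
    refine ivt_up f hf r n a h1 ?_
    have e : a + (n : ℤ) = b := by omega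
    rw [e]; exact h2
  · obtain ⟨n, hn⟩ := Int.eq_ofNat_of_zero_le (sub_nonneg.2 hab)
    have hg : ∀ k, |(fun j => f (-j)) (k + 1) - (fun j => f (-j)) k| ≤ 1 := by
      intro k
      have := hf (-(k + 1))
      have e : -(k + 1) + 1 = -k := by ring
      rw [e, abs_sub_comm] at this
      exact this
    obtain ⟨k, hk⟩ := ivt_up (fun j => f (-j)) hg r n (-a) (by simpa using h1) (by
      have e : -(-a + (n : ℤ)) = b := by omega
      simpa [e] using h2)
    exact ⟨-k, hk⟩

end Vale.Agent.Lib.P158
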