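import Vale.Agent.Lib.P158.Line

/-!
# Mass transport and covariant markings of pairs of near lines
-/

open MeasureTheory Filter Set Topology
open scoped NNReal ENNReal

namespace Vale.Agent.Lib.P158

variable (G : Measure ℝ≥0) [IsProbabilityMeasure G]

/-- The product measure on environments. -/
noncomputable abbrev PP : Measure Ω := Measure.infinitePi (fun _ : E => G)

lemma map_theta (z : V) : (PP G).map (theta z) = PP G :=
  Measure.map_infinitePi_infinitePi_of_inj (f := fun f : E => (f.1 + z, f.2))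
    (fun a b h => by
      simp only [Prod.mk.injEq, add_left_inj] at h
      exact Prod.ext h.1 h.2)

lemma measurePreserving_theta (z : V) : MeasurePreserving (theta z) (PP G) (PP G) :=
  ⟨measurable_theta z, map_theta G z⟩

lemma tsum_indicator_ne_top_finite {α : Type*} {A : Set α}
    (h : (∑' x, A.indicator (fun _ => (1 : ℝ≥0∞)) x) ≠ ⊤) : A.Finite := by
  by_contra hinf
  apply h
  have hinf' : Infinite A := Set.infinite_coe_iff.2 hinf
  rw [← tsum_subtype A (fun _ => (1 : ℝ≥0∞))]
  exact ENNReal.tsum_const_eq_top_of_ne_zero one_ne_zero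

lemma tsum_indicator_subsingleton {α : Type*} {A : Set α} (h : A.Subsingleton) :
    (∑' x, A.indicator (fun _ => (1 : ℝ≥0∞)) x) ≤ 1 := by
  classical
  rcases A.eq_empty_or_nonempty with rfl | ⟨a, ha⟩
  · simp
  · rw [tsum_eq_single a]
    · simp [ha]
    · intro b hb
      have : b ∉ A := fun hb' => hb (h hb' ha)
      simp [this]

/-- The mass-transport principle on `ℤ²`, in the form used here: if every source sends to at most
one target, covariantly and measurably, then almost surely every target has finitely many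
sources. -/
theorem mtp_finite {Q : V → V → Ω → Prop} (hm : ∀ x y, Measurable (Q x y))
    (hcov : ∀ x y z ω, Q (x + z) (y + z) ω ↔ Q x y (theta z ω))
    (huniq : ∀ x ω y y', Q x y ω → Q x y' ω → y = y') :
    ∀ᵐ ω ∂(PP G), ∀ y, {x | Q x y ω}.Finite := by
  classical
  have hms : ∀ x y, MeasurableSet {ω | Q x y ω} := fun x y => measurableSet_setOfPred.2 (hm x y)
  -- translation invariance of the mass
  have hg : ∀ x y z, PP G {ω | Q (x + z) (y + z) ω} = PP G {ω | Q x y ω} := by
    intro x y z
    have e : {ω | Q (x + z) (y + z) ω} = theta z ⁻¹' {ω | Q x y ω} := by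
      ext ω
      exact hcov x y z ω
    rw [e, (measurePreserving_theta G z).measure_preimage (hms x y).nullMeasurableSet]
  have hind1 : ∀ x y : V, (fun ω => {x | Q x y ω}.indicator (fun _ => (1 : ℝ≥0∞)) x) =
      {ω | Q x y ω}.indicator 1 := by
    intro x y
    funext ω
    by_cases h : Q x y ω <;> simp [Set.indicator, h]
  have hind2 : ∀ x y : V, (fun ω => {y | Q x y ω}.indicator (fun _ => (1 : ℝ≥0∞)) y) =
      {ω | Q x y ω}.indicator 1 := by
    intro x y
    funext ω
    by_cases h : Q x y ω <;> simp [Set.indicator, h]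
  -- first moment
  have hint : ∫⁻ ω, ∑' x, {x | Q x 0 ω}.indicator (fun _ => (1 : ℝ≥0∞)) x ∂(PP G) ≤ 1 := by
    rw [lintegral_tsum]
    · have e1 : ∀ x : V, ∫⁻ ω, {x | Q x 0 ω}.indicator (fun _ => (1 : ℝ≥0∞)) x ∂(PP G) =
          PP G {ω | Q x 0 ω} := by
        intro x
        rw [hind1, lintegral_indicator_one (hms x 0)]
      simp_rw [e1]
      have e2 : ∀ x : V, PP G {ω | Q x 0 ω} = PP G {ω | Q 0 (-x) ω} := by
        intro x
        have := hg 0 (-x) x
        simp only [zero_add, neg_add_cancel] at this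
        exact this
      simp_rw [e2]
      have e3 : (∑' x : V, PP G {ω | Q 0 (-x) ω}) = ∑' y : V, PP G {ω | Q 0 y ω} :=
        (Equiv.neg V).tsum_eq (fun y => PP G {ω | Q 0 y ω})
      rw [e3]
      have e4 : ∀ y : V, PP G {ω | Q 0 y ω} =
          ∫⁻ ω, {y | Q 0 y ω}.indicator (fun _ => (1 : ℝ≥0∞)) y ∂(PP G) := by
        intro y
        rw [hind2, lintegral_indicator_one (hms 0 y)]
      simp_rw [e4]
      rw [← lintegral_tsum]
      · calc ∫⁻ ω, ∑' y, {y | Q 0 y ω}.indicator (fun _ => (1 : ℝ≥0∞)) y ∂(PP G)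
            ≤ ∫⁻ _, 1 ∂(PP G) := by
              refine lintegral_mono fun ω => ?_
              exact tsum_indicator_subsingleton fun a ha b hb => huniq 0 ω a b ha hb
          _ = 1 := by simp
      · intro y
        rw [hind2]
        exact (measurable_one.indicator (hms 0 y)).aemeasurable
    · intro x
      rw [hind1]
      exact (measurable_one.indicator (hms x 0)).aemeasurable
  have hae : ∀ᵐ ω ∂(PP G), (∑' x, {x | Q x 0 ω}.indicator (fun _ => (1 : ℝ≥0∞)) x) ≠ ⊤ := by
    refine ae_lt_top' ?_ (lt_of_le_of_lt hint ENNReal.one_lt_top).ne |>.mono fun ω h => h.ne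
    refine AEMeasurable.tsum fun x => ?_
    rw [hind1]
    exact (measurable_one.indicator (hms x 0)).aemeasurable
  have hfin0 : ∀ᵐ ω ∂(PP G), {x | Q x 0 ω}.Finite :=
    hae.mono fun ω h => tsum_indicator_ne_top_finite h
  rw [ae_all_iff]
  intro y
  have h2 := (measurePreserving_theta G y).quasiMeasurePreserving.ae hfin0
  refine h2.mono fun ω h => ?_
  have e : {x | Q x y ω} = (fun x => x + y) '' {x | Q x 0 (theta y ω)} := by
    ext x
    simp only [Set.mem_ofPred_eq, Set.mem_image]
    constructor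
    · intro hx
      refine ⟨x - y, ?_, by simp⟩
      have := (hcov (x - y) 0 y ω).1
      apply this
      simpa using hx
    · rintro ⟨w, hw, rfl⟩
      have := (hcov w 0 y ω).2 hw
      simpa using this
  rw [e]
  exact h.image _

/-- The two lines come within distance `R` of each other infinitely often. -/
def NearInf (R : ℕ) (L M : Line) : Prop := {p : ℤ × ℤ | dist1 (L p.1) (M p.2) ≤ R}.Infinite

lemma nearInf_iff {R : ℕ} {L M : Line} :
    NearInf R L M ↔ ∀ n : ℕ, ∃ i j : ℤ, n ≤ i.natAbs + j.natAbs ∧ dist1 (L i) (M j) ≤ R := by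
  unfold NearInf
  constructor
  · intro h n
    by_contra hcon
    push Not at hcon
    apply h
    apply (Set.finite_Icc ((-(n : ℤ), -(n : ℤ)) : ℤ × ℤ) ((n : ℤ), (n : ℤ))).subset
    rintro ⟨i, j⟩ hp
    simp only [Set.mem_ofPred_eq] at hp
    have h3 : i.natAbs + j.natAbs < n := by
      by_contra h4
      exact absurd hp (not_le.2 (hcon i j (not_lt.1 h4)))
    constructor
    · exact Prod.mk_le_mk.2 ⟨by omega, by omega⟩
    · exact Prod.mk_le_mk.2 ⟨by omega, by omega⟩
  · intro h hfin
    have hfin2 := hfin.image (fun p : ℤ × ℤ => p.1.natAbs + p.2.natAbs)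
    obtain ⟨b, hb⟩ := hfin2.bddAbove
    obtain ⟨i, j, h1, h2⟩ := h (b + 1)
    have := hb (Set.mem_image_of_mem _ (show (i, j) ∈ {p : ℤ × ℤ | dist1 (L p.1) (M p.2) ≤ R} from h2))
    simp only at this
    omega

lemma nearInf_shift {R : ℕ} {L M : Line} (h : NearInf R L M) (a b : ℤ) :
    NearInf R (fun k => L (k + a)) (fun k => M (k + b)) := by
  rw [nearInf_iff] at h ⊢
  intro n
  obtain ⟨i, j, h1, h2⟩ := h (n + a.natAbs + b.natAbs)
  exact ⟨i - a, j - b, by omega, by simpa using h2⟩

lemma nearInf_theta {R : ℕ} {L M : Line} (z : V) :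
    NearInf R (fun k => L k - z) (fun k => M k - z) ↔ NearInf R L M := by
  have e : ∀ x y : V, dist1 (x - z) (y - z) = dist1 x y := by
    intro x y
    unfold dist1
    simp
  unfold NearInf
  simp only [e]

lemma nearInf_symm {R : ℕ} {L M : Line} (h : NearInf R L M) : NearInf R M L := by
  rw [nearInf_iff] at h ⊢
  intro n
  obtain ⟨i, j, h1, h2⟩ := h n
  exact ⟨j, i, by omega, by rwa [dist1_comm]⟩

lemma nearInf_neg_left {R : ℕ} {L M : Line} (h : NearInf R L M) :
    NearInf R (fun k => L (-k)) M := by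
  rw [nearInf_iff] at h ⊢
  intro n
  obtain ⟨i, j, h1, h2⟩ := h n
  exact ⟨-i, j, by omega, by simpa using h2⟩

lemma measurable_nearInf_comp {α : Type*} [MeasurableSpace α] {R : ℕ} {L M : α → Line}
    (hL : Measurable L) (hM : Measurable M) : Measurable fun a => NearInf R (L a) (M a) := by
  simp only [nearInf_iff]
  refine Measurable.forall fun n => Measurable.exists fun i => Measurable.exists fun j => ?_
  exact measurable_const.and (meas_le_nat R ((measurable_pi_apply i).comp hL)
    ((measurable_pi_apply j).comp hM))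

/-- A covariant marking of pairs of lines: at most one marked vertex per pair of bigeodesics. -/
structure Marking (Mk : Ω → Line → Line → V → Prop) : Prop where
  meas : ∀ y, Measurable fun p : Ω × Line × Line => Mk p.1 p.2.1 p.2.2 y
  cov : ∀ z ω L M y, Mk (theta z ω) (fun k => L k - z) (fun k => M k - z) y ↔ Mk ω L M (y + z)
  shift : ∀ ω L M a b y, IsBigeodesic ω L → IsBigeodesic ω M →
    (Mk ω (fun k => L (k + a)) (fun k => M (k + b)) y ↔ Mk ω L M y)
  uniq : ∀ ω L M y y', IsBigeodesic ω L → IsBigeodesic ω M → Mk ω L M y → Mk ω L M y' → y = y'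

/-- The pair predicate for a marking, given the labels. -/
def PairQ (Mk : Ω → Line → Line → V → Prop) (R : ℕ) (a d b : V) (x y : V) (ω : Ω)
    (L M : Line) : Prop :=
  IsIsolated ω L ∧ IsIsolated ω M ∧ L 0 = x ∧ L 1 = x + a ∧ M 0 = x + d ∧ M 1 = x + d + b ∧
    (∀ i j, L i ≠ M j) ∧ NearInf R L M ∧ Mk ω L M y

variable {G}

/-- A near pair of disjoint isolated bigeodesics carries no covariant marking. -/
theorem no_marking {Mk : Ω → Line → Line → V → Prop} (hMk : Marking Mk) (R : ℕ) :
    ∀ᵐ ω ∂(PP G), ∀ L M, IsIsolated ω L → IsIsolated ω M → (∀ i j, L i ≠ M j) → NearInf R L M →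
      ∀ y, ¬ Mk ω L M y := by
  classical
  -- the labelled transport relation
  let Q : V × V × V → V → V → Ω → Prop := fun l x y ω => ∃ L M, PairQ Mk R l.1 l.2.1 l.2.2 x y ω L M
  have hQiff : ∀ l x y ω, Q l x y ω ↔ PairQ Mk R l.1 l.2.1 l.2.2 x y ω
      (lineF ω x (x + l.1)) (lineF ω (x + l.2.1) (x + l.2.1 + l.2.2)) := by
    rintro l x y ω
    constructor
    · rintro ⟨L, M, hPQ⟩
      have h1 := lineF_eq hPQ.1 hPQ.2.2.1 hPQ.2.2.2.1
      have h2 := lineF_eq hPQ.2.1 hPQ.2.2.2.2.1 hPQ.2.2.2.2.2.1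
      rw [h1, h2]
      exact hPQ
    · exact fun h => ⟨_, _, h⟩
  have hQm : ∀ l x y, Measurable (Q l x y) := by
    intro l x y
    have hL : Measurable fun ω : Ω => lineF ω x (x + l.1) := measurable_lineF _ _
    have hM : Measurable fun ω : Ω => lineF ω (x + l.2.1) (x + l.2.1 + l.2.2) := measurable_lineF _ _
    have he : Q l x y = fun ω => PairQ Mk R l.1 l.2.1 l.2.2 x y ω
      (lineF ω x (x + l.1)) (lineF ω (x + l.2.1) (x + l.2.1 + l.2.2)) := by
      funext ω
      exact propext (hQiff l x y ω)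
    rw [he]
    unfold PairQ
    have hc1 : ∀ k, Measurable fun ω : Ω => lineF ω x (x + l.1) k :=
      fun k => (measurable_pi_apply k).comp hL
    have hc2 : ∀ k, Measurable fun ω : Ω => lineF ω (x + l.2.1) (x + l.2.1 + l.2.2) k :=
      fun k => (measurable_pi_apply k).comp hM
    refine (measurable_isIsolated_comp measurable_id hL).and
      ((measurable_isIsolated_comp measurable_id hM).and
      ((meas_prop2 (fun a _ => a = x) (hc1 0) (hc1 0)).and
      ((meas_prop2 (fun a _ => a = x + l.1) (hc1 1) (hc1 1)).and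
      ((meas_prop2 (fun a _ => a = x + l.2.1) (hc2 0) (hc2 0)).and
      ((meas_prop2 (fun a _ => a = x + l.2.1 + l.2.2) (hc2 1) (hc2 1)).and
      ((Measurable.forall fun i => Measurable.forall fun j =>
        (meas_prop2 (fun a b => a = b) (hc1 i) (hc2 j)).not).and
      ((measurable_nearInf_comp hL hM).and ?_)))))))
    exact (hMk.meas y).comp (measurable_id.prodMk (hL.prodMk hM))
  have hQcov : ∀ l x y z ω, Q l (x + z) (y + z) ω ↔ Q l x y (theta z ω) := by
    rintro l x y z ω
    have hdisj : ∀ (L M : Line), (∀ i j, L i ≠ M j) ↔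
        (∀ i j, (fun k => L k - z) i ≠ (fun k => M k - z) j) := by
      intro L M
      constructor
      · intro h i j hij
        exact h i j (by simpa using hij)
      · intro h i j hij
        exact h i j (by simp [hij])
    constructor
    · rintro ⟨L, M, h1, h2, h3, h4, h5, h6, h7, h8, h9⟩
      refine ⟨fun k => L k - z, fun k => M k - z, h1.theta z, h2.theta z, ?_, ?_, ?_, ?_,
        (hdisj L M).1 h7, (nearInf_theta z).2 h8, (hMk.cov z ω L M y).2 h9⟩
      · simp [h3]
      · simp only [h4]; abel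
      · simp only [h5]; abel
      · simp only [h6]; abel
    · rintro ⟨L', M', h1, h2, h3, h4, h5, h6, h7, h8, h9⟩
      have eL : (fun k => L' k + z - z) = L' := by funext k; simp
      have eM : (fun k => M' k + z - z) = M' := by funext k; simp
      refine ⟨fun k => L' k + z, fun k => M' k + z, (isIsolated_theta_iff z ω _).1 ?_,
        (isIsolated_theta_iff z ω _).1 ?_, ?_, ?_, ?_, ?_, (hdisj _ _).2 ?_,
        (nearInf_theta z).1 ?_, (hMk.cov z ω _ _ y).1 ?_⟩
      · simp only [eL]; exact h1
      · simp only [eM]; exact h2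
      · simp only [h3]
      · simp only [h4]; abel
      · simp only [h5]; abel
      · simp only [h6]; abel
      · simp only [add_sub_cancel_right]; exact h7
      · simp only [eL, eM]; exact h8
      · simp only [eL, eM]; exact h9
  have hQuniq : ∀ l x ω y y', Q l x y ω → Q l x y' ω → y = y' := by
    intro l x ω y y' h h'
    rw [hQiff] at h h'
    exact hMk.uniq ω _ _ y y' h.1.1 h.2.1.1 h.2.2.2.2.2.2.2.2 h'.2.2.2.2.2.2.2.2
  have hae := ae_all_iff.2 fun l : V × V × V => mtp_finite (G := G) (Q := Q l) (hQm l) (hQcov l)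
    (hQuniq l)
  refine hae.mono fun ω hω L M hL hM hdis hnear y hy => ?_
  -- the labels of the near pairs
  let N : Set (ℤ × ℤ) := {p | dist1 (L p.1) (M p.2) ≤ R}
  have hNinf : N.Infinite := hnear
  let lab : ℤ × ℤ → V × V × V := fun p =>
    (L (p.1 + 1) - L p.1, M p.2 - L p.1, M (p.2 + 1) - M p.2)
  have hdiff : ∀ (u v : V), Adj u v → dist1 0 (v - u) ≤ 1 := by
    intro u v huv
    unfold Adj at huv
    unfold dist1 at huv ⊢
    simp only [Prod.fst_sub, Prod.snd_sub, Prod.fst_zero, Prod.snd_zero] at *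
    omega
  have hlabfin : (lab '' N).Finite := by
    apply (((finite_ball 0 1).prod ((finite_ball 0 R).prod (finite_ball 0 1)))).subset
    rintro _ ⟨p, hp, rfl⟩
    refine ⟨hdiff _ _ (hL.1.adj _), ?_, hdiff _ _ (hM.1.adj _)⟩
    have hp' : dist1 (L p.1) (M p.2) ≤ R := hp
    show dist1 0 (M p.2 - L p.1) ≤ R
    unfold dist1 at hp' ⊢
    simp only [Prod.fst_sub, Prod.snd_sub, Prod.fst_zero, Prod.snd_zero]
    omega
  -- an infinite fibre
  obtain ⟨l, hlinf⟩ : ∃ l, (N ∩ lab ⁻¹' {l}).Infinite := by
    by_contra hcon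
    push Not at hcon
    apply hNinf
    have : N ⊆ ⋃ l ∈ lab '' N, (N ∩ lab ⁻¹' {l}) := by
      intro p hp
      simp only [Set.mem_iUnion]
      exact ⟨lab p, Set.mem_image_of_mem _ hp, hp, rfl⟩
    refine Set.Finite.subset (hlabfin.biUnion fun l _ => ?_) this
    exact hcon l
  -- each element of the fibre gives a source
  have hsrc : ∀ p ∈ N ∩ lab ⁻¹' {l}, L p.1 ∈ {x | Q l x y ω} := by
    rintro ⟨j, i⟩ ⟨hp, hl⟩
    simp only [Set.mem_preimage, Set.mem_singleton_iff] at hl
    refine ⟨fun k => L (k + j), fun k => M (k + i), hL.shift j, hM.shift i, ?_, ?_, ?_, ?_, ?_, ?_, ?_⟩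
    · simp
    · simp only [← hl, lab]
      rw [add_sub_cancel]
      congr 1
      ring
    · simp only [← hl, lab]
      rw [zero_add, add_sub_cancel]
    · simp only [← hl, lab]
      rw [add_sub_cancel, add_sub_cancel]
      congr 1
      ring
    · intro a b
      exact hdis _ _
    · exact nearInf_shift hnear j i
    · exact (hMk.shift ω L M j i y hL.1 hM.1).2 hy
  have hinj : Set.InjOn (fun p : ℤ × ℤ => L p.1) (N ∩ lab ⁻¹' {l}) := by
    rintro ⟨j, i⟩ ⟨_, h1⟩ ⟨j', i'⟩ ⟨_, h2⟩ h
    simp only at h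
    have hj : j = j' := hL.1.inj h
    subst hj
    simp only [Set.mem_preimage, Set.mem_singleton_iff, lab] at h1 h2
    have e1 : M i - L j = M i' - L j := by
      have := congrArg (fun t : V × V × V => t.2.1) (h1.trans h2.symm)
      simpa using this
    have : M i = M i' := sub_left_inj.1 e1
    rw [hM.1.inj this]
  have hsub : (fun p : ℤ × ℤ => L p.1) '' (N ∩ lab ⁻¹' {l}) ⊆ {x | Q l x y ω} := by
    rintro _ ⟨p, hp, rfl⟩
    exact hsrc p hp
  exact (hlinf.image hinj) ((hω l y).subset hsub)

end Vale.Agent.Lib.P158
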