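import Vale.Agent.Lib.P158.BlockThm

/-!
# No isolated bigeodesic
-/

open MeasureTheory Set ProbabilityTheory
open scoped NNReal ENNReal

namespace Vale.Agent.Lib.P158

/-- A vertex from which a window of `N` steps of an isolated line has small passage time. -/
def BadW (N : ℕ) (A : ℝ) (ω : Ω) (x : V) : Prop :=
  ∃ L, IsIsolated ω L ∧ L 0 = x ∧ T ω x (L N) ≤ A

lemma badW_iff {N : ℕ} {A : ℝ} {ω : Ω} {x : V} : BadW N A ω x ↔
    ∃ v, IsIsolated ω (lineF ω x v) ∧ lineF ω x v 0 = x ∧ T ω x (lineF ω x v N) ≤ A := by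
  constructor
  · rintro ⟨L, hL, h0, h1⟩
    have e : lineF ω x (L 1) = L := lineF_eq hL h0 rfl
    exact ⟨L 1, by rw [e]; exact hL, by rw [e]; exact h0, by rw [e]; exact h1⟩
  · rintro ⟨v, h1, h2, h3⟩
    exact ⟨_, h1, h2, h3⟩

lemma measurable_badW (N : ℕ) (A : ℝ) (x : V) : Measurable fun ω : Ω => BadW N A ω x := by
  simp only [badW_iff]
  refine Measurable.exists fun v => ?_
  have hL : Measurable fun ω : Ω => lineF ω x v := measurable_lineF x v
  have hc : ∀ k, Measurable fun ω : Ω => lineF ω x v k := fun k => (measurable_pi_apply k).comp hL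
  refine (measurable_isIsolated_comp measurable_id hL).and
    ((meas_prop2 (fun a _ => a = x) (hc 0) (hc 0)).and ?_)
  exact measurableSet_setOfPred.1 (measurableSet_le
    (measurable_T_comp measurable_id measurable_const (hc N)) measurable_const)

lemma isolated_of_theta {z : V} {ω : Ω} {L : Line} (h : IsIsolated (theta z ω) L) :
    IsIsolated ω (fun k => L k + z) := by
  rw [← isIsolated_theta_iff z]
  simpa using h

lemma badW_theta (N : ℕ) (A : ℝ) (z : V) (ω : Ω) (x : V) :
    BadW N A (theta z ω) x ↔ BadW N A ω (x + z) := by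
  constructor
  · rintro ⟨L, hL, h0, h1⟩
    refine ⟨_, isolated_of_theta hL, by simp [h0], ?_⟩
    rw [T_theta] at h1
    exact h1
  · rintro ⟨L, hL, h0, h1⟩
    refine ⟨_, hL.theta z, by simp [h0], ?_⟩
    rw [T_theta]
    simpa using h1

/-- The vertex `z` has an incident light edge. -/
def Light (ε : ℝ) (ω : Ω) (z : V) : Prop := ∃ c, Adj z c ∧ wt ω z c < ε

/-- The transport relation: `x` sends mass to the vertices of its window which start a light
edge. -/
def Tr (N : ℕ) (A ε : ℝ) (x y : V) (ω : Ω) : Prop :=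
  ∃ L, IsIsolated ω L ∧ L 0 = x ∧ T ω x (L N) ≤ A ∧
    ∃ j : ℤ, 0 ≤ j ∧ j < N ∧ L j = y ∧ wt ω y (L (j + 1)) < ε

lemma tr_iff {N : ℕ} {A ε : ℝ} {x y : V} {ω : Ω} : Tr N A ε x y ω ↔
    ∃ v, IsIsolated ω (lineF ω x v) ∧ lineF ω x v 0 = x ∧ T ω x (lineF ω x v N) ≤ A ∧
      ∃ j : ℤ, 0 ≤ j ∧ j < N ∧ lineF ω x v j = y ∧ wt ω y (lineF ω x v (j + 1)) < ε := by
  constructor
  · rintro ⟨L, hL, h0, h1, h2⟩
    have e : lineF ω x (L 1) = L := lineF_eq hL h0 rfl
    exact ⟨L 1, by rw [e]; exact hL, by rw [e]; exact h0, by rw [e]; exact h1, by rw [e]; exact h2⟩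
  · rintro ⟨v, h1, h2, h3, h4⟩
    exact ⟨_, h1, h2, h3, h4⟩

lemma measurable_tr (N : ℕ) (A ε : ℝ) (x y : V) : Measurable (Tr N A ε x y) := by
  have : Tr N A ε x y = fun ω => ∃ v, IsIsolated ω (lineF ω x v) ∧ lineF ω x v 0 = x ∧
      T ω x (lineF ω x v N) ≤ A ∧
      ∃ j : ℤ, 0 ≤ j ∧ j < N ∧ lineF ω x v j = y ∧ wt ω y (lineF ω x v (j + 1)) < ε := by
    funext ω
    exact propext tr_iff
  rw [this]
  refine Measurable.exists fun v => ?_
  have hL : Measurable fun ω : Ω => lineF ω x v := measurable_lineF x v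
  have hc : ∀ k, Measurable fun ω : Ω => lineF ω x v k := fun k => (measurable_pi_apply k).comp hL
  refine (measurable_isIsolated_comp measurable_id hL).and
    ((meas_prop2 (fun a _ => a = x) (hc 0) (hc 0)).and (Measurable.and ?_ ?_))
  · exact measurableSet_setOfPred.1 (measurableSet_le
      (measurable_T_comp measurable_id measurable_const (hc N)) measurable_const)
  · refine Measurable.exists fun j => measurable_const.and (measurable_const.and
      ((meas_prop2 (fun a _ => a = y) (hc j) (hc j)).and ?_))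
    exact measurableSet_setOfPred.1 (measurableSet_lt
      (measurable_wt_comp measurable_id measurable_const (hc (j + 1))) measurable_const)

lemma tr_theta (N : ℕ) (A ε : ℝ) (x y z : V) (ω : Ω) :
    Tr N A ε (x + z) (y + z) ω ↔ Tr N A ε x y (theta z ω) := by
  constructor
  · rintro ⟨L, hL, h0, h1, j, h2, h3, h4, h5⟩
    refine ⟨_, hL.theta z, by simp [h0], ?_, j, h2, h3, by simp [h4], ?_⟩
    · rw [T_theta]
      simpa using h1
    · rw [wt_theta]
      simpa using h5
  · rintro ⟨L, hL, h0, h1, j, h2, h3, h4, h5⟩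
    refine ⟨_, isolated_of_theta hL, by simp [h0], ?_, j, h2, h3, by simp [h4], ?_⟩
    · rw [T_theta] at h1
      exact h1
    · rw [wt_theta] at h5
      exact h5

variable (G : Measure ℝ≥0) [IsProbabilityMeasure G]

/-- The general mass-transport principle. -/
theorem mtp_sum {f : V → V → Ω → ℝ≥0∞} (hm : ∀ x y, Measurable (f x y))
    (hcov : ∀ x y z ω, f (x + z) (y + z) ω = f x y (theta z ω)) :
    ∫⁻ ω, ∑' y, f 0 y ω ∂(PP G) = ∫⁻ ω, ∑' x, f x 0 ω ∂(PP G) := by
  rw [lintegral_tsum fun y => (hm 0 y).aemeasurable, lintegral_tsum fun x => (hm x 0).aemeasurable]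
  have h : ∀ y : V, ∫⁻ ω, f 0 y ω ∂(PP G) = ∫⁻ ω, f (-y) 0 ω ∂(PP G) := by
    intro y
    have e : (fun ω => f 0 y ω) = fun ω => f (-y) 0 (theta y ω) := by
      funext ω
      rw [← hcov]
      simp
    rw [e, ← (measurePreserving_theta G y).lintegral_comp (hm (-y) 0)]
  simp_rw [h]
  exact (Equiv.neg V).tsum_eq fun x => ∫⁻ ω, f x 0 ω ∂(PP G)

open Classical in
/-- The transport bound for bad vertices. -/
theorem bad_le_light {N : ℕ} {A ε : ℝ} (hε : 0 < ε) (hN : 2 * A ≤ N * ε) :
    (N : ℝ≥0∞) * PP G {ω | BadW N A ω 0} ≤ 2 * (2 * N * PP G {ω | Light ε ω 0}) := by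
  set f : V → V → Ω → ℝ≥0∞ := fun x y ω => if Tr N A ε x y ω then 1 else 0 with hf
  have hfm : ∀ x y, Measurable (f x y) := fun x y =>
    Measurable.ite (measurableSet_setOfPred.2 (measurable_tr N A ε x y)) measurable_const
      measurable_const
  have hcov : ∀ x y z ω, f (x + z) (y + z) ω = f x y (theta z ω) := by
    intro x y z ω
    simp only [hf, tr_theta]
  have hmtp := mtp_sum G hfm hcov
  -- the mass sent out
  have hout : ∀ ω, (N : ℝ≥0∞) * (if BadW N A ω 0 then 1 else 0) ≤ 2 * ∑' y, f 0 y ω := by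
    intro ω
    by_cases hb : BadW N A ω 0
    · rw [if_pos hb, mul_one]
      obtain ⟨L, hL, h0, h1⟩ := hb
      set I := Finset.Ico (0 : ℤ) N with hI
      set Li := I.filter fun j => wt ω (L j) (L (j + 1)) < ε with hLi
      set He := I.filter fun j => ¬ wt ω (L j) (L (j + 1)) < ε with hHe
      have hcard : Li.card + He.card = N := by
        rw [Finset.card_filter_add_card_filter_not, hI]
        simp
      have hsum : ∑ k ∈ I, wt ω (L k) (L (k + 1)) = T ω (L 0) (L N) :=
        hL.1.geo' (by positivity)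
      rw [h0] at hsum
      have hHe2 : (He.card : ℝ) * ε ≤ A := by
        calc (He.card : ℝ) * ε = ∑ _k ∈ He, ε := by simp
          _ ≤ ∑ k ∈ He, wt ω (L k) (L (k + 1)) := Finset.sum_le_sum fun k hk =>
              not_lt.1 (Finset.mem_filter.1 hk).2
          _ ≤ ∑ k ∈ I, wt ω (L k) (L (k + 1)) :=
              Finset.sum_le_sum_of_subset_of_nonneg (Finset.filter_subset _ _)
                (fun k _ _ => wt_nonneg ω _ _)
          _ ≤ A := by rw [hsum]; exact h1
      have hHe3 : 2 * He.card ≤ N := by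
        have : (2 * He.card : ℝ) * ε ≤ N * ε := by nlinarith
        have := le_of_mul_le_mul_right this hε
        exact_mod_cast this
      have hLi2 : N ≤ 2 * Li.card := by omega
      have hsub : ∀ z ∈ Li.image L, f 0 z ω = 1 := by
        intro z hz
        obtain ⟨j, hj, rfl⟩ := Finset.mem_image.1 hz
        have hj' := Finset.mem_filter.1 hj
        have hj'' := Finset.mem_Ico.1 hj'.1
        simp only [hf]
        rw [if_pos]
        exact ⟨L, hL, h0, h1, j, hj''.1, hj''.2, rfl, hj'.2⟩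
      have hcardimg : (Li.image L).card = Li.card :=
        Finset.card_image_of_injective _ hL.1.inj
      have h2 : (Li.card : ℝ≥0∞) ≤ ∑' y, f 0 y ω := by
        calc (Li.card : ℝ≥0∞) = ∑ z ∈ Li.image L, f 0 z ω := by
              rw [Finset.sum_congr rfl hsub]
              simp [hcardimg]
          _ ≤ ∑' y, f 0 y ω := ENNReal.sum_le_tsum _
      calc (N : ℝ≥0∞) ≤ ((2 * Li.card : ℕ) : ℝ≥0∞) := by exact_mod_cast hLi2
        _ = 2 * (Li.card : ℝ≥0∞) := by push_cast; ring
        _ ≤ 2 * ∑' y, f 0 y ω := by gcongr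
    · rw [if_neg hb]
      simp
  -- the mass received
  have hin : ∀ ω, ∑' x, f x 0 ω ≤ 2 * N * (if Light ε ω 0 then 1 else 0) := by
    intro ω
    by_cases hex : ∃ x, Tr N A ε x 0 ω
    · obtain ⟨x₀, L₀, hL₀, h0, h1, j₀, h2, h3, h4, h5⟩ := hex
      have hlight : Light ε ω 0 := by
        refine ⟨L₀ (j₀ + 1), ?_, h5⟩
        have := hL₀.1.adj j₀
        rwa [h4] at this
      rw [if_pos hlight, mul_one]
      set S := (Finset.Ioo (j₀ - N) (j₀ + N)).image L₀ with hS
      have hsupp : ∀ x, x ∉ S → f x 0 ω = 0 := by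
        intro x hx
        simp only [hf]
        rw [if_neg]
        rintro ⟨L, hL, a0, _, j, a2, a3, a4, _⟩
        apply hx
        obtain ⟨c, hc⟩ := hL₀.2 L hL.1 ⟨j, j₀, a4.trans h4.symm⟩
        rcases hc with hc | hc
        · -- `L k = L₀ (k + c)`
          have e : j + c = j₀ := hL₀.1.inj (by rw [← hc, a4, h4])
          refine Finset.mem_image.2 ⟨j₀ - j, ?_, ?_⟩
          · simp only [Finset.mem_Ioo]
            omega
          · rw [← a0, hc 0]
            congr 1
            omega
        · have e : c - j = j₀ := hL₀.1.inj (by rw [← hc, a4, h4])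
          refine Finset.mem_image.2 ⟨j₀ + j, ?_, ?_⟩
          · simp only [Finset.mem_Ioo]
            omega
          · rw [← a0, hc 0]
            congr 1
            omega
      rw [tsum_eq_sum (s := S) (fun x hx => hsupp x hx)]
      calc ∑ x ∈ S, f x 0 ω ≤ ∑ _x ∈ S, (1 : ℝ≥0∞) := Finset.sum_le_sum fun x _ => by
            simp only [hf]
            split_ifs <;> simp
        _ = (S.card : ℝ≥0∞) := by simp
        _ ≤ 2 * N := by
            have h6 : S.card ≤ 2 * N := by
              refine Finset.card_image_le.trans ?_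
              rw [Int.card_Ioo]
              omega
            exact_mod_cast h6
    · have hzero : ∀ x, f x 0 ω = 0 := by
        intro x
        simp only [hf]
        rw [if_neg fun h => hex ⟨x, h⟩]
      simp [hzero]
  have hBm : MeasurableSet {ω | BadW N A ω 0} :=
    measurableSet_setOfPred.2 (measurable_badW N A 0)
  have hLm : MeasurableSet {ω : Ω | Light ε ω 0} := by
    have : {ω : Ω | Light ε ω 0} = ⋃ c : V, {ω | Adj 0 c} ∩ {ω | wt ω 0 c < ε} := by
      ext ω
      simp [Light]
    rw [this]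
    refine MeasurableSet.iUnion fun c => (MeasurableSet.const _).inter ?_
    exact measurableSet_lt (measurable_wt _ _) measurable_const
  calc (N : ℝ≥0∞) * PP G {ω | BadW N A ω 0}
      = ∫⁻ ω, (N : ℝ≥0∞) * (if BadW N A ω 0 then 1 else 0) ∂(PP G) := by
        rw [lintegral_const_mul' _ _ (ENNReal.natCast_ne_top _), ← lintegral_indicator_one hBm]
        congr 1
    _ ≤ ∫⁻ ω, 2 * ∑' y, f 0 y ω ∂(PP G) := lintegral_mono hout
    _ = 2 * ∫⁻ ω, ∑' y, f 0 y ω ∂(PP G) := by
        rw [lintegral_const_mul' _ _ (by simp)]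
    _ = 2 * ∫⁻ ω, ∑' x, f x 0 ω ∂(PP G) := by rw [hmtp]
    _ ≤ 2 * ∫⁻ ω, 2 * N * (if Light ε ω 0 then 1 else 0) ∂(PP G) := by
        gcongr
        exact hin _
    _ = 2 * (2 * N * PP G {ω | Light ε ω 0}) := by
        rw [lintegral_const_mul' _ _ (by finiteness), ← lintegral_indicator_one hLm]
        congr 2

lemma measure_light_le (ε : ℝ≥0) :
    (PP G).real {ω | Light ε ω 0} ≤ 4 * G.real {t | t < ε} := by
  have hp : ∀ e : E, (PP G).real {ω | ω e < ε} = G.real {t | t < ε} := by
    intro e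
    have hmp := measurePreserving_eval_infinitePi (fun _ : E => G) e
    unfold Measure.real
    have e1 : {ω : Ω | ω e < ε} = (Function.eval e) ⁻¹' {t : ℝ≥0 | t < ε} := rfl
    rw [e1]
    have e2 := hmp.measure_preimage (s := {t : ℝ≥0 | t < ε})
      (measurableSet_lt measurable_id measurable_const).nullMeasurableSet
    rw [e2]
  have hsub : {ω : Ω | Light ε ω 0} ⊆ {ω | ω (((0, 0) : V), false) < ε} ∪ {ω | ω (((0, 0) : V), true) < ε} ∪
      ({ω | ω (((-1, 0) : V), false) < ε} ∪ {ω | ω (((0, -1) : V), true) < ε}) := by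
    rintro ω ⟨c, hc, hw⟩
    have hw' : ω (edgeOf 0 c) < ε := by
      unfold wt at hw
      exact_mod_cast hw
    rcases adj_cases hc with rfl | rfl | rfl | rfl
    · left; left
      simpa [edgeOf] using hw'
    · left; right
      simpa [edgeOf] using hw'
    · right; left
      simpa [edgeOf] using hw'
    · right; right
      simpa [edgeOf] using hw'
  refine (measureReal_mono hsub (measure_ne_top _ _)).trans ?_
  refine (measureReal_union_le _ _).trans ?_
  have h1 := measureReal_union_le (μ := PP G) {ω : Ω | ω (((0, 0) : V), false) < ε}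
    {ω : Ω | ω (((0, 0) : V), true) < ε}
  have h2 := measureReal_union_le (μ := PP G) {ω : Ω | ω (((-1, 0) : V), false) < ε}
    {ω : Ω | ω (((0, -1) : V), true) < ε}
  rw [hp, hp] at h1 h2
  linarith

end Vale.Agent.Lib.P158
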