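import Vale.Agent.Lib.P158.NoIso

/-!
# No isolated bigeodesic: conclusion
-/

open MeasureTheory Set ProbabilityTheory
open scoped NNReal ENNReal

namespace Vale.Agent.Lib.P158

open Classical in
/-- All but `2 N` points of a finite subset of a single isolated line with small passage-time
diameter are starts of windows with small passage time. -/
lemma window_count {ω : Ω} {N : ℕ} {A : ℝ} {W : Finset V} (hW : ∀ w ∈ W, w ∈ Vt ω)
    (hT : ∀ w ∈ W, ∀ w' ∈ W, T ω w w' ≤ A)
    (huniq : ∀ L M, IsIsolated ω L → IsIsolated ω M →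
      ∃ c : ℤ, (∀ k, M k = L (k + c)) ∨ (∀ k, M k = L (c - k))) :
    W.card ≤ (W.filter fun x => BadW N A ω x).card + 2 * N := by
  rcases W.eq_empty_or_nonempty with rfl | ⟨w₀, hw₀⟩
  · simp
  obtain ⟨L, hL, _⟩ := hW w₀ hw₀
  have hon : ∀ w ∈ W, ∃ i, L i = w := by
    intro w hw
    obtain ⟨M, hM, k, rfl⟩ := hW w hw
    obtain ⟨c, hc⟩ := huniq L M hL hM
    rcases hc with hc | hc
    · exact ⟨k + c, (hc k).symm⟩
    · exact ⟨c - k, (hc k).symm⟩
  choose! idx hidx using hon
  obtain ⟨wM, hwM, hmax⟩ := Finset.exists_max_image W idx ⟨w₀, hw₀⟩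
  obtain ⟨wm, hwm, hmin⟩ := Finset.exists_min_image W idx ⟨w₀, hw₀⟩
  set imax := idx wM with himax
  set imin := idx wm with himin
  have hle : imin ≤ imax := hmin wM hwM
  have hsub : W.filter (fun x => ¬ BadW N A ω x) ⊆
      (Finset.Ioo (imax - N) (imin + N)).image L := by
    intro w hw
    obtain ⟨hwW, hnb⟩ := Finset.mem_filter.1 hw
    have hi := hidx w hwW
    refine Finset.mem_image.2 ⟨idx w, ?_, hi⟩
    simp only [Finset.mem_Ioo]
    constructor
    · by_contra hc
      push Not at hc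
      apply hnb
      refine ⟨fun k => L (k + idx w), hL.shift _, by simpa using hi, ?_⟩
      have h1 := hL.1.T_mono_right (i := idx w) (j := N + idx w) (k := imax) (by omega) (by omega)
      have h2 := hT w hwW wM hwM
      rw [hi] at h1
      rw [← hidx wM hwM] at h2
      exact h1.trans h2
    · by_contra hc
      push Not at hc
      apply hnb
      refine ⟨fun k => (fun k => L (-k)) (k + (-idx w)), hL.neg.shift _, by simpa using hi, ?_⟩
      have h1 := hL.1.T_mono_left (i := imin) (j := idx w - N) (k := idx w) (by omega) (by omega)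
      have h2 := hT wm hwm w hwW
      rw [hi] at h1
      rw [← hidx wm hwm] at h2
      simp only
      have e : -((N : ℤ) + -idx w) = idx w - N := by ring
      rw [e, T_symm]
      exact h1.trans h2
  have hcard : (W.filter fun x => ¬ BadW N A ω x).card ≤ 2 * N := by
    refine (Finset.card_le_card hsub).trans (Finset.card_image_le.trans ?_)
    rw [Int.card_Ioo]
    omega
  have := Finset.card_filter_add_card_filter_not (s := W) (fun x => BadW N A ω x)
  omega

section
variable (G : Measure ℝ≥0) [IsProbabilityMeasure G]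

open Classical in
lemma expect_count {S : V → Ω → Prop} (hm : ∀ x, Measurable (S x))
    (hcov : ∀ x ω, S 0 (theta x ω) ↔ S x ω) (F : Finset V) :
    ∫⁻ ω, ∑ x ∈ F, (if S x ω then (1 : ℝ≥0∞) else 0) ∂(PP G) = F.card * PP G {ω | S 0 ω} := by
  have hms : ∀ x, MeasurableSet {ω | S x ω} := fun x => measurableSet_setOfPred.2 (hm x)
  have hinv : ∀ x, PP G {ω | S x ω} = PP G {ω | S 0 ω} := by
    intro x
    have e : {ω | S x ω} = theta x ⁻¹' {ω | S 0 ω} := by
      ext ω
      simp only [Set.mem_ofPred_eq, Set.mem_preimage]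
      exact (hcov x ω).symm
    rw [e, (measurePreserving_theta G x).measure_preimage (hms 0).nullMeasurableSet]
  rw [lintegral_finsetSum]
  · have : ∀ x ∈ F, ∫⁻ ω, (if S x ω then (1 : ℝ≥0∞) else 0) ∂(PP G) = PP G {ω | S 0 ω} := by
      intro x _
      rw [← hinv x, ← lintegral_indicator_one (hms x)]
      rfl
    rw [Finset.sum_congr rfl this, Finset.sum_const, nsmul_eq_mul]
  · intro x _
    exact Measurable.ite (hms x) measurable_const measurable_const

/-- **Theorem.** For every atomless law, almost surely there is no isolated bigeodesic. -/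
theorem vt_null (hG : ∀ x, G {x} = 0) : PP G {ω | (0 : V) ∈ Vt ω} = 0 := by
  classical
  set d := (PP G).real {ω | (0 : V) ∈ Vt ω} with hd
  have hd0 : 0 ≤ d := measureReal_nonneg
  by_contra hne
  have hdpos : 0 < d := by
    rw [hd]
    exact ENNReal.toReal_pos hne (measure_ne_top _ _)
  obtain ⟨ε, hε, hg⟩ := exists_small G hG (d / 64) (by positivity)
  have hεr : (0 : ℝ) < ε := by exact_mod_cast hε
  set η : ℝ := min (d / 24) (min (ε * d / 16) 1) with hη
  have hη0 : 0 < η := by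
    refine lt_min (by positivity) (lt_min (by positivity) one_pos)
  have hη1 : η ≤ d / 24 := min_le_left _ _
  have hη2 : η ≤ ε * d / 16 := (min_le_right _ _).trans (min_le_left _ _)
  have hη3 : η ≤ 1 := (min_le_right _ _).trans (min_le_right _ _)
  obtain ⟨ℓ, A, Gd, Cr, hℓ, hA0, hA, hGm, hq, hcore⟩ := block_thm G hη0
  have hℓ1 : (1 : ℝ) ≤ ℓ := by
    have : 1 ≤ 1 / η := by
      rw [le_div_iff₀ hη0]
      linarith
    linarith
  set N : ℕ := ⌈2 * A / ε⌉₊ + 1 with hN
  have hN1 : 2 * A ≤ N * (ε : ℝ) := by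
    have h1 : 2 * A / ε ≤ ⌈2 * A / ε⌉₊ := Nat.le_ceil _
    rw [div_le_iff₀ hεr] at h1
    have h2 : (N : ℝ) = (⌈2 * A / ε⌉₊ : ℝ) + 1 := by
      rw [hN]; push_cast; ring
    rw [h2]
    nlinarith
  have hN2 : (N : ℝ) ≤ 2 * A / ε + 2 := by
    have h1 := Nat.ceil_lt_add_one (a := 2 * A / ε) (by positivity)
    have h2 : (N : ℝ) = (⌈2 * A / ε⌉₊ : ℝ) + 1 := by
      rw [hN]; push_cast; ring
    rw [h2]
    linarith
  have hNpos : (0 : ℝ) < N := by
    have h2 : (N : ℝ) = (⌈2 * A / ε⌉₊ : ℝ) + 1 := by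
      rw [hN]; push_cast; ring
    rw [h2]
    positivity
  -- the bound on bad vertices
  have hbad := bad_le_light G (N := N) (A := A) (ε := (ε : ℝ)) hεr hN1
  set b := (PP G).real {ω | BadW N A ω 0} with hb
  have hb16 : b ≤ 16 * G.real {t | t < ε} := by
    have hl := measure_light_le G ε
    have h1 := ENNReal.toReal_mono (by finiteness) hbad
    simp only [ENNReal.toReal_mul, ENNReal.toReal_natCast, ENNReal.toReal_ofNat] at h1
    have h2 : (N : ℝ) * b ≤ N * (16 * G.real {t | t < ε}) := by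
      calc (N : ℝ) * b ≤ 2 * (2 * N * ((PP G).real {ω | Light ε ω 0})) := h1
        _ ≤ 2 * (2 * N * (4 * G.real {t | t < ε})) := by gcongr
        _ = N * (16 * G.real {t | t < ε}) := by ring
    exact le_of_mul_le_mul_left h2 hNpos
  -- the pointwise inequality
  set F := BoxV ℓ with hF
  have hFc : (F.card : ℝ) = ℓ ^ 2 := by
    rw [hF, card_BoxV]
    push_cast
    ring
  set C : ℝ≥0∞ := ENNReal.ofReal (η * ℓ ^ 2 + 2 * N) with hC
  have hpoint : ∀ᵐ ω ∂(PP G), ∑ x ∈ F, (if x ∈ Vt ω then (1 : ℝ≥0∞) else 0) ≤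
      ∑ x ∈ F, (if BadW N A ω x then (1 : ℝ≥0∞) else 0) + C +
        (F.card : ℝ≥0∞) * (if Gd ω then 0 else 1) := by
    filter_upwards [isolated_unique G hG] with ω hω
    rw [Finset.sum_boole, Finset.sum_boole]
    by_cases hg : Gd ω
    · rw [if_pos hg, mul_zero, add_zero]
      obtain ⟨hc1, hc2⟩ := hcore ω hg
      set W := F.filter fun x => x ∈ Vt ω ∧ Cr x ω with hW
      have hcount := window_count (ω := ω) (N := N) (A := A) (W := W)
        (fun w hw => (Finset.mem_filter.1 hw).2.1)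
        (fun w hw w' hw' => hc2 w w' (Finset.mem_filter.1 hw).2.2 (Finset.mem_filter.1 hw').2.2) hω
      have h1 : (F.filter fun x => x ∈ Vt ω).card ≤ W.card + (F.filter fun x => ¬ Cr x ω).card := by
        rw [← Finset.card_union_of_disjoint (by
          rw [Finset.disjoint_left]
          intro a ha ha'
          exact (Finset.mem_filter.1 ha').2 (Finset.mem_filter.1 ha).2.2)]
        refine Finset.card_le_card fun x hx => ?_
        obtain ⟨hx1, hx2⟩ := Finset.mem_filter.1 hx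
        by_cases hx3 : Cr x ω
        · exact Finset.mem_union_left _ (Finset.mem_filter.2 ⟨hx1, hx2, hx3⟩)
        · exact Finset.mem_union_right _ (Finset.mem_filter.2 ⟨hx1, hx3⟩)
      have h2 : (W.filter fun x => BadW N A ω x).card ≤ (F.filter fun x => BadW N A ω x).card :=
        Finset.card_le_card fun x hx => by
          obtain ⟨hx1, hx2⟩ := Finset.mem_filter.1 hx
          exact Finset.mem_filter.2 ⟨(Finset.mem_filter.1 hx1).1, hx2⟩
      have h3 : (F.filter fun x => x ∈ Vt ω).card ≤ (F.filter fun x => BadW N A ω x).card + 2 * N +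
          (F.filter fun x => ¬ Cr x ω).card := by omega
      have h4 : (((F.filter fun x => ¬ Cr x ω).card + 2 * N : ℕ) : ℝ≥0∞) ≤ C := by
        rw [hC, ← ENNReal.ofReal_natCast]
        refine ENNReal.ofReal_le_ofReal ?_
        push_cast
        linarith
      calc (((F.filter fun x => x ∈ Vt ω).card : ℕ) : ℝ≥0∞)
          ≤ (((F.filter fun x => BadW N A ω x).card +
              ((F.filter fun x => ¬ Cr x ω).card + 2 * N) : ℕ) : ℝ≥0∞) := by
            exact_mod_cast (by omega)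
        _ = ((F.filter fun x => BadW N A ω x).card : ℝ≥0∞) +
              (((F.filter fun x => ¬ Cr x ω).card + 2 * N : ℕ) : ℝ≥0∞) := by
            push_cast
            ring
        _ ≤ _ := by gcongr
    · rw [if_neg hg, mul_one]
      have h1 : (((F.filter fun x => x ∈ Vt ω).card : ℕ) : ℝ≥0∞) ≤ (F.card : ℝ≥0∞) := by
        exact_mod_cast Finset.card_filter_le _ _
      exact h1.trans (le_add_self)
  -- integrating
  have hVtm : ∀ x, Measurable fun ω : Ω => x ∈ Vt ω := measurable_vt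
  have hBm : ∀ x, Measurable fun ω : Ω => BadW N A ω x := measurable_badW N A
  have e1 := expect_count G (S := fun x ω => x ∈ Vt ω) hVtm
    (fun x ω => by rw [vt_theta, zero_add]) F
  have e2 := expect_count G (S := fun x ω => BadW N A ω x) hBm
    (fun x ω => by rw [badW_theta, zero_add]) F
  have hGms : MeasurableSet {ω | ¬ Gd ω} := measurableSet_setOfPred.2 hGm.not
  have e3 : ∫⁻ ω, (F.card : ℝ≥0∞) * (if Gd ω then 0 else 1) ∂(PP G) =
      (F.card : ℝ≥0∞) * PP G {ω | ¬ Gd ω} := by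
    rw [lintegral_const_mul' _ _ (ENNReal.natCast_ne_top _), ← lintegral_indicator_one hGms]
    congr 2
    funext ω
    by_cases h : Gd ω <;> simp [Set.indicator, h]
  have hsum : (F.card : ℝ≥0∞) * PP G {ω | (0 : V) ∈ Vt ω} ≤
      (F.card : ℝ≥0∞) * PP G {ω | BadW N A ω 0} + C + (F.card : ℝ≥0∞) * PP G {ω | ¬ Gd ω} := by
    rw [← e1, ← e2, ← e3]
    calc ∫⁻ ω, ∑ x ∈ F, (if x ∈ Vt ω then (1 : ℝ≥0∞) else 0) ∂(PP G)
        ≤ ∫⁻ ω, (∑ x ∈ F, (if BadW N A ω x then (1 : ℝ≥0∞) else 0) + C +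
            (F.card : ℝ≥0∞) * (if Gd ω then 0 else 1)) ∂(PP G) := lintegral_mono_ae hpoint
      _ = _ := by
        have hm1 : Measurable fun ω => ∑ x ∈ F, (if BadW N A ω x then (1 : ℝ≥0∞) else 0) :=
          Finset.measurable_sum _ fun x _ =>
            Measurable.ite (measurableSet_setOfPred.2 (hBm x)) measurable_const measurable_const
        have hm2 : Measurable fun ω => (F.card : ℝ≥0∞) * (if Gd ω then 0 else 1) :=
          (Measurable.ite (measurableSet_setOfPred.2 hGm) measurable_const measurable_const).const_mul _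
        rw [lintegral_add_right _ hm2, lintegral_add_right _ measurable_const]
        simp
  have hreal : (ℓ : ℝ) ^ 2 * d ≤ (ℓ : ℝ) ^ 2 * b + (η * ℓ ^ 2 + 2 * N) + (ℓ : ℝ) ^ 2 * η := by
    have h1 := ENNReal.toReal_mono (by finiteness) hsum
    have hCr : C.toReal = η * ℓ ^ 2 + 2 * N := by
      rw [hC, ENNReal.toReal_ofReal]
      positivity
    rw [ENNReal.toReal_add (by finiteness) (by finiteness),
      ENNReal.toReal_add (by finiteness) (by finiteness), hCr, ENNReal.toReal_mul,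
      ENNReal.toReal_mul, ENNReal.toReal_mul, ENNReal.toReal_natCast, hFc] at h1
    have h2 : (PP G {ω | ¬ Gd ω}).toReal ≤ η := hq
    have h3 : (ℓ : ℝ) ^ 2 * (PP G {ω | ¬ Gd ω}).toReal ≤ (ℓ : ℝ) ^ 2 * η :=
      mul_le_mul_of_nonneg_left h2 (by positivity)
    have h4 : (PP G {ω | (0 : V) ∈ Vt ω}).toReal = d := rfl
    have h5 : (PP G {ω | BadW N A ω 0}).toReal = b := rfl
    rw [h4, h5] at h1
    linarith
  -- the contradiction
  have hl2 : (1 : ℝ) ≤ (ℓ : ℝ) ^ 2 := one_le_pow₀ hℓ1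
  have hηl : 1 ≤ η * (ℓ : ℝ) ^ 2 := by
    have h1 : 1 ≤ η * ℓ := by
      rw [div_le_iff₀ hη0] at hℓ
      linarith
    have h2 : η * ℓ ≤ η * (ℓ : ℝ) ^ 2 := by
      apply mul_le_mul_of_nonneg_left _ hη0.le
      nlinarith
    linarith
  have hN3 : 2 * (N : ℝ) ≤ 4 * η * (ℓ : ℝ) ^ 2 / ε + 4 * (η * (ℓ : ℝ) ^ 2) := by
    have h1 : 2 * A / ε ≤ 2 * (η * (ℓ : ℝ) ^ 2) / ε := by gcongr
    have h2 : 2 * (2 * (η * (ℓ : ℝ) ^ 2) / ε) = 4 * η * (ℓ : ℝ) ^ 2 / ε := by ring
    linarith
  have hlpos : (0 : ℝ) < (ℓ : ℝ) ^ 2 := by linarith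
  have hfin : (ℓ : ℝ) ^ 2 * d ≤ (ℓ : ℝ) ^ 2 * (b + 6 * η + 4 * η / ε) := by
    have e : 4 * η * (ℓ : ℝ) ^ 2 / ε = (ℓ : ℝ) ^ 2 * (4 * η / ε) := by ring
    rw [e] at hN3
    nlinarith
  have hfin2 : d ≤ b + 6 * η + 4 * η / ε := le_of_mul_le_mul_left hfin hlpos
  have h4 : 4 * η / ε ≤ d / 4 := by
    rw [div_le_iff₀ hεr]
    nlinarith
  have h6 : 6 * η ≤ d / 4 := by linarith
  have hb4 : b < d / 4 := by linarith
  linarith

theorem no_isolated (hG : ∀ x, G {x} = 0) : ∀ᵐ ω ∂(PP G), ¬ ∃ L, IsIsolated ω L := by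
  have h : ∀ᵐ ω ∂(PP G), ∀ x : V, x ∉ Vt ω := by
    rw [ae_all_iff]
    intro x
    refine ae_iff.2 ?_
    simp only [not_not]
    have e : {ω | x ∈ Vt ω} = theta x ⁻¹' {ω | (0 : V) ∈ Vt ω} := by
      ext ω
      simp only [Set.mem_ofPred_eq, Set.mem_preimage]
      rw [vt_theta, zero_add]
    rw [e, (measurePreserving_theta G x).measure_preimage
      (measurableSet_setOfPred.2 (measurable_vt 0)).nullMeasurableSet]
    exact vt_null G hG
  filter_upwards [h] with ω hω
  rintro ⟨L, hL⟩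
  exact hω (L 0) (mem_Vt_of hL 0)

end

end Vale.Agent.Lib.P158
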