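import Vale.Agent.Lib.P158.Index

/-!
# Deterministic analysis of a near pair of lines in a typical environment
-/

open MeasureTheory Filter Set Topology
open scoped NNReal ENNReal

namespace Vale.Agent.Lib.P158

/-! ### Divergence of the arc length -/

lemma diverge_of_heavy {ω : Ω} {N : Line} (hN : IsBigeodesic ω N) {ε : ℝ} (hε : 0 < ε)
    (h : ∀ K, ∃ i, K ≤ i ∧ ε ≤ wt ω (N i) (N (i + 1))) :
    ∀ (x : V) (C : ℝ), ∃ K, ∀ k, K ≤ k → C ≤ T ω x (N k) := by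
  have key : ∀ m : ℕ, ∃ K : ℤ, 0 ≤ K ∧ ∀ k, K ≤ k → (m : ℝ) * ε ≤ T ω (N 0) (N k) := by
    intro m
    induction m with
    | zero =>
      exact ⟨0, le_refl _, fun k _ => by simpa using T_nonneg ω _ _⟩
    | succ m ih =>
      obtain ⟨K, hK0, hK⟩ := ih
      obtain ⟨i, hi, hheavy⟩ := h K
      refine ⟨i + 1, by omega, fun k hk => ?_⟩
      have h1 := hN.T_add (i := 0) (j := i) (k := k) (by omega) (by omega)
      have h2 := hN.T_add (i := i) (j := i + 1) (k := k) (by omega) hk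
      have h3 := hN.T_succ i
      have h4 := hK i hi
      have h5 := T_nonneg ω (N (i + 1)) (N k)
      push_cast
      rw [h3] at h2
      nlinarith
  intro x C
  obtain ⟨m, hm⟩ := exists_nat_gt ((C + T ω (N 0) x) / ε)
  obtain ⟨K, _, hK⟩ := key m
  refine ⟨K, fun k hk => ?_⟩
  have h1 := hK k hk
  have h2 := T_triangle ω (N 0) x (N k)
  rw [div_lt_iff₀ hε] at hm
  linarith

/-- Divergence of the passage time to both ends of `M`. -/
structure Div (ω : Ω) (M : Line) : Prop where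
  up : ∀ (x : V) (C : ℝ), ∃ K, ∀ k, K ≤ k → C ≤ T ω x (M k)
  down : ∀ (x : V) (C : ℝ), ∃ K, ∀ k, k ≤ K → C ≤ T ω x (M k)

lemma typ_div {ω : Ω} (hT : Typical ω) {L M : Line} {R₀ : ℕ} (hL : IsIsolated ω L)
    (hM : IsIsolated ω M) (hd : ∀ i j, L i ≠ M j) (hn : NearInf R₀ L M) : Div ω M := by
  have hpos : 0 < wt ω (M 0) (M (0 + 1)) := by
    unfold wt
    exact_mod_cast hT.pos _
  obtain ⟨n, hn'⟩ := exists_nat_one_div_lt hpos
  have hne : (SHeavy n ω L M).Nonempty := ⟨0, by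
    simp only [SHeavy, Set.mem_ofPred_eq]
    exact hn'.le⟩
  obtain ⟨h1, h2⟩ := hT.heavy R₀ n L M hL hM hd hn hne
  have hε : (0 : ℝ) < 1 / ((n : ℝ) + 1) := by positivity
  constructor
  · refine diverge_of_heavy hM.1 hε fun K => ?_
    obtain ⟨i, hi, hK⟩ := h2 K
    exact ⟨i, hK, hi⟩
  · intro x C
    have := diverge_of_heavy hM.1.neg hε (fun K => ?_) x C
    · obtain ⟨K, hK⟩ := this
      refine ⟨-K, fun k hk => ?_⟩
      have := hK (-k) (by omega)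
      simpa using this
    · obtain ⟨i, hi, hK'⟩ := h1 (-K - 1)
      refine ⟨-i - 1, by omega, ?_⟩
      have e1 : -(-i - 1) = i + 1 := by ring
      have e2 : -(-i - 1 + 1) = i := by ring
      simp only [e1, e2]
      rw [wt_comm]
      exact hi

/-! ### Near pairs -/

/-- A near pair: bounded distance and bounded passage time. -/
def TN (R R' : ℕ) (ω : Ω) (L M : Line) (j i : ℤ) : Prop :=
  dist1 (L j) (M i) ≤ R ∧ T ω (L j) (M i) ≤ R'

lemma near_tri {ω : Ω} {a b a' b' : V} {r : ℝ} (h : T ω a b ≤ r) (h' : T ω a' b' ≤ r) :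
    T ω a a' ≤ T ω b b' + 2 * r := by
  have h1 := T_triangle ω a b a'
  have h2 := T_triangle ω b b' a'
  have h3 := T_symm ω a' b'
  linarith

section Geometry

variable {ω : Ω} {L M : Line} {r : ℝ}

lemma wrong_pair (hL : IsBigeodesic ω L) (hM : IsBigeodesic ω M) {j₀ i₀ j i j₁ i₁ : ℤ}
    (h0 : T ω (L j₀) (M i₀) ≤ r) (h : T ω (L j) (M i) ≤ r) (h1 : T ω (L j₁) (M i₁) ≤ r)
    (hj : j ≤ j₀) (hj' : j₀ ≤ j₁) (hi : i₀ ≤ i) (hi' : i ≤ i₁) :
    T ω (M i₀) (M i) ≤ 3 * r := by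
  have e1 := hL.T_add hj hj'
  have e2 := hM.T_add hi hi'
  have e3 := near_tri h h1
  have e4 := near_tri h0 h
  have e5 := near_tri h1 h0
  rw [T_symm ω (L j₀) (L j), T_symm ω (M i₀) (M i)] at e4
  rw [T_symm ω (L j₁) (L j₀), T_symm ω (M i₁) (M i₀)] at e5
  have e6 := near_tri (a := M i) (b := L j) (a' := M i₀) (b' := L j₀) (r := r)
    (by rw [T_symm]; exact h) (by rw [T_symm]; exact h0)
  have e7 := near_tri (a := M i₀) (b := L j₀) (a' := M i₁) (b' := L j₁) (r := r)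
    (by rw [T_symm]; exact h0) (by rw [T_symm]; exact h1)
  rw [T_symm ω (M i) (M i₀)] at e6
  linarith

lemma wrong_pair2 (hL : IsBigeodesic ω L) (hM : IsBigeodesic ω M) {j₀ i₀ j i j₁ i₁ : ℤ}
    (h0 : T ω (L j₀) (M i₀) ≤ r) (h : T ω (L j) (M i) ≤ r) (h1 : T ω (L j₁) (M i₁) ≤ r)
    (hj : j₀ ≤ j) (hj' : j ≤ j₁) (hi : i ≤ i₀) (hi' : i₀ ≤ i₁) :
    T ω (M i) (M i₀) ≤ 3 * r := by
  have e1 := hL.T_add hj hj'
  have e2 := hM.T_add hi hi'
  have e3 := near_tri (a := M i) (b := L j) (a' := M i₁) (b' := L j₁) (r := r)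
    (by rw [T_symm]; exact h) (by rw [T_symm]; exact h1)
  have e4 := near_tri h0 h1
  have e5 := near_tri (a := M i₀) (b := L j₀) (a' := M i) (b' := L j) (r := r)
    (by rw [T_symm]; exact h0) (by rw [T_symm]; exact h)
  rw [T_symm ω (M i₀) (M i)] at e5
  linarith

end Geometry

/-- The near pairs reach both ends of both lines, with matching orientations. -/
structure Aligned (R R' : ℕ) (ω : Ω) (L M : Line) : Prop where
  up : ∀ K : ℤ, ∃ j i, K ≤ j ∧ K ≤ i ∧ TN R R' ω L M j i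
  down : ∀ K : ℤ, ∃ j i, j ≤ K ∧ i ≤ K ∧ TN R R' ω L M j i

lemma exists_up {ω : Ω} {L M : Line} {R R' : ℕ} (hL : IsBigeodesic ω L)
    (hdiv : Div ω M) (hnear : ∀ K : ℤ, ∃ j i, K ≤ i ∧ TN R R' ω L M j i) :
    (∀ K : ℤ, ∃ j i, K ≤ j ∧ K ≤ i ∧ TN R R' ω L M j i) ∨
      (∀ K : ℕ, ∃ j i, j ≤ -(K : ℤ) ∧ (K : ℤ) ≤ i ∧ TN R R' ω L M j i) := by
  -- near pairs far up have a far index on `L`
  have claim : ∀ A : ℕ, ∃ j i, (A : ℤ) ≤ i ∧ ((A : ℤ) < j ∨ j < -(A : ℤ)) ∧ TN R R' ω L M j i := by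
    intro A
    obtain ⟨K₁, hK₁⟩ := hdiv.up (L 0) (T ω (L (-(A : ℤ))) (L A) + R' + 1)
    obtain ⟨j, i, hi, hTN⟩ := hnear (max A K₁)
    refine ⟨j, i, le_trans (le_max_left _ _) hi, ?_, hTN⟩
    by_contra hcon
    push Not at hcon
    have h1 := hK₁ i (le_trans (le_max_right _ _) hi)
    have h2 := T_triangle ω (L 0) (L j) (M i)
    have h3 : T ω (L 0) (L j) ≤ T ω (L (-(A : ℤ))) (L A) := by
      rcases le_total 0 j with hj | hj
      · calc T ω (L 0) (L j) ≤ T ω (L (-(A : ℤ))) (L j) :=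
              hL.T_mono_left (by omega) hj
          _ ≤ T ω (L (-(A : ℤ))) (L A) := hL.T_mono_right (by omega) (by omega)
      · rw [T_symm]
        calc T ω (L j) (L 0) ≤ T ω (L (-(A : ℤ))) (L 0) :=
              hL.T_mono_left (by omega) hj
          _ ≤ T ω (L (-(A : ℤ))) (L A) := hL.T_mono_right (by omega) (by omega)
    have h4 := hTN.2
    linarith
  by_cases hup : ∀ K : ℤ, ∃ j i, K ≤ j ∧ K ≤ i ∧ TN R R' ω L M j i
  · exact Or.inl hup
  · right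
    push Not at hup
    obtain ⟨K₀, hK₀⟩ := hup
    intro K
    obtain ⟨j, i, hi, hj, hTN⟩ := claim (K + K₀.natAbs)
    refine ⟨j, i, ?_, by omega, hTN⟩
    rcases hj with hj | hj
    · exact absurd hTN (hK₀ j i (by omega) (by omega))
    · omega

lemma aligned_of_up {ω : Ω} {L M : Line} {R R' : ℕ} (hL : IsBigeodesic ω L)
    (hM : IsBigeodesic ω M) (hdiv : Div ω M)
    (hnear : ∀ K : ℤ, ∃ j i, i ≤ K ∧ TN R R' ω L M j i)
    (hup : ∀ K : ℤ, ∃ j i, K ≤ j ∧ K ≤ i ∧ TN R R' ω L M j i) : Aligned R R' ω L M := by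
  refine ⟨hup, fun K => ?_⟩
  obtain ⟨j₀, i₀, _, _, h0⟩ := hup 0
  set K' := min K j₀ with hK'
  obtain ⟨K₁, hK₁⟩ := hdiv.down (M i₀) (T ω (L K') (L j₀) + 5 * R' + 1)
  obtain ⟨j, i, hi, hTN⟩ := hnear (min K₁ (min K i₀))
  have hi1 : i ≤ K₁ := hi.trans (min_le_left _ _)
  have hi2 : i ≤ K := hi.trans ((min_le_right _ _).trans (min_le_left _ _))
  have hi3 : i ≤ i₀ := hi.trans ((min_le_right _ _).trans (min_le_right _ _))
  have hbig := hK₁ i hi1
  have hR' : (0 : ℝ) ≤ R' := Nat.cast_nonneg _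
  have hTnn := T_nonneg ω (L K') (L j₀)
  have hjlt : j < j₀ := by
    by_contra hcon
    push Not at hcon
    obtain ⟨j₁, i₁, hj₁, hi₁, h1⟩ := hup (max j i₀)
    have := wrong_pair2 hL hM h0.2 hTN.2 h1.2 hcon ((le_max_left _ _).trans hj₁) hi3
      ((le_max_right _ _).trans hi₁)
    rw [T_symm ω (M i) (M i₀)] at this
    linarith
  refine ⟨j, i, ?_, hi2, hTN⟩
  by_contra hcon
  push Not at hcon
  have hK'j : K' ≤ j := by
    have : K' ≤ K := min_le_left _ _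
    omega
  have h2 := hL.T_mono_left hK'j hjlt.le
  have h3 := near_tri (a := M i₀) (b := L j₀) (a' := M i) (b' := L j) (r := R')
    (by rw [T_symm]; exact h0.2) (by rw [T_symm]; exact hTN.2)
  rw [T_symm ω (L j₀) (L j)] at h3
  linarith

/-! ### Near pairs in a typical environment -/

lemma typ_near {ω : Ω} (hT : Typical ω) {L M : Line} {R₀ : ℕ} (hL : IsIsolated ω L)
    (hM : IsIsolated ω M) (hd : ∀ i j, L i ≠ M j) (hn : NearInf R₀ L M) :
    ∃ R' : ℕ, (∀ K : ℤ, ∃ j i, K ≤ i ∧ TN R₀ R' ω L M j i) ∧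
      (∀ K : ℤ, ∃ j i, i ≤ K ∧ TN R₀ R' ω L M j i) := by
  rw [nearInf_iff] at hn
  obtain ⟨j, i, _, hji⟩ := hn 0
  obtain ⟨R', hR'⟩ := exists_nat_ge (T ω (L j) (M i))
  refine ⟨R', ?_⟩
  have hne : (SNear R₀ R' ω L M).Nonempty := ⟨i, j, hji, hR'⟩
  have hnn : NearInf R₀ L M := nearInf_iff.2 hn
  obtain ⟨h1, h2⟩ := hT.near R₀ R₀ R' L M hL hM hd hnn hne
  constructor
  · intro K
    obtain ⟨i', hi', hK⟩ := h2 K
    obtain ⟨j', h3⟩ := hi'
    exact ⟨j', i', hK, h3⟩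
  · intro K
    obtain ⟨i', hi', hK⟩ := h1 K
    obtain ⟨j', h3⟩ := hi'
    exact ⟨j', i', hK, h3⟩

/-- In a typical environment, near pairs are aligned, after possibly reversing `L`. -/
lemma typ_aligned {ω : Ω} (hT : Typical ω) {L M : Line} {R₀ : ℕ} (hL : IsIsolated ω L)
    (hM : IsIsolated ω M) (hd : ∀ i j, L i ≠ M j) (hn : NearInf R₀ L M) :
    ∃ R' : ℕ, Aligned R₀ R' ω L M ∨ Aligned R₀ R' ω (fun k => L (-k)) M := by
  obtain ⟨R', h1, h2⟩ := typ_near hT hL hM hd hn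
  have hdiv := typ_div hT hL hM hd hn
  refine ⟨R', ?_⟩
  rcases exists_up hL.1 hdiv h1 with hup | hup
  · exact Or.inl (aligned_of_up hL.1 hM.1 hdiv h2 hup)
  · right
    refine aligned_of_up hL.1.neg hM.1 hdiv (fun K => ?_) (fun K => ?_)
    · obtain ⟨j, i, hi, h⟩ := h2 K
      exact ⟨-j, i, hi, by simpa [TN] using h⟩
    · obtain ⟨j, i, hj, hi, h⟩ := hup K.natAbs
      exact ⟨-j, i, by omega, by omega, by simpa [TN] using h⟩

/-! ### The defect vanishes along `L` -/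

lemma Dfc_add {ω : Ω} {L M : Line} (hL : IsBigeodesic ω L) {a b c : ℤ} (hab : a ≤ b) (hbc : b ≤ c) :
    Dfc ω M (L a) (L c) = Dfc ω M (L a) (L b) + Dfc ω M (L b) (L c) := by
  unfold Dfc
  rw [hL.T_add hab hbc]
  ring

lemma Dfc_mono {ω : Ω} {L M : Line} (hL : IsBigeodesic ω L) {a b c : ℤ} (hab : a ≤ b) (hbc : b ≤ c) :
    Dfc ω M (L a) (L b) ≤ Dfc ω M (L a) (L c) := by
  rw [Dfc_add hL hab hbc]
  linarith [Dfc_nonneg ω M (L b) (L c)]

lemma Dfc_bound {ω : Ω} {L M : Line} {R R' : ℕ} (hL : IsBigeodesic ω L) (hM : IsBigeodesic ω M)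
    (hal : Aligned R R' ω L M) (a : ℤ) : ∃ A : ℝ, ∀ b, a ≤ b → Dfc ω M (L a) (L b) ≤ A := by
  obtain ⟨j₀, i₀, hj₀, _, h0⟩ := hal.up a
  refine ⟨T ω (L a) (L j₀) + 3 * R' + B ω M (M i₀) - B ω M (L a), fun b hb => ?_⟩
  obtain ⟨j', i', hj', hi', h1⟩ := hal.up (max (max b j₀) i₀)
  have hj1 : b ≤ j' := (le_trans (le_max_left _ _) (le_max_left _ _)).trans hj'
  have hj2 : j₀ ≤ j' := (le_trans (le_max_right _ _) (le_max_left _ _)).trans hj'
  have hi2 : i₀ ≤ i' := (le_max_right _ _).trans hi'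
  refine (Dfc_mono hL hb hj1).trans ?_
  unfold Dfc
  have e1 := hL.T_add hj₀ hj2
  have e2 := near_tri h0.2 h1.2
  have e3 := B_le_add ω M (L j') (M i')
  have e4 := B_line_add hM hi2
  have e5 := h1.2
  rw [e1]
  linarith

lemma zero_defect {ω : Ω} (hT : Typical ω) {L M : Line} {R₀ R R' : ℕ} (hL : IsIsolated ω L)
    (hM : IsIsolated ω M) (hd : ∀ i j, L i ≠ M j) (hn : NearInf R₀ L M)
    (hal : Aligned R R' ω L M) {a b : ℤ} (hab : a ≤ b) : Dfc ω M (L a) (L b) = 0 := by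
  apply le_antisymm _ (Dfc_nonneg _ _ _ _)
  by_contra hcon
  push Not at hcon
  obtain ⟨n, hn'⟩ := exists_nat_one_div_lt hcon
  set ε : ℝ := 1 / ((n : ℝ) + 1) with hε
  have hε0 : 0 < ε := by positivity
  have hdiv := typ_div hT hL hM hd hn
  -- the set of indices before a jump
  have hne : (SDef R R' n ω L M).Nonempty := by
    obtain ⟨j, i, hj, _, h⟩ := hal.down a
    refine ⟨i, j, b, h.1, h.2, hj.trans hab, ?_⟩
    calc 1 / ((n : ℝ) + 1) < Dfc ω M (L a) (L b) := hn'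
      _ ≤ Dfc ω M (L j) (L b) := by
        rw [Dfc_add hL.1 hj hab]
        linarith [Dfc_nonneg ω M (L j) (L a)]
  obtain ⟨_, hunb⟩ := hT.dfc R₀ R R' n L M hL hM hd hn hne
  -- the defect eventually stops growing
  obtain ⟨A, hA⟩ := Dfc_bound hL.1 hM.1 hal a
  let U : Set ℝ := (fun c => Dfc ω M (L a) (L c)) '' {c | a ≤ c}
  have hUne : U.Nonempty := ⟨_, a, le_refl a, rfl⟩
  have hUb : BddAbove U := ⟨A, by rintro _ ⟨c, hc, rfl⟩; exact hA c hc⟩
  obtain ⟨_, ⟨J, hJ, rfl⟩, hJ2⟩ := exists_lt_of_lt_csSup hUne (sub_lt_self (sSup U) hε0)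
  have hJa : a ≤ J := hJ
  have hstop : ∀ c d, J ≤ c → c ≤ d → Dfc ω M (L c) (L d) ≤ ε := by
    intro c d hc hd'
    have h1 : Dfc ω M (L a) (L d) ≤ sSup U :=
      le_csSup hUb ⟨d, (hJa.trans (hc.trans hd')), rfl⟩
    have h2 := Dfc_add (M := M) hL.1 (hJa.trans hc) hd'
    have h3 := Dfc_mono (M := M) hL.1 hJa hc
    linarith
  -- a base pair beyond `J`
  obtain ⟨j₀, i₀, hj₀, _, h0⟩ := hal.up J
  obtain ⟨K₁, hK₁⟩ := hdiv.up (M i₀) (3 * R' + 1)
  obtain ⟨i, hi, hi'⟩ := hunb (max K₁ i₀)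
  obtain ⟨j, j', h1, h2, h3, h4⟩ := hi
  have hjJ : j < J := by
    by_contra hc
    push Not at hc
    have := hstop j j' hc h3
    linarith
  obtain ⟨j₁, i₁, hj₁, hi₁, h5⟩ := hal.up (max j₀ i)
  have := wrong_pair hL.1 hM.1 h0.2 h2 h5.2 (by omega) ((le_max_left _ _).trans hj₁)
    ((le_max_right _ _).trans hi') ((le_max_right _ _).trans hi₁)
  have h6 := hK₁ i ((le_max_left _ _).trans hi')
  linarith

/-! ### Recurrence of small defects -/

lemma B_line_up {ω : Ω} {M : Line} (hM : IsBigeodesic ω M) {k : ℤ} (hk : 0 ≤ k) :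
    B ω M (M k) = - T ω (M 0) (M k) := by
  have := B_line_add hM hk
  rw [B_line_base hM] at this
  linarith

lemma B_line_down {ω : Ω} {M : Line} (hM : IsBigeodesic ω M) {k : ℤ} (hk : k ≤ 0) :
    B ω M (M k) = T ω (M k) (M 0) := by
  have := B_line_add hM hk
  rw [B_line_base hM] at this
  linarith

lemma rec_defect {ω : Ω} (hT : Typical ω) {L M : Line} {R₀ : ℕ} (hL : IsIsolated ω L)
    (hM : IsIsolated ω M) (hd : ∀ i j, L i ≠ M j) (hn : NearInf R₀ L M) (n : ℕ) (K : ℤ) :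
    ∃ j i, i ≤ K ∧ Dfc ω M (L j) (M i) < 1 / ((n : ℝ) + 1) := by
  have hε : (0 : ℝ) < 1 / ((n : ℝ) + 1) := by positivity
  have ht := B_tendsto hM.1 (L 0)
  rw [Metric.tendsto_atTop] at ht
  obtain ⟨k, hk⟩ := ht _ hε
  have hk' := hk k le_rfl
  rw [Real.dist_eq, abs_lt] at hk'
  have hne : (SRec (dist1 (L 0) (M k)) n ω L M).Nonempty := by
    refine ⟨k, 0, le_refl _, ?_⟩
    unfold Dfc
    rw [B_line_up hM.1 (by omega)]
    linarith [hk'.2]
  obtain ⟨h1, _⟩ := hT.rcr R₀ _ n L M hL hM hd hn hne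
  obtain ⟨i, ⟨j, _, h3⟩, hK⟩ := h1 K
  exact ⟨j, i, hK, h3⟩

end Vale.Agent.Lib.P158
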