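import Vale.Agent.Lib.P158.Chord
import Vale.Agent.Lib.P158.Count

/-!
# A deterministic bound on the number of representative chords in a box
-/

open MeasureTheory Set
open scoped NNReal ENNReal

namespace Vale.Agent.Lib.P158

/-- The sup norm. -/
def nrm (v : V) : ℕ := max v.1.natAbs v.2.natAbs

/-- The box of radius `n`. -/
noncomputable def boxF (n : ℕ) : Finset V := Finset.Icc (-(n : ℤ)) n ×ˢ Finset.Icc (-(n : ℤ)) n

lemma mem_boxF {n : ℕ} {v : V} : v ∈ boxF n ↔ nrm v ≤ n := by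
  unfold boxF nrm
  simp only [Finset.mem_product, Finset.mem_Icc]
  omega

lemma card_boxF (n : ℕ) : (boxF n).card = (2 * n + 1) ^ 2 := by
  unfold boxF
  rw [Finset.card_product, Int.card_Icc, sq]
  have : ((n : ℤ) + 1 - -(n : ℤ)).toNat = 2 * n + 1 := by omega
  rw [this]

/-- The shell of radius `N + 1`, as a union of four sides. -/
noncomputable def shellF (N : ℕ) : Finset V :=
  (Finset.Icc (-((N : ℤ) + 1)) (N + 1)).image (fun j => (((N : ℤ) + 1, j) : V)) ∪
  (Finset.Icc (-((N : ℤ) + 1)) (N + 1)).image (fun j => ((-((N : ℤ) + 1), j) : V)) ∪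
  (Finset.Icc (-((N : ℤ) + 1)) (N + 1)).image (fun j => ((j, (N : ℤ) + 1) : V)) ∪
  (Finset.Icc (-((N : ℤ) + 1)) (N + 1)).image (fun j => ((j, -((N : ℤ) + 1)) : V))

lemma mem_shellF {N : ℕ} {v : V} (h : nrm v = N + 1) : v ∈ shellF N := by
  obtain ⟨a, b⟩ := v
  unfold nrm at h
  simp only at h
  unfold shellF
  simp only [Finset.mem_union, Finset.mem_image, Finset.mem_Icc, Prod.mk.injEq]
  by_cases h1 : a = (N : ℤ) + 1
  · exact Or.inl (Or.inl (Or.inl ⟨b, by omega, h1.symm, rfl⟩))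
  by_cases h2 : a = -((N : ℤ) + 1)
  · exact Or.inl (Or.inl (Or.inr ⟨b, by omega, h2.symm, rfl⟩))
  by_cases h3 : b = (N : ℤ) + 1
  · exact Or.inl (Or.inr ⟨a, by omega, rfl, h3.symm⟩)
  · refine Or.inr ⟨a, by omega, rfl, by omega⟩

lemma card_shellF (N : ℕ) : (shellF N).card ≤ 8 * N + 12 := by
  unfold shellF
  have hc : (Finset.Icc (-((N : ℤ) + 1)) (N + 1)).card = 2 * N + 3 := by
    rw [Int.card_Icc]
    omega
  refine (Finset.card_union_le _ _).trans ?_
  refine (Nat.add_le_add_right ((Finset.card_union_le _ _).trans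
    (Nat.add_le_add_right (Finset.card_union_le _ _) _)) _).trans ?_
  have h1 := Finset.card_image_le (s := Finset.Icc (-((N : ℤ) + 1)) (N + 1))
    (f := fun j => (((N : ℤ) + 1, j) : V))
  have h2 := Finset.card_image_le (s := Finset.Icc (-((N : ℤ) + 1)) (N + 1))
    (f := fun j => ((-((N : ℤ) + 1), j) : V))
  have h3 := Finset.card_image_le (s := Finset.Icc (-((N : ℤ) + 1)) (N + 1))
    (f := fun j => ((j, (N : ℤ) + 1) : V))
  have h4 := Finset.card_image_le (s := Finset.Icc (-((N : ℤ) + 1)) (N + 1))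
    (f := fun j => ((j, -((N : ℤ) + 1)) : V))
  omega

lemma exists_shell {ω : Ω} {L : Line} (hL : IsIsolated ω L) {i : ℤ} {N : ℕ}
    (hi : nrm (L i) ≤ N) : ∃ j, nrm (L j) = N + 1 := by
  have h1 : ∃ j, N < nrm (L j) := by
    by_contra hc
    push Not at hc
    apply Set.infinite_range_of_injective hL.1.inj
    refine (boxF N).finite_toSet.subset ?_
    rintro _ ⟨j, rfl⟩
    exact mem_boxF.2 (hc j)
  obtain ⟨j, hj⟩ := h1
  have hstep : ∀ k, |(fun k => (nrm (L k) : ℤ)) (k + 1) - (fun k => (nrm (L k) : ℤ)) k| ≤ 1 := by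
    intro k
    have := hL.1.adj k
    unfold Adj dist1 at this
    simp only [nrm]
    rw [abs_le]
    omega
  obtain ⟨k, hk⟩ := ivt_int (fun k => (nrm (L k) : ℤ)) hstep (a := i) (b := j) (r := N + 1)
    (by show (nrm (L i) : ℤ) ≤ N + 1; omega) (by show (N : ℤ) + 1 ≤ nrm (L j); omega)
  have hk' : (nrm (L k) : ℤ) = N + 1 := hk
  exact ⟨k, by omega⟩

/-- A canonical shell vertex on the line through `y`. -/
noncomputable def pick (ω : Ω) (N : ℕ) (y : V) : V :=
  Classical.epsilon fun w => nrm w = N + 1 ∧ SameLn ω y w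

lemma pick_spec {ω : Ω} {N : ℕ} {y : V} (hy : y ∈ Vt ω) (hn : nrm y ≤ N) :
    nrm (pick ω N y) = N + 1 ∧ SameLn ω y (pick ω N y) := by
  unfold pick
  refine Classical.epsilon_spec (p := fun w => nrm w = N + 1 ∧ SameLn ω y w) ?_
  obtain ⟨L, hL, i, rfl⟩ := hy
  obtain ⟨j, hj⟩ := exists_shell hL hn
  exact ⟨L j, hj, L, hL, ⟨i, rfl⟩, ⟨j, rfl⟩⟩

lemma pick_congr {ω : Ω} {N : ℕ} {y y' : V} (h : SameLn ω y y') : pick ω N y = pick ω N y' := by
  unfold pick
  congr 1
  funext w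
  apply propext
  constructor
  · exact fun h2 => ⟨h2.1, h.symm.trans h2.2⟩
  · exact fun h2 => ⟨h2.1, h.trans h2.2⟩

lemma same_of_pick_eq {ω : Ω} {N : ℕ} {y y' : V} (hy : y ∈ Vt ω) (hn : nrm y ≤ N)
    (hy' : y' ∈ Vt ω) (hn' : nrm y' ≤ N) (h : pick ω N y = pick ω N y') : SameLn ω y y' := by
  have h1 := (pick_spec hy hn).2
  have h2 := (pick_spec hy' hn').2
  rw [h] at h1
  exact h1.trans h2.symm

lemma nrm_st {u : V} (hu : dist1 0 u = 1) (x : V) {k : ℤ} {R : ℕ} (h0 : 0 ≤ k) (hk : k ≤ R) :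
    nrm (st x u k) ≤ nrm x + R := by
  unfold nrm st
  rcases unit_cases hu with rfl | rfl | rfl | rfl <;> simp <;> omega

lemma IsChord.link {ω : Ω} {u : V} {R : ℕ} {x : V} {k : ℤ} (h : IsChord ω u R x k) :
    Link (Vt ω) u x (st x u k) k :=
  ⟨h.1, h.2.2.2.2.1, rfl⟩

lemma inW_of_isolated {ω : Ω} {L : Line} (h : IsIsolated ω L) : InW (Vt ω) L :=
  ⟨h.1.adj, h.1.inj, mem_Vt_of h⟩

open Classical in
/-- The deterministic count: the number of representative chords with left end in a box of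
radius `n` is of order at most `n ^ (3 / 2)`. -/
theorem rep_count (ω : Ω) {u : V} (hu : dist1 0 u = 1) (R n : ℕ) :
    ((boxF n).filter fun x => IsRep ω u R x).card ^ 2 ≤
      (shellF (n + R)).card * ((boxF n).filter fun x => IsRep ω u R x).card +
        2 * (shellF (n + R)).card ^ 3 := by
  set S := (boxF n).filter fun x => IsRep ω u R x with hS
  set N := n + R with hN
  set kf : V → ℤ := fun x => if h : ∃ k, IsChord ω u R x k then h.choose else 0 with hkf
  have hkc : ∀ x ∈ S, IsChord ω u R x (kf x) := by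
    intro x hx
    have h := (Finset.mem_filter.1 hx).2.1
    simp only [hkf, dif_pos h]
    exact h.choose_spec
  have hxn : ∀ x ∈ S, nrm x ≤ N := fun x hx => by
    have := mem_boxF.1 (Finset.mem_filter.1 hx).1
    omega
  have hyn : ∀ x ∈ S, nrm (st x u (kf x)) ≤ N := fun x hx => by
    have h1 := mem_boxF.1 (Finset.mem_filter.1 hx).1
    have h2 := hkc x hx
    have := nrm_st hu x (k := kf x) (R := R) (by have := h2.1; omega) h2.2.1
    omega
  have hxv : ∀ x ∈ S, x ∈ Vt ω := fun x hx => (hkc x hx).2.2.1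
  have hyv : ∀ x ∈ S, st x u (kf x) ∈ Vt ω := fun x hx => (hkc x hx).2.2.2.1
  set f : V → V × V := fun x => (pick ω N x, pick ω N (st x u (kf x))) with hf
  have hinj : Set.InjOn f S := by
    intro x hx x' hx' he
    have hx₁ : x ∈ S := hx
    have hx₁' : x' ∈ S := hx'
    have e1 : pick ω N x = pick ω N x' := congrArg Prod.fst he
    have e2 : pick ω N (st x u (kf x)) = pick ω N (st x' u (kf x')) := congrArg Prod.snd he
    have s1 := same_of_pick_eq (hxv x hx₁) (hxn x hx₁) (hxv x' hx₁') (hxn x' hx₁') e1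
    have s2 := same_of_pick_eq (hyv x hx₁) (hyn x hx₁) (hyv x' hx₁') (hyn x' hx₁') e2
    have r1 := (Finset.mem_filter.1 hx₁).2.2 (kf x) x' (kf x') (hkc x hx₁) (hkc x' hx₁') s1 s2
    have r2 := (Finset.mem_filter.1 hx₁').2.2 (kf x') x (kf x) (hkc x' hx₁') (hkc x hx₁) s1.symm
      s2.symm
    exact r1.antisymm r2
  have hcard : (S.image f).card = S.card := Finset.card_image_of_injOn hinj
  rw [← hcard]
  apply k23_count (shellF N) (S.image f)
  · intro p hp
    obtain ⟨x, hx, rfl⟩ := Finset.mem_image.1 hp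
    exact ⟨mem_shellF (pick_spec (hxv x hx) (hxn x hx)).1,
      mem_shellF (pick_spec (hyv x hx) (hyn x hx)).1⟩
  · intro a₁ a₂ b₁ b₂ b₃ na n12 n13 n23 h11 h12 h13 h21 h22 h23
    obtain ⟨x11, m11, e11⟩ := Finset.mem_image.1 h11
    obtain ⟨x12, m12, e12⟩ := Finset.mem_image.1 h12
    obtain ⟨x13, m13, e13⟩ := Finset.mem_image.1 h13
    obtain ⟨x21, m21, e21⟩ := Finset.mem_image.1 h21
    obtain ⟨x22, m22, e22⟩ := Finset.mem_image.1 h22
    obtain ⟨x23, m23, e23⟩ := Finset.mem_image.1 h23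
    have a11 : pick ω N x11 = a₁ := congrArg Prod.fst e11
    have a12 : pick ω N x12 = a₁ := congrArg Prod.fst e12
    have a13 : pick ω N x13 = a₁ := congrArg Prod.fst e13
    have a21 : pick ω N x21 = a₂ := congrArg Prod.fst e21
    have a22 : pick ω N x22 = a₂ := congrArg Prod.fst e22
    have a23 : pick ω N x23 = a₂ := congrArg Prod.fst e23
    have c11 : pick ω N (st x11 u (kf x11)) = b₁ := congrArg Prod.snd e11
    have c12 : pick ω N (st x12 u (kf x12)) = b₂ := congrArg Prod.snd e12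
    have c13 : pick ω N (st x13 u (kf x13)) = b₃ := congrArg Prod.snd e13
    have c21 : pick ω N (st x21 u (kf x21)) = b₁ := congrArg Prod.snd e21
    have c22 : pick ω N (st x22 u (kf x22)) = b₂ := congrArg Prod.snd e22
    have c23 : pick ω N (st x23 u (kf x23)) = b₃ := congrArg Prod.snd e23
    -- the five lines
    obtain ⟨L1, hL1, p1, hp1⟩ := hxv x11 m11
    obtain ⟨L2, hL2, q1, hq1⟩ := hxv x21 m21
    obtain ⟨M1, hM1, r1, hr1⟩ := hyv x11 m11
    obtain ⟨M2, hM2, r2, hr2⟩ := hyv x12 m12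
    obtain ⟨M3, hM3, r3, hr3⟩ := hyv x13 m13
    -- left ends on `L1`, `L2`
    have s12 : SameLn ω (L1 p1) x12 := by
      rw [hp1]
      exact same_of_pick_eq (hxv _ m11) (hxn _ m11) (hxv _ m12) (hxn _ m12) (a11.trans a12.symm)
    have s13 : SameLn ω (L1 p1) x13 := by
      rw [hp1]
      exact same_of_pick_eq (hxv _ m11) (hxn _ m11) (hxv _ m13) (hxn _ m13) (a11.trans a13.symm)
    have s22 : SameLn ω (L2 q1) x22 := by
      rw [hq1]
      exact same_of_pick_eq (hxv _ m21) (hxn _ m21) (hxv _ m22) (hxn _ m22) (a21.trans a22.symm)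
    have s23 : SameLn ω (L2 q1) x23 := by
      rw [hq1]
      exact same_of_pick_eq (hxv _ m21) (hxn _ m21) (hxv _ m23) (hxn _ m23) (a21.trans a23.symm)
    obtain ⟨p2, hp2⟩ := hL1.on_of_same s12
    obtain ⟨p3, hp3⟩ := hL1.on_of_same s13
    obtain ⟨q2, hq2⟩ := hL2.on_of_same s22
    obtain ⟨q3, hq3⟩ := hL2.on_of_same s23
    -- right ends on `M1`, `M2`, `M3`
    have t1 : SameLn ω (M1 r1) (st x21 u (kf x21)) := by
      rw [hr1]
      exact same_of_pick_eq (hyv _ m11) (hyn _ m11) (hyv _ m21) (hyn _ m21) (c11.trans c21.symm)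
    have t2 : SameLn ω (M2 r2) (st x22 u (kf x22)) := by
      rw [hr2]
      exact same_of_pick_eq (hyv _ m12) (hyn _ m12) (hyv _ m22) (hyn _ m22) (c12.trans c22.symm)
    have t3 : SameLn ω (M3 r3) (st x23 u (kf x23)) := by
      rw [hr3]
      exact same_of_pick_eq (hyv _ m13) (hyn _ m13) (hyv _ m23) (hyn _ m23) (c13.trans c23.symm)
    obtain ⟨s1, hs1⟩ := hM1.on_of_same t1
    obtain ⟨s2, hs2⟩ := hM2.on_of_same t2
    obtain ⟨s3, hs3⟩ := hM3.on_of_same t3
    -- disjointness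
    have d1 : Dj L1 L2 := by
      intro i j he
      apply na
      have := sameLn_of_meet hL1 hL2 he p1 q1
      rw [hp1, hq1] at this
      rw [← a11, ← a21]
      exact pick_congr this
    have dlm : ∀ {A B : Line} {x y : V} {i j : ℤ}, IsIsolated ω A → IsIsolated ω B → A i = x →
        B j = y → ¬ SameLn ω x y → Dj A B := by
      intro A B x y i j hA hB hi hj hn a b he
      apply hn
      have := sameLn_of_meet hA hB he i j
      rwa [hi, hj] at this
    have hdiff : ∀ x ∈ S, ¬ SameLn ω x (st x u (kf x)) := fun x hx => (hkc x hx).2.2.2.2.2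
    have d2 : Dj L1 M1 := dlm hL1 hM1 hp1 hr1 (hdiff _ m11)
    have d3 : Dj L1 M2 := dlm hL1 hM2 hp2 hr2 (hdiff _ m12)
    have d4 : Dj L1 M3 := dlm hL1 hM3 hp3 hr3 (hdiff _ m13)
    have d5 : Dj L2 M1 := dlm hL2 hM1 hq1 hs1 (hdiff _ m21)
    have d6 : Dj L2 M2 := dlm hL2 hM2 hq2 hs2 (hdiff _ m22)
    have d7 : Dj L2 M3 := dlm hL2 hM3 hq3 hs3 (hdiff _ m23)
    have dmm : ∀ {A B : Line} {x y : V} {i j : ℤ} {b b' : V}, IsIsolated ω A → IsIsolated ω B →
        A i = x → B j = y → pick ω N x = b → pick ω N y = b' → b ≠ b' → Dj A B := by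
      intro A B x y i j b b' hA hB hi hj h1 h2 hn a c he
      apply hn
      have := sameLn_of_meet hA hB he i j
      rw [hi, hj] at this
      rw [← h1, ← h2]
      exact pick_congr this
    have d8 : Dj M1 M2 := dmm hM1 hM2 hr1 hr2 c11 c12 n12
    have d9 : Dj M1 M3 := dmm hM1 hM3 hr1 hr3 c11 c13 n13
    have d10 : Dj M2 M3 := dmm hM2 hM3 hr2 hr3 c12 c13 n23
    -- the links
    have l1 : Link (Vt ω) u (L1 p1) (M1 r1) (kf x11) := by
      rw [hp1, hr1]; exact (hkc _ m11).link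
    have l2 : Link (Vt ω) u (L1 p2) (M2 r2) (kf x12) := by
      rw [hp2, hr2]; exact (hkc _ m12).link
    have l3 : Link (Vt ω) u (L1 p3) (M3 r3) (kf x13) := by
      rw [hp3, hr3]; exact (hkc _ m13).link
    have l4 : Link (Vt ω) u (L2 q1) (M1 s1) (kf x21) := by
      rw [hq1, hs1]; exact (hkc _ m21).link
    have l5 : Link (Vt ω) u (L2 q2) (M2 s2) (kf x22) := by
      rw [hq2, hs2]; exact (hkc _ m22).link
    have l6 : Link (Vt ω) u (L2 q3) (M3 s3) (kf x23) := by
      rw [hq3, hs3]; exact (hkc _ m23).link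
    exact k23 hu (inW_of_isolated hL1) (inW_of_isolated hL2) (inW_of_isolated hM1)
      (inW_of_isolated hM2) (inW_of_isolated hM3) d1 d2 d3 d4 d5 d6 d7 d8 d9 d10
      l1 l2 l3 l4 l5 l6

end Vale.Agent.Lib.P158
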