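import Vale.Agent.Lib.P158.Chain
import Vale.Agent.Lib.P158.Bigeo

/-!
# A trapping lemma: a planarity statement for bi-infinite paths

Three disjoint connections from a bi-infinite path `L₁` to a set `L₂`, such that the middle one
can escape to infinity, are impossible.  The proof is purely algebraic, with mod 2 potentials.
-/

open Set

namespace Vale.Agent.Lib.P158

open Classical in
/-- The chain of a bi-infinite path. -/
noncomputable def cLine (L : Line) (e : E) : ZMod 2 :=
  if ∃ k, edgeOf (L k) (L (k + 1)) = e then 1 else 0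

lemma deg_congr {c c' : E → ZMod 2} {v : V} (h : ∀ e, Inc v e → c e = c' e) : deg c v = deg c' v := by
  unfold deg
  rw [h _ (Or.inl rfl), h _ (Or.inr (Or.inl rfl)), h _ (Or.inr (Or.inr (Or.inl rfl))),
    h _ (Or.inr (Or.inr (Or.inr rfl)))]

lemma pchain_off {P : ℤ → V} {i j : ℤ} {v : V} (hadj : ∀ k, i ≤ k → k < j → Adj (P k) (P (k + 1)))
    (h : ∀ k, i ≤ k → k ≤ j → P k ≠ v) (e : E) (he : Inc v e) : pchain P i j e = 0 := by
  by_contra hne
  obtain ⟨k, h1, h2, rfl⟩ := pchain_support hne
  rcases eq_of_inc_edgeOf (hadj k h1 h2) he with h3 | h3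
  · exact h k h1 h2.le h3.symm
  · exact h (k + 1) (by omega) (by omega) h3.symm

lemma cLine_ne_zero {L : Line} {e : E} (h : cLine L e ≠ 0) : ∃ k, edgeOf (L k) (L (k + 1)) = e := by
  by_contra hc
  exact h (by simp [cLine, hc])

lemma cLine_edge (L : Line) (k : ℤ) : cLine L (edgeOf (L k) (L (k + 1))) = 1 := by
  unfold cLine
  rw [if_pos ⟨k, rfl⟩]

lemma cLine_off {L : Line} (hadj : ∀ k, Adj (L k) (L (k + 1))) {v : V} (hv : ∀ k, L k ≠ v) :
    OffC (cLine L) v := by
  refine OffC.of_inc fun e he => ?_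
  by_contra hne
  obtain ⟨k, rfl⟩ := cLine_ne_zero hne
  rcases eq_of_inc_edgeOf (hadj k) he with h | h
  · exact hv k h.symm
  · exact hv _ h.symm

/-- Near a vertex, the chain of a line is that of a segment around the vertex. -/
lemma cLine_eq_pchain {L : Line} (hadj : ∀ k, Adj (L k) (L (k + 1)))
    (hinj : Function.Injective L) {p i j : ℤ} (h1 : i < p) (h2 : p < j) (e : E)
    (he : Inc (L p) e) : pchain L i j e = cLine L e := by
  by_cases hk : ∃ k, edgeOf (L k) (L (k + 1)) = e
  · obtain ⟨k, rfl⟩ := hk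
    rw [cLine_edge]
    rcases eq_of_inc_edgeOf (hadj k) he with h | h
    · have := hinj h
      exact pchain_edge hinj hadj (by omega) (by omega)
    · have := hinj h
      exact pchain_edge hinj hadj (by omega) (by omega)
  · have h3 : cLine L e = 0 := by simp [cLine, hk]
    rw [h3]
    by_contra hne
    obtain ⟨k, _, _, h4⟩ := pchain_support hne
    exact hk ⟨k, h4⟩

lemma cLine_closed {L : Line} (hadj : ∀ k, Adj (L k) (L (k + 1))) (hinj : Function.Injective L) :
    Closed (cLine L) := by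
  intro v
  by_cases hv : ∃ k, L k = v
  · obtain ⟨k, rfl⟩ := hv
    have h1 : deg (cLine L) (L k) = deg (pchain L (k - 1) (k + 1)) (L k) :=
      deg_congr fun e he => (cLine_eq_pchain hadj hinj (by omega) (by omega) e he).symm
    rw [h1, deg_pchain (by omega) (fun j _ _ => hadj j)]
    have h2 : L (k - 1) ≠ L k := fun h => by have := hinj h; omega
    have h3 : L (k + 1) ≠ L k := fun h => by have := hinj h; omega
    simp [h2, h3]
  · push Not at hv
    obtain ⟨h1, h2, h3, h4⟩ := cLine_off hadj hv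
    unfold deg
    rw [h1, h2, h3, h4]
    simp

/-- The trapping principle, algebraic form. -/
theorem trap {L : Line} (hadj : ∀ k, Adj (L k) (L (k + 1))) (hinj : Function.Injective L)
    {c : E → ZMod 2} {σ τ : V → ZMod 2} {B : ℕ} {D : ZMod 2}
    (hσ : ∀ e, dd σ e = c e) (hτ : ∀ e, dd τ e = cLine L e) (hfar : ∀ f, Far B f → σ f = 0)
    (hA : ∀ e, c e ≠ 0 → cLine L e = 0 → τ (faceA e) = D ∧ τ (faceB e) = D)
    {p : ℤ} (hB : ∀ e, Inc (L p) e → c e = cLine L e)
    {g₀ : V} (hg : FaceAt (L p) g₀) (hg1 : σ g₀ = 0) (hg2 : τ g₀ = D) : False := by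
  classical
  -- the function `σ + τ` is constant at `L p`
  have hsum : ∀ e, dd (fun f => σ f + τ f) e = c e + cLine L e := by
    intro e
    rw [← hσ, ← hτ]
    unfold dd
    ring
  have hoff : OffC (fun e => c e + cLine L e) (L p) := by
    refine OffC.of_inc fun e he => ?_
    rw [hB e he]
    exact z2_add_self _
  have hconst := ar_of_off hsum hoff
  have hval : σ (L p) + τ (L p) = D := by
    have := hconst g₀ hg
    simp only at this
    rw [← this, hg1, hg2, zero_add]
  -- a face at `L p` on the other side of the line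
  obtain ⟨g, hgf, hgτ⟩ : ∃ g, FaceAt (L p) g ∧ τ g = D + 1 := by
    have hin := inc_edgeOf_left (hadj p)
    have h1 := hτ (edgeOf (L p) (L (p + 1)))
    rw [cLine_edge] at h1
    unfold dd at h1
    obtain ⟨h2, h3⟩ := faces_inc hin
    rcases z2_cases (τ (faceA (edgeOf (L p) (L (p + 1))))) with h4 | h4
    · rcases z2_cases D with h5 | h5
      · refine ⟨_, h3, ?_⟩
        rw [h4, zero_add] at h1
        rw [h1, h5]; rfl
      · refine ⟨_, h2, ?_⟩
        rw [h4, h5]; rfl
    · rcases z2_cases D with h5 | h5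
      · refine ⟨_, h2, ?_⟩
        rw [h4, h5]; rfl
      · refine ⟨_, h3, ?_⟩
        rw [h4] at h1
        have : τ (faceB (edgeOf (L p) (L (p + 1)))) = 0 := by
          have hcalc : ∀ x : ZMod 2, 1 + x = 1 → x = 0 := by decide
          exact hcalc _ h1
        rw [this, h5]; rfl
  have hgσ : σ g = 1 := by
    have h1 := hconst g hgf
    simp only at h1
    rw [hval, hgτ] at h1
    have hcalc : ∀ x d : ZMod 2, x + (d + 1) = d → x = 1 := by decide
    exact hcalc _ _ h1
  -- the region behind the line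
  let Z : Set V := {f | σ f = 1 ∧ τ f = D + 1}
  have hZfar : ∀ f ∈ Z, ¬ Far B f := by
    intro f hf hfa
    have := hf.1
    rw [hfar f hfa] at this
    exact zero_ne_one this
  let φ : V → ZMod 2 := fun f => if f ∈ Z then 1 else 0
  have hφ1 : ∀ f, f ∈ Z → φ f = 1 := fun f hf => by simp [φ, hf]
  have hφ0 : ∀ f, f ∉ Z → φ f = 0 := fun f hf => by simp [φ, hf]
  -- the boundary of the region lies on the line
  have hstep : ∀ e f f', (f = faceA e ∧ f' = faceB e ∨ f = faceB e ∧ f' = faceA e) →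
      f ∈ Z → f' ∉ Z → cLine L e ≠ 0 := by
    intro e f f' hff hf hf' hcL
    have h1 := hτ e
    have h2 := hσ e
    rw [hcL] at h1
    unfold dd at h1 h2
    have hτeq : τ f' = τ f := by
      rcases hff with ⟨rfl, rfl⟩ | ⟨rfl, rfl⟩
      · exact z2_eq_of_add _ _ h1
      · rw [add_comm] at h1
        exact z2_eq_of_add _ _ h1
    have hσne : σ f' ≠ 1 := by
      intro h3
      exact hf' ⟨h3, by rw [hτeq]; exact hf.2⟩
    have hce : c e ≠ 0 := by
      rw [← h2]
      rcases hff with ⟨rfl, rfl⟩ | ⟨rfl, rfl⟩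
      · rw [hf.1]
        rcases z2_cases (σ (faceB e)) with h3 | h3
        · rw [h3]; decide
        · exact absurd h3 hσne
      · rw [hf.1]
        rcases z2_cases (σ (faceA e)) with h3 | h3
        · rw [h3]; decide
        · exact absurd h3 hσne
    obtain ⟨h3, h4⟩ := hA e hce hcL
    have h5 : τ f = D := by
      rcases hff with ⟨rfl, rfl⟩ | ⟨rfl, rfl⟩
      · exact h3
      · exact h4
    have h6 := hf.2
    rw [h5] at h6
    exact z2_ne_add_one D h6
  have hbd : ∀ e, dd φ e ≠ 0 → cLine L e ≠ 0 := by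
    intro e he
    by_cases h1 : faceA e ∈ Z
    · by_cases h2 : faceB e ∈ Z
      · exfalso
        apply he
        unfold dd
        rw [hφ1 _ h1, hφ1 _ h2]
        rfl
      · exact hstep e _ _ (Or.inl ⟨rfl, rfl⟩) h1 h2
    · by_cases h2 : faceB e ∈ Z
      · exact hstep e _ _ (Or.inr ⟨rfl, rfl⟩) h2 h1
      · exfalso
        apply he
        unfold dd
        rw [hφ0 _ h1, hφ0 _ h2]
        rfl
  -- the boundary is nonempty: look at a highest face of the region
  have hgZ : g ∈ Z := ⟨hgσ, hgτ⟩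
  obtain ⟨bmax, ⟨a, ha⟩, hbmax⟩ := Int.exists_greatest_of_bdd (P := fun b => ∃ a, (a, b) ∈ Z)
    ⟨(B : ℤ), by
      rintro z ⟨a, ha⟩
      have := hZfar _ ha
      unfold Far at this
      simp only at this
      omega⟩ ⟨g.2, g.1, hgZ⟩
  have hnot : (a, bmax + 1) ∉ Z := fun h => by
    have := hbmax _ ⟨a, h⟩
    omega
  have he0 : dd φ ((a, bmax + 1), false) ≠ 0 := by
    unfold dd faceA faceB
    simp only [Bool.false_eq_true, if_false]
    have e : ((a, bmax + 1) - e2 : V) = (a, bmax) := by ext <;> simp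
    rw [e, hφ0 _ hnot, hφ1 _ ha]
    decide
  obtain ⟨k₁, hk₁⟩ := cLine_ne_zero (hbd _ he0)
  -- choose the first edge of the line in the boundary
  let K : Set ℤ := {k | dd φ (edgeOf (L k) (L (k + 1))) ≠ 0}
  have hK1 : k₁ ∈ K := by
    show dd φ (edgeOf (L k₁) (L (k₁ + 1))) ≠ 0
    rw [hk₁]
    exact he0
  have hKb : ∀ k ∈ K, (L k).1.natAbs ≤ B + 1 ∧ (L k).2.natAbs ≤ B + 1 := by
    intro k hk
    have hin := inc_edgeOf_left (hadj k)
    obtain ⟨h2, h3⟩ := faces_inc hin
    have hone : faceA (edgeOf (L k) (L (k + 1))) ∈ Z ∨ faceB (edgeOf (L k) (L (k + 1))) ∈ Z := by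
      by_contra hc
      push Not at hc
      apply hk
      unfold dd
      rw [hφ0 _ hc.1, hφ0 _ hc.2]
      rfl
    have hclose : ∀ f, FaceAt (L k) f → ¬ Far B f → (L k).1.natAbs ≤ B + 1 ∧ (L k).2.natAbs ≤ B + 1 := by
      intro f hf hnf
      unfold Far at hnf
      push Not at hnf
      rcases hf with rfl | rfl | rfl | rfl
      · omega
      · simp only [Prod.fst_sub, Prod.snd_sub, e1] at hnf
        omega
      · simp only [Prod.fst_sub, Prod.snd_sub, e1, e2] at hnf
        omega
      · simp only [Prod.fst_sub, Prod.snd_sub, e2] at hnf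
        omega
    rcases hone with h | h
    · exact hclose _ h2 (hZfar _ h)
    · exact hclose _ h3 (hZfar _ h)
  have hKfin : K.Finite := by
    have hbox : ({y : V | y.1.natAbs ≤ B + 1 ∧ y.2.natAbs ≤ B + 1}).Finite := by
      apply (Set.finite_Icc ((-((B : ℤ) + 1), -((B : ℤ) + 1)) : V)
        (((B : ℤ) + 1), ((B : ℤ) + 1))).subset
      rintro ⟨a, b⟩ ⟨h1, h2⟩
      simp only at h1 h2
      exact ⟨Prod.mk_le_mk.2 ⟨by omega, by omega⟩, Prod.mk_le_mk.2 ⟨by omega, by omega⟩⟩
    exact (hbox.preimage hinj.injOn).subset fun k hk => hKb k hk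
  obtain ⟨lb, hlbK⟩ := hKfin.bddBelow
  obtain ⟨k₀, hk₀, hmin⟩ := Int.exists_least_of_bdd (P := fun k => k ∈ K)
    ⟨lb, fun z hz => hlbK hz⟩ ⟨k₁, hK1⟩
  -- the degree of the boundary at the first vertex is odd
  have hdeg := closed_dd φ (L k₀)
  set e₀ := edgeOf (L k₀) (L (k₀ + 1)) with he₀
  have hother : ∀ e, Inc (L k₀) e → e ≠ e₀ → dd φ e = 0 := by
    intro e he hne
    by_contra hc
    obtain ⟨k, rfl⟩ := cLine_ne_zero (hbd _ hc)
    rcases eq_of_inc_edgeOf (hadj k) he with h | h
    · have := hinj h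
      subst this
      exact hne rfl
    · have h3 := hinj h
      have h4 := hmin k hc
      omega
  have h1 : dd φ e₀ = 1 := by
    have : dd φ e₀ ≠ 0 := hk₀
    rcases z2_cases (dd φ e₀) with h | h
    · exact absurd h this
    · exact h
  have hinc : Inc (L k₀) e₀ := inc_edgeOf_left (hadj k₀)
  unfold deg at hdeg
  have hi1 : Inc (L k₀) (L k₀, false) := Or.inl rfl
  have hi2 : Inc (L k₀) (L k₀ - e1, false) := Or.inr (Or.inl rfl)
  have hi3 : Inc (L k₀) (L k₀, true) := Or.inr (Or.inr (Or.inl rfl))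
  have hi4 : Inc (L k₀) (L k₀ - e2, true) := Or.inr (Or.inr (Or.inr rfl))
  have hne12 : ((L k₀, false) : E) ≠ (L k₀ - e1, false) := by
    intro h
    have := congrArg (fun t : E => t.1.1) h
    simp [e1] at this
    omega
  have hne34 : ((L k₀, true) : E) ≠ (L k₀ - e2, true) := by
    intro h
    have := congrArg (fun t : E => t.1.2) h
    simp [e2] at this
    omega
  rcases hinc with h | h | h | h
  · rw [← h, h1, hother _ hi2 (by rw [h]; exact hne12.symm), hother _ hi3 (by rw [h]; simp),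
      hother _ hi4 (by rw [h]; simp)] at hdeg
    simp at hdeg
  · rw [← h, h1, hother _ hi1 (by rw [h]; exact hne12), hother _ hi3 (by rw [h]; simp),
      hother _ hi4 (by rw [h]; simp)] at hdeg
    simp at hdeg
  · rw [← h, h1, hother _ hi1 (by rw [h]; simp), hother _ hi2 (by rw [h]; simp),
      hother _ hi4 (by rw [h]; exact hne34.symm)] at hdeg
    simp at hdeg
  · rw [← h, h1, hother _ hi1 (by rw [h]; simp), hother _ hi2 (by rw [h]; simp),
      hother _ hi3 (by rw [h]; exact hne34)] at hdeg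
    simp at hdeg

end Vale.Agent.Lib.P158
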