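import Vale.Agent.Lib.P158.Branch

/-!
# No trifurcation in the graph of bigeodesic edges
-/

open MeasureTheory Set ProbabilityTheory
open scoped NNReal ENNReal

namespace Vale.Agent.Lib.P158

lemma allowed_symm {ω : Ω} {u v : V} (h : Allowed ω u v) : Allowed ω v u := by
  obtain ⟨L, hL, h0, h1⟩ := h
  refine ⟨fun k => (fun k => L (-k)) (k + (-1)), hL.neg.shift (-1), ?_, ?_⟩
  · simpa using h1
  · simpa using h0

/-- A finite path of bigeodesic edges. -/
def ChainA (ω : Ω) : V → List V → V → Prop
  | x, [], y => x = y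
  | x, z :: l, y => Allowed ω x z ∧ ChainA ω z l y

/-- `a` and `b` are joined by a path of bigeodesic edges avoiding `z`. -/
def Conn (ω : Ω) (z a b : V) : Prop := ∃ l, ChainA ω a l b ∧ a ≠ z ∧ ∀ v ∈ l, v ≠ z

lemma chain_last_ne {ω : Ω} {z : V} {l : List V} : ∀ {a b : V}, ChainA ω a l b → a ≠ z →
    (∀ v ∈ l, v ≠ z) → b ≠ z := by
  induction l with
  | nil =>
    intro a b h h1 _
    rw [← (h : a = b)]
    exact h1
  | cons v l ih =>
    intro a b h h1 h2
    exact ih h.2 (h2 v (by simp)) (fun u hu => h2 u (by simp [hu]))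

lemma Conn.right_ne {ω : Ω} {z a b : V} (h : Conn ω z a b) : b ≠ z := by
  obtain ⟨l, h1, h2, h3⟩ := h
  exact chain_last_ne h1 h2 h3

lemma Conn.left_ne {ω : Ω} {z a b : V} (h : Conn ω z a b) : a ≠ z := by
  obtain ⟨_, _, h2, _⟩ := h
  exact h2

lemma conn_refl {ω : Ω} {z a : V} (h : a ≠ z) : Conn ω z a a :=
  ⟨[], rfl, h, by simp⟩

lemma conn_edge {ω : Ω} {z a b : V} (h : Allowed ω a b) (ha : a ≠ z) (hb : b ≠ z) :
    Conn ω z a b :=
  ⟨[b], ⟨h, rfl⟩, ha, by simpa using hb⟩

lemma Conn.trans {ω : Ω} {z a b c : V} (h1 : Conn ω z a b) (h2 : Conn ω z b c) : Conn ω z a c := by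
  obtain ⟨l, h3, h4, h5⟩ := h1
  obtain ⟨l', h6, _, h8⟩ := h2
  refine ⟨l ++ l', ?_, h4, ?_⟩
  · clear h4 h5
    induction l generalizing a with
    | nil =>
      have e : a = b := h3
      rw [e]
      exact h6
    | cons v l ih => exact ⟨h3.1, ih h3.2⟩
  · intro v hv
    rcases List.mem_append.1 hv with hv | hv
    · exact h5 v hv
    · exact h8 v hv

lemma Conn.symm {ω : Ω} {z a b : V} (h : Conn ω z a b) : Conn ω z b a := by
  obtain ⟨l, h1, h2, h3⟩ := h
  induction l generalizing a with
  | nil =>
    have e : a = b := h1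
    rw [← e]
    exact conn_refl h2
  | cons v l ih =>
    have hv : v ≠ z := h3 v (by simp)
    have h4 := ih h1.2 hv (fun u hu => h3 u (by simp [hu]))
    exact h4.trans (conn_edge (allowed_symm h1.1) hv h2)

/-- A path avoiding `z` from which `w` cannot be reached avoids `w`. -/
lemma conn_avoid {ω : Ω} {z w x y : V} (h : Conn ω z x y) (hn : ¬ Conn ω z x w) :
    Conn ω w x y := by
  obtain ⟨l, h1, h2, h3⟩ := h
  induction l generalizing x with
  | nil =>
    have e : x = y := h1
    rw [← e]
    refine conn_refl fun he => hn ?_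
    rw [← he]
    exact conn_refl h2
  | cons v l ih =>
    have hv : v ≠ z := h3 v (by simp)
    have hxw : x ≠ w := fun he => hn (he ▸ conn_refl h2)
    have hvw : v ≠ w := fun he => hn (he ▸ conn_edge h1.1 h2 hv)
    have hn' : ¬ Conn ω z v w := fun hc => hn ((conn_edge h1.1 h2 hv).trans hc)
    exact (conn_edge h1.1 hxw hvw).trans (ih hn' h1.2 hv (fun u hu => h3 u (by simp [hu])))

lemma two_not (C : Fin 3 → Prop) (h : ∀ i j, i ≠ j → ¬ (C i ∧ C j)) :
    ∃ i i', i ≠ i' ∧ ¬ C i ∧ ¬ C i' := by
  by_cases h0 : C 0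
  · exact ⟨1, 2, by decide, fun h1 => h 0 1 (by decide) ⟨h0, h1⟩,
      fun h2 => h 0 2 (by decide) ⟨h0, h2⟩⟩
  · by_cases h1 : C 1
    · exact ⟨0, 2, by decide, h0, fun h2 => h 1 2 (by decide) ⟨h1, h2⟩⟩
    · exact ⟨0, 1, by decide, h0, h1⟩

open Classical in
/-- The Burton-Keane count: trifurcations are at most as many as the exits. -/
theorem bk_count (ω : Ω) (br : V → Fin 3 → V) (n : ℕ) : ∀ (T Y : Finset V), T.card = n →
    (∀ z ∈ T, ∀ i j, i ≠ j → ¬ Conn ω z (br z i) (br z j)) →
    (∀ z ∈ T, ∀ i, Allowed ω z (br z i)) →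
    (∀ z ∈ T, ∀ i, ∃ y ∈ Y, Conn ω z (br z i) y) → T.card ≤ Y.card := by
  induction n with
  | zero =>
    intro T Y hT _ _ _
    omega
  | succ n ih =>
    intro T Y hT hsep hnbr hex
    have hTne : T.Nonempty := Finset.card_pos.1 (by omega)
    set Ex : V → Fin 3 → Finset V := fun z i => Y.filter fun y => Conn ω z (br z i) y with hEx
    have hPne : (T ×ˢ (Finset.univ : Finset (Fin 3))).Nonempty := hTne.product ⟨0, by simp⟩
    obtain ⟨⟨z, i₀⟩, hp, hmin⟩ := Finset.exists_min_image (T ×ˢ (Finset.univ : Finset (Fin 3)))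
      (fun p => (Ex p.1 p.2).card) hPne
    have hz : z ∈ T := (Finset.mem_product.1 hp).1
    have hExne : ∀ w ∈ T, ∀ i, (Ex w i).Nonempty := by
      intro w hw i
      obtain ⟨y, hy, hc⟩ := hex w hw i
      exact ⟨y, Finset.mem_filter.2 ⟨hy, hc⟩⟩
    -- no other trifurcation lies in the minimal branch
    have claim1 : ∀ w ∈ T, w ≠ z → ¬ Conn ω z (br z i₀) w := by
      intro w hw hwz hc
      obtain ⟨i, i', hne, hi, hi'⟩ := two_not (fun i => Conn ω w (br w i) z) (fun i j hij h =>
        hsep w hw i j hij (h.1.trans h.2.symm))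
      have hsub : ∀ j, ¬ Conn ω w (br w j) z → Ex w j ⊆ Ex z i₀ := by
        intro j hj y hy
        obtain ⟨hyY, hyc⟩ := Finset.mem_filter.1 hy
        refine Finset.mem_filter.2 ⟨hyY, ?_⟩
        have h1 : Conn ω z (br w j) y := conn_avoid hyc hj
        have h2 : br w j ≠ z := fun he => hj (by
          rw [he]
          exact conn_refl hwz.symm)
        exact hc.trans ((conn_edge (hnbr w hw j) hwz h2).trans h1)
      have hdis : Disjoint (Ex w i) (Ex w i') := by
        rw [Finset.disjoint_left]
        intro y hy hy'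
        exact hsep w hw i i' hne ((Finset.mem_filter.1 hy).2.trans (Finset.mem_filter.1 hy').2.symm)
      have h3 : (Ex w i).card + (Ex w i').card ≤ (Ex z i₀).card := by
        rw [← Finset.card_union_of_disjoint hdis]
        exact Finset.card_le_card (Finset.union_subset (hsub i hi) (hsub i' hi'))
      have h4 : 0 < (Ex w i').card := Finset.card_pos.2 (hExne w hw i')
      have h5 := hmin (w, i) (Finset.mem_product.2 ⟨hw, Finset.mem_univ _⟩)
      simp only at h5
      omega
    -- removing the exits of the branch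
    have hcardT : (T.erase z).card = n := by
      rw [Finset.card_erase_of_mem hz]
      omega
    have hIH := ih (T.erase z) (Y \ Ex z i₀) hcardT
      (fun w hw => hsep w (Finset.mem_of_mem_erase hw))
      (fun w hw => hnbr w (Finset.mem_of_mem_erase hw))
      (by
        intro w hw i
        have hwT := Finset.mem_of_mem_erase hw
        have hwz := Finset.ne_of_mem_erase hw
        obtain ⟨y, hy, hyc⟩ := hex w hwT i
        by_cases hyE : y ∈ Ex z i₀
        · -- the branch of `w` contains `z`
          have hzc : Conn ω z (br z i₀) y := (Finset.mem_filter.1 hyE).2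
          have hC : Conn ω w (br w i) z := by
            by_contra hnc
            have h1 : Conn ω z (br w i) y := conn_avoid hyc hnc
            have h2 : br w i ≠ z := fun he => hnc (by
              rw [he]
              exact conn_refl hwz.symm)
            exact claim1 w hwT hwz (hzc.trans (h1.symm.trans (conn_edge (allowed_symm
              (hnbr w hwT i)) h2 hwz)))
          -- a second branch of `z`, not containing `w`
          obtain ⟨j, j', hne, hj, hj'⟩ := two_not (fun j => Conn ω z (br z j) w) (fun a b hab h =>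
            hsep z hz a b hab (h.1.trans h.2.symm))
          obtain ⟨k, hk1, hk2⟩ : ∃ k, k ≠ i₀ ∧ ¬ Conn ω z (br z k) w := by
            by_cases h : j = i₀
            · exact ⟨j', fun h' => hne (h.trans h'.symm), hj'⟩
            · exact ⟨j, h, hj⟩
          obtain ⟨y', hy', hyc'⟩ := hex z hz k
          refine ⟨y', Finset.mem_sdiff.2 ⟨hy', fun hm => ?_⟩, ?_⟩
          · exact hsep z hz k i₀ hk1 (hyc'.trans (Finset.mem_filter.1 hm).2.symm)
          · have h1 : Conn ω w (br z k) y' := conn_avoid hyc' hk2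
            have h2 : br z k ≠ w := fun he => hk2 (by
              rw [he]
              exact conn_refl hwz)
            exact hC.trans ((conn_edge (hnbr z hz k) hwz.symm h2).trans h1)
        · exact ⟨y, Finset.mem_sdiff.2 ⟨hy, hyE⟩, hyc⟩)
    have hcardY : (Y \ Ex z i₀).card + (Ex z i₀).card = Y.card := by
      apply Finset.card_sdiff_add_card_eq_card
      exact Finset.filter_subset _ _
    have hE : 0 < (Ex z i₀).card := Finset.card_pos.2 (hExne z hz i₀)
    omega

/-- A trifurcation: three bigeodesic edges at `z` leading to three different components of the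
graph of bigeodesic edges with `z` removed. -/
def Tri (ω : Ω) (z : V) : Prop :=
  ∃ a b c, Allowed ω z a ∧ Allowed ω z b ∧ Allowed ω z c ∧
    ¬ Conn ω z a b ∧ ¬ Conn ω z a c ∧ ¬ Conn ω z b c

lemma Allowed.ne {ω : Ω} {u v : V} (h : Allowed ω u v) : u ≠ v := by
  have := h.adj
  intro he
  rw [he] at this
  unfold Adj dist1 at this
  simp at this

/-- From a vertex of the box, a bigeodesic edge leads to the shell, away from the vertex. -/
lemma exit_exists {ω : Ω} {z a : V} {N : ℕ} (hz : nrm z ≤ N) (h : Allowed ω z a) :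
    ∃ y ∈ shellF N, Conn ω z a y := by
  classical
  obtain ⟨M, hM, h0, h1⟩ := h
  have hinj : Function.Injective fun k : ℕ => M (k : ℤ) := by
    intro p q hpq
    have := hM.inj hpq
    omega
  have hbig : ∃ k : ℕ, N < nrm (M k) := by
    by_contra hc
    push Not at hc
    apply Set.infinite_range_of_injective hinj
    refine (boxF N).finite_toSet.subset ?_
    rintro _ ⟨j, rfl⟩
    exact mem_boxF.2 (hc j)
  have hk0 := Nat.find_spec hbig
  set k := Nat.find hbig with hk
  have hkpos : k ≠ 0 := by
    intro he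
    rw [he] at hk0
    simp only [Nat.cast_zero, h0] at hk0
    omega
  obtain ⟨k', hk'⟩ := Nat.exists_eq_succ_of_ne_zero hkpos
  have hprev := Nat.find_min hbig (m := k') (by omega)
  have hstep := hM.adj k'
  have hval : nrm (M k) = N + 1 := by
    rw [hk']
    unfold Adj dist1 at hstep
    unfold nrm at hprev hk0 ⊢
    rw [hk'] at hk0
    push_cast at hk0 ⊢
    omega
  -- the path
  have hne : ∀ j : ℕ, M ((j : ℤ) + 1) ≠ z := by
    intro j he
    rw [← h0] at he
    have := hM.inj he
    omega
  have hpath : ∀ j : ℕ, Conn ω z a (M ((j : ℤ) + 1)) := by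
    intro j
    induction j with
    | zero =>
      have hne0 := hne 0
      simp only [Nat.cast_zero, zero_add] at hne0 ⊢
      rw [h1] at hne0 ⊢
      exact conn_refl hne0
    | succ j ih =>
      refine ih.trans (conn_edge ?_ (hne j) ?_)
      · have := allowed_fwd hM ((j : ℤ) + 1)
        simpa using this
      · have := hne (j + 1)
        simpa using this
  refine ⟨M k, mem_shellF hval, ?_⟩
  have := hpath k'
  rw [hk']
  simpa using this

/-- In every environment the number of trifurcations in a box is at most linear in the radius. -/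
theorem tri_count (ω : Ω) (N : ℕ) :
    letI := Classical.propDecidable
    ((boxF N).filter fun z => Tri ω z).card ≤ (shellF N).card := by
  classical
  -- the three branches
  set br : V → Fin 3 → V := fun z i => if h : Tri ω z then
    (if i = 0 then h.choose else if i = 1 then h.choose_spec.choose else
      h.choose_spec.choose_spec.choose) else 0 with hbr
  have hspec : ∀ z, Tri ω z → (∀ i, Allowed ω z (br z i)) ∧
      (∀ i j, i ≠ j → ¬ Conn ω z (br z i) (br z j)) := by
    intro z h
    obtain ⟨h1, h2, h3, h4, h5, h6⟩ := h.choose_spec.choose_spec.choose_spec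
    have e0 : br z 0 = h.choose := by simp [hbr, dif_pos h]
    have e1 : br z 1 = h.choose_spec.choose := by simp [hbr, dif_pos h]
    have e2 : br z 2 = h.choose_spec.choose_spec.choose := by simp [hbr, dif_pos h]
    constructor
    · intro i
      fin_cases i
      · show Allowed ω z (br z 0); rw [e0]; exact h1
      · show Allowed ω z (br z 1); rw [e1]; exact h2
      · show Allowed ω z (br z 2); rw [e2]; exact h3
    · intro i j hij
      fin_cases i <;> fin_cases j <;> first
        | exact absurd rfl hij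
        | (show ¬ Conn ω z (br z 0) (br z 1); rw [e0, e1]; exact h4)
        | (show ¬ Conn ω z (br z 0) (br z 2); rw [e0, e2]; exact h5)
        | (show ¬ Conn ω z (br z 1) (br z 2); rw [e1, e2]; exact h6)
        | (show ¬ Conn ω z (br z 1) (br z 0); rw [e0, e1]; exact fun hc => h4 hc.symm)
        | (show ¬ Conn ω z (br z 2) (br z 0); rw [e0, e2]; exact fun hc => h5 hc.symm)
        | (show ¬ Conn ω z (br z 2) (br z 1); rw [e1, e2]; exact fun hc => h6 hc.symm)
  refine bk_count ω br _ _ _ rfl ?_ ?_ ?_
  · intro z hz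
    exact (hspec z (Finset.mem_filter.1 hz).2).2
  · intro z hz
    exact (hspec z (Finset.mem_filter.1 hz).2).1
  · intro z hz i
    exact exit_exists (mem_boxF.1 (Finset.mem_filter.1 hz).1)
      ((hspec z (Finset.mem_filter.1 hz).2).1 i)

/-! ### Measurability and covariance -/

lemma measurable_chainA (l : List V) : ∀ x y : V, Measurable fun ω : Ω => ChainA ω x l y := by
  induction l with
  | nil =>
    intro x y
    exact measurable_const
  | cons v l ih =>
    intro x y
    exact (measurable_allowed x v).and (ih v y)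

lemma measurable_conn (z a b : V) : Measurable fun ω : Ω => Conn ω z a b := by
  unfold Conn
  exact Measurable.exists fun l => (measurable_chainA l a b).and measurable_const

lemma measurable_tri (z : V) : Measurable fun ω : Ω => Tri ω z := by
  unfold Tri
  refine Measurable.exists fun a => Measurable.exists fun b => Measurable.exists fun c => ?_
  exact (measurable_allowed z a).and ((measurable_allowed z b).and ((measurable_allowed z c).and
    ((measurable_conn z a b).not.and ((measurable_conn z a c).not.and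
      (measurable_conn z b c).not))))

lemma chain_theta (t : V) (ω : Ω) (l : List V) : ∀ x y : V, ChainA (theta t ω) x l y →
    ChainA ω (x + t) (l.map (· + t)) (y + t) := by
  induction l with
  | nil =>
    intro x y h
    have e : x = y := h
    rw [e]
    rfl
  | cons v l ih =>
    intro x y h
    exact ⟨(allowed_theta t ω x v).1 h.1, ih v y h.2⟩

lemma conn_theta_imp (t : V) (ω : Ω) (z a b : V) : Conn (theta t ω) z a b →
    Conn ω (z + t) (a + t) (b + t) := by
  rintro ⟨l, h1, h2, h3⟩
  refine ⟨l.map (· + t), chain_theta t ω l a b h1, by simpa using h2, ?_⟩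
  intro v hv
  obtain ⟨u, hu, rfl⟩ := List.mem_map.1 hv
  simpa using h3 u hu

lemma conn_theta (t : V) (ω : Ω) (z a b : V) : Conn (theta t ω) z a b ↔
    Conn ω (z + t) (a + t) (b + t) := by
  refine ⟨conn_theta_imp t ω z a b, fun h => ?_⟩
  have h1 := conn_theta_imp (-t) (theta t ω) (z + t) (a + t) (b + t)
  rw [theta_neg_theta] at h1
  simpa using h1 h

lemma tri_theta (t : V) (ω : Ω) (z : V) : Tri (theta t ω) z ↔ Tri ω (z + t) := by
  unfold Tri
  constructor
  · rintro ⟨a, b, c, h1, h2, h3, h4, h5, h6⟩
    rw [allowed_theta] at h1 h2 h3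
    rw [conn_theta] at h4 h5 h6
    exact ⟨_, _, _, h1, h2, h3, h4, h5, h6⟩
  · rintro ⟨a, b, c, h1, h2, h3, h4, h5, h6⟩
    refine ⟨a - t, b - t, c - t, ?_, ?_, ?_, ?_, ?_, ?_⟩
    · rw [allowed_theta]; simpa using h1
    · rw [allowed_theta]; simpa using h2
    · rw [allowed_theta]; simpa using h3
    · rw [conn_theta]; simpa using h4
    · rw [conn_theta]; simpa using h5
    · rw [conn_theta]; simpa using h6

variable (G : Measure ℝ≥0) [IsProbabilityMeasure G]

theorem tri_null : PP G {ω | Tri ω 0} = 0 := by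
  classical
  have key := fun N : ℕ => expect_count G (S := fun z ω => Tri ω z) measurable_tri
    (fun x ω => by rw [tri_theta, zero_add]) (boxF N)
  set p := PP G {ω | Tri ω 0} with hp
  have hpfin : p ≠ ⊤ := measure_ne_top _ _
  have hbound : ∀ N : ℕ, (((2 * N + 1) ^ 2 : ℕ) : ℝ≥0∞) * p ≤ ((8 * N + 12 : ℕ) : ℝ≥0∞) := by
    intro N
    have e := key N
    rw [card_boxF] at e
    rw [← e]
    calc ∫⁻ ω, ∑ x ∈ boxF N, (if Tri ω x then (1 : ℝ≥0∞) else 0) ∂(PP G)
        ≤ ∫⁻ _ω, ((8 * N + 12 : ℕ) : ℝ≥0∞) ∂(PP G) := by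
          refine lintegral_mono fun ω => ?_
          simp only
          rw [Finset.sum_boole]
          have h1 := tri_count ω N
          have h2 := card_shellF N
          have h3 : ((boxF N).filter fun z => Tri ω z).card ≤ 8 * N + 12 := by
            convert h1.trans h2
          exact_mod_cast h3
      _ = ((8 * N + 12 : ℕ) : ℝ≥0∞) := by simp
  by_contra hne
  have hpos : 0 < p.toReal := ENNReal.toReal_pos hne hpfin
  obtain ⟨N, hN⟩ := exists_nat_gt (20 / p.toReal)
  have h2 := ENNReal.toReal_mono (ENNReal.natCast_ne_top _) (hbound N)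
  rw [ENNReal.toReal_mul, ENNReal.toReal_natCast, ENNReal.toReal_natCast] at h2
  push_cast at h2
  rw [div_lt_iff₀ hpos] at hN
  have hN0 : (0 : ℝ) ≤ N := Nat.cast_nonneg _
  have h3 : (N : ℝ) * p.toReal * (N : ℝ) ≥ 20 * N := by nlinarith
  have h4 : (2 * (N : ℝ) + 1) ^ 2 * p.toReal ≥ 4 * (N : ℝ) * N * p.toReal + p.toReal := by
    nlinarith [mul_nonneg hN0 hpos.le]
  have h5 : (0 : ℝ) < N ∨ (N : ℝ) = 0 := by
    rcases hN0.lt_or_eq with h | h
    · exact Or.inl h
    · exact Or.inr h.symm
  rcases h5 with h5 | h5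
  · have h6 : (1 : ℝ) ≤ N := by exact_mod_cast h5
    nlinarith
  · rw [h5] at hN
    linarith

/-- **Theorem.** For every atomless law almost surely there is no trifurcation. (Atomlessness is
not even needed here.) -/
theorem no_tri : ∀ᵐ ω ∂(PP G), ∀ z, ¬ Tri ω z := by
  rw [ae_all_iff]
  intro z
  refine ae_iff.2 ?_
  simp only [not_not]
  have e : {ω | Tri ω z} = theta z ⁻¹' {ω | Tri ω 0} := by
    ext ω
    simp only [Set.mem_ofPred_eq, Set.mem_preimage]
    rw [tri_theta, zero_add]
  rw [e, (measurePreserving_theta G z).measure_preimage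
    (measurableSet_setOfPred.2 (measurable_tri 0)).nullMeasurableSet]
  exact tri_null G

/-- **Theorem.** Almost surely every bigeodesic branches infinitely often in both directions, and
at every vertex two of any three bigeodesic edges are joined by a path of bigeodesic edges avoiding
the vertex. -/
theorem branching_cycle (hG : ∀ x, G {x} = 0) : ∀ᵐ ω ∂(PP G),
    (∀ L, IsBigeodesic ω L → ∀ k₀ : ℤ,
      (∃ k, k₀ ≤ k ∧ ∃ M, IsBigeodesic ω M ∧ M 0 = L k ∧ M 1 ≠ L (k - 1) ∧ M 1 ≠ L (k + 1)) ∧
      (∃ k, k ≤ k₀ ∧ ∃ M, IsBigeodesic ω M ∧ M 0 = L k ∧ M 1 ≠ L (k - 1) ∧ M 1 ≠ L (k + 1))) ∧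
    (∀ z a b c, Allowed ω z a → Allowed ω z b → Allowed ω z c →
      Conn ω z a b ∨ Conn ω z a c ∨ Conn ω z b c) := by
  filter_upwards [branching G hG, no_tri G] with ω h1 h2
  refine ⟨h1, fun z a b c ha hb hc => ?_⟩
  by_contra hn
  push Not at hn
  exact h2 z ⟨a, b, c, ha, hb, hc, hn.1, hn.2.1, hn.2.2⟩

end Vale.Agent.Lib.P158
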