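import Vale.Agent.Lib.P158.RepCount

/-!
# At most one isolated bigeodesic
-/

open MeasureTheory Set
open scoped NNReal ENNReal

namespace Vale.Agent.Lib.P158

variable (G : Measure ℝ≥0) [IsProbabilityMeasure G]

lemma measure_rep_eq (u : V) (R : ℕ) (x : V) :
    PP G {ω | IsRep ω u R x} = PP G {ω | IsRep ω u R 0} := by
  have e : {ω | IsRep ω u R x} = theta x ⁻¹' {ω | IsRep ω u R 0} := by
    ext ω
    simp only [Set.mem_ofPred_eq, Set.mem_preimage]
    rw [isRep_theta, zero_add]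
  rw [e, (measurePreserving_theta G x).measure_preimage
    (measurableSet_setOfPred.2 (measurable_isRep u R 0)).nullMeasurableSet]

lemma count_arith {c a T : ℕ} (h : c ^ 2 ≤ a * c + 2 * a ^ 3) (ha : a ≤ 16 * T ^ 2) (hT : 1 ≤ T) :
    c ≤ 100 * T ^ 3 := by
  by_contra hc
  push Not at hc
  have h1 : a * c + 2 * a ^ 3 ≤ 16 * T ^ 2 * c + 2 * (16 * T ^ 2) ^ 3 := by gcongr
  have h2 : 100 * T ^ 3 * c ≤ c ^ 2 := by
    rw [sq]
    exact Nat.mul_le_mul_right _ hc.le
  have h3 : T ^ 2 ≤ T ^ 3 := Nat.pow_le_pow_right hT (by norm_num)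
  have h4 : T ^ 2 * c ≤ T ^ 3 * c := Nat.mul_le_mul_right _ h3
  have h5 : T ^ 3 * (100 * T ^ 3) ≤ T ^ 3 * c := Nat.mul_le_mul_left _ hc.le
  have h6 : 0 < T ^ 6 := pow_pos hT 6
  have e1 : 2 * (16 * T ^ 2) ^ 3 = 8192 * T ^ 6 := by ring
  have e2 : T ^ 3 * (100 * T ^ 3) = 100 * T ^ 6 := by ring
  have e3 : 16 * T ^ 2 * c = 16 * (T ^ 2 * c) := by ring
  have e4 : 100 * T ^ 3 * c = 100 * (T ^ 3 * c) := by ring
  rw [e1, e3] at h1
  rw [e2] at h5
  rw [e4] at h2
  omega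

open Classical in
theorem rep_null {u : V} (hu : dist1 0 u = 1) (R : ℕ) : PP G {ω | IsRep ω u R 0} = 0 := by
  set p := PP G {ω | IsRep ω u R 0} with hp
  have hpfin : p ≠ ⊤ := measure_ne_top _ _
  have hms : ∀ x, MeasurableSet {ω | IsRep ω u R x} := fun x =>
    measurableSet_setOfPred.2 (measurable_isRep u R x)
  have key : ∀ t : ℕ, R + 2 ≤ t → (((2 * t ^ 2 + 1) ^ 2 : ℕ) : ℝ≥0∞) * p ≤ ((100 * t ^ 3 : ℕ) : ℝ≥0∞) := by
    intro t ht
    set n := t ^ 2 with hn
    have hnt : t ≤ n := by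
      rw [hn, sq]
      exact Nat.le_mul_self t
    have hbound : ∀ ω, ((boxF n).filter fun x => IsRep ω u R x).card ≤ 100 * t ^ 3 := by
      intro ω
      refine count_arith (rep_count ω hu R n) ?_ (by omega)
      have := card_shellF (n + R)
      omega
    have e1 : ∫⁻ ω, ∑ x ∈ boxF n, (if IsRep ω u R x then (1 : ℝ≥0∞) else 0) ∂(PP G) =
        ∑ x ∈ boxF n, PP G {ω | IsRep ω u R x} := by
      rw [lintegral_finsetSum]
      · refine Finset.sum_congr rfl fun x _ => ?_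
        rw [← lintegral_indicator_one (hms x)]
        refine lintegral_congr fun ω => ?_
        by_cases h : IsRep ω u R x <;> simp [Set.indicator, h]
      · intro x _
        exact Measurable.ite (hms x) measurable_const measurable_const
    have e2 : ∑ x ∈ boxF n, PP G {ω | IsRep ω u R x} = (((2 * n + 1) ^ 2 : ℕ) : ℝ≥0∞) * p := by
      rw [Finset.sum_congr rfl fun x _ => measure_rep_eq G u R x, Finset.sum_const, card_boxF,
        nsmul_eq_mul]
    rw [← e2, ← e1]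
    calc ∫⁻ ω, ∑ x ∈ boxF n, (if IsRep ω u R x then (1 : ℝ≥0∞) else 0) ∂(PP G)
        ≤ ∫⁻ _ω, ((100 * t ^ 3 : ℕ) : ℝ≥0∞) ∂(PP G) := by
          refine lintegral_mono fun ω => ?_
          simp only
          rw [Finset.sum_boole]
          exact_mod_cast hbound ω
      _ = ((100 * t ^ 3 : ℕ) : ℝ≥0∞) := by simp
  by_contra hne
  have hpos : 0 < p.toReal := ENNReal.toReal_pos hne hpfin
  obtain ⟨t₀, ht₀⟩ := exists_nat_gt (25 / p.toReal)
  set t := t₀ + R + 2 with ht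
  have h1 := key t (by omega)
  have h2 : ((2 * (t : ℝ) ^ 2 + 1) ^ 2) * p.toReal ≤ 100 * (t : ℝ) ^ 3 := by
    have := ENNReal.toReal_mono (ENNReal.natCast_ne_top _) h1
    rw [ENNReal.toReal_mul, ENNReal.toReal_natCast, ENNReal.toReal_natCast] at this
    push_cast at this
    exact this
  have htpos : (0 : ℝ) < t := by
    rw [ht]
    positivity
  have h3 : 25 / p.toReal < t := by
    calc 25 / p.toReal < t₀ := ht₀
      _ ≤ t := by
        rw [ht]
        push_cast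
        linarith [(Nat.cast_nonneg R : (0 : ℝ) ≤ R)]
  have h4 : 25 < t * p.toReal := by
    rwa [div_lt_iff₀ hpos] at h3
  have h5 : 4 * (t : ℝ) ^ 4 ≤ (2 * (t : ℝ) ^ 2 + 1) ^ 2 := by
    nlinarith [sq_nonneg ((t : ℝ) ^ 2), sq_nonneg (t : ℝ)]
  have h6 : 4 * (t : ℝ) ^ 4 * p.toReal ≤ 100 * (t : ℝ) ^ 3 :=
    (mul_le_mul_of_nonneg_right h5 hpos.le).trans h2
  have h7 : (t : ℝ) ^ 3 * (4 * (t * p.toReal)) ≤ (t : ℝ) ^ 3 * 100 := by
    calc (t : ℝ) ^ 3 * (4 * (t * p.toReal)) = 4 * (t : ℝ) ^ 4 * p.toReal := by ring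
      _ ≤ 100 * (t : ℝ) ^ 3 := h6
      _ = (t : ℝ) ^ 3 * 100 := by ring
  have h8 := le_of_mul_le_mul_left h7 (pow_pos htpos 3)
  linarith

lemma dist_e1 : dist1 0 e1 = 1 := by simp [dist1]
lemma dist_e2 : dist1 0 e2 = 1 := by simp [dist1]

/-- **Theorem.** For every atomless law, almost surely there are no two disjoint isolated
bigeodesics. -/
theorem no_two_isolated (hG : ∀ x, G {x} = 0) :
    ∀ᵐ ω ∂(PP G), ¬ ∃ L M, IsIsolated ω L ∧ IsIsolated ω M ∧ ∀ i j, L i ≠ M j := by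
  have h1 := ae_no_term G (u := (0, 1)) (by simp [dist1])
  have h2 := ae_no_term G (u := (0, -1)) (by simp [dist1])
  have h3 := no_near_isolated_pair (G := G) hG
  have hrep : ∀ {u : V}, dist1 0 u = 1 → ∀ᵐ ω ∂(PP G), ∀ R x, ¬ IsRep ω u R x := by
    intro u hu
    simp only [ae_all_iff]
    intro R x
    refine ae_iff.2 ?_
    simp only [not_not]
    rw [measure_rep_eq G u R x]
    exact rep_null G hu R
  filter_upwards [h1, h2, h3, hrep dist_e1, hrep dist_e2] with ω a1 a2 a3 a4 a5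
  rintro ⟨L, M, hL, hM, hd⟩
  rcases chord_exists a1 a2 hL hM hd with ⟨R, x, k, hc⟩ | ⟨R, x, k, hc⟩
  · obtain ⟨y, hy⟩ := rep_of_chord a3 dist_e1 hc
    exact a4 R y hy
  · obtain ⟨y, hy⟩ := rep_of_chord a3 dist_e2 hc
    exact a5 R y hy

/-- **Theorem.** For every atomless law, almost surely any two isolated bigeodesics coincide up to
a shift or a reversal of the parametrisation. -/
theorem isolated_unique (hG : ∀ x, G {x} = 0) :
    ∀ᵐ ω ∂(PP G), ∀ L M, IsIsolated ω L → IsIsolated ω M →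
      ∃ c, (∀ k, M k = L (k + c)) ∨ (∀ k, M k = L (c - k)) := by
  filter_upwards [no_two_isolated G hG] with ω hω L M hL hM
  by_contra hc
  apply hω
  refine ⟨L, M, hL, hM, fun i j he => hc ?_⟩
  exact hL.2 M hM.1 ⟨j, i, he.symm⟩

end Vale.Agent.Lib.P158
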